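import Crest.Agent.N325.M0.Std
import Crest.Agent.N325.M0.Tac
import Crest.Agent.N325.Tw.BotImpl
import Crest.Agent.N325.Mt.Search

-- ▼ part N325/M0/Std2
section

/-!
# N325 / M0 (helper34): the computable bound `qq N = N ^ o(1)`, the class `PwQ`, `goal_pq`

Every `SubQ` function is eventually below `qq`; the final time bound may be a power of `qq`.
-/

set_option autoImplicit false

namespace Crest.Agent.N325

open Crest.GraphRAM Filter

/-- the computable bound for all `SubQ` functions -/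
def qq (N : ℕ) : ℕ := rt (lam N) N

theorem two_le_qq (N : ℕ) : 2 ≤ qq N := two_le_rt _ _
theorem qq_pos (N : ℕ) : 0 < qq N := two_pos.trans_le (two_le_qq N)
theorem subP_qq : SubP qq := subP_rt_lam
theorem SubQ.le_qq {G : ℕ → ℕ} (h : SubQ G) : ∀ᶠ N in atTop, G N ≤ qq N := h.le
theorem qq_le (N : ℕ) : qq N ≤ 2 * N + 2 := rt_le _ _

/-- program for `qq` -/
def qqR (N : ℕ) : R ℕ := do
  let l ← lamR N
  rtR l N

theorem sp_qqR {g : Gl} {N : ℕ} (h : 2 * N + 2 ≤ g.X) :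
    Sp g (qqR N) fun r t => r = qq N ∧ t ≤ 7 * N + 9 := by
  refine (sp_lamR _).bind fun l t2 k2 => (sp_rtR h).mono fun r t3 k3 => ?_
  have := Nat.log_le_self 2 N
  exact ⟨by rw [k3.1, k2.1]; rfl, by omega⟩

@[fun_prop] theorem impl_qqR {α : Type} [Rp α] {x : α → ℕ} (h : Pu true x) :
    Impl fun a => qqR (x a) := by
  unfold qqR; fun_prop

/-- bounded by a power of `qq` -/
@[fun_prop] def PwQ (G : ℕ → ℕ) : Prop := ∃ q, ∀ᶠ N in atTop, G N ≤ qq N ^ q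

namespace PwQ
variable {G H : ℕ → ℕ}

theorem of_eventually (h : PwQ H) (k : ∀ᶠ N in atTop, G N ≤ H N) : PwQ G := by
  obtain ⟨q, h⟩ := h
  exact ⟨q, by filter_upwards [h, k] with N h1 h2 using h2.trans h1⟩

theorem mono (h : PwQ H) (k : ∀ N, G N ≤ H N) : PwQ G := h.of_eventually (.of_forall k)

theorem of_subQ (h : SubQ G) : PwQ G := ⟨1, by simpa only [pow_one] using h.le_qq⟩

@[fun_prop] theorem self : PwQ qq := ⟨1, .of_forall fun _ => (pow_one _).ge⟩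
@[fun_prop] theorem const (c : ℕ) : PwQ fun _ => c := of_subQ (SubQ.const c)
@[fun_prop] theorem log : PwQ fun N => Nat.log 2 N := of_subQ SubQ.log
@[fun_prop] theorem clog : PwQ fun N => Nat.clog 2 (N + 2) := of_subQ SubQ.clog

@[fun_prop] theorem mul (g : PwQ G) (h : PwQ H) : PwQ fun N => G N * H N := by
  obtain ⟨a, g⟩ := g; obtain ⟨b, h⟩ := h
  refine ⟨a + b, ?_⟩
  filter_upwards [g, h] with N h1 h2
  rw [pow_add]; exact Nat.mul_le_mul h1 h2

@[fun_prop] theorem add (g : PwQ G) (h : PwQ H) : PwQ fun N => G N + H N := by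
  obtain ⟨a, g⟩ := g; obtain ⟨b, h⟩ := h
  refine ⟨a + b + 1, ?_⟩
  filter_upwards [g, h] with N h1 h2
  have a1 : qq N ^ a ≤ qq N ^ (a + b) := Nat.pow_le_pow_right (qq_pos N) (by omega)
  have a2 : qq N ^ b ≤ qq N ^ (a + b) := Nat.pow_le_pow_right (qq_pos N) (by omega)
  have a3 := Nat.mul_le_mul_left (qq N ^ (a + b)) (two_le_qq N)
  rw [pow_succ]; omega

@[fun_prop] theorem pow (g : PwQ G) (c : ℕ) : PwQ fun N => G N ^ c := by
  obtain ⟨a, g⟩ := g
  refine ⟨a * c, g.mono fun N h => ?_⟩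
  rw [pow_mul]; exact Nat.pow_le_pow_left h c

@[fun_prop] theorem max (g : PwQ G) (h : PwQ H) : PwQ fun N => max (G N) (H N) :=
  (g.add h).mono fun _ => max_le (Nat.le_add_right _ _) (Nat.le_add_left _ _)

@[fun_prop] theorem div (g : PwQ G) (H : ℕ → ℕ) : PwQ fun N => G N / H N :=
  g.mono fun _ => Nat.div_le_self _ _

@[fun_prop] theorem sub (g : PwQ G) (H : ℕ → ℕ) : PwQ fun N => G N - H N :=
  g.mono fun _ => Nat.sub_le _ _

theorem log_of_le {a : ℕ → ℕ} (c : ℕ) (h : ∀ᶠ N in atTop, a N ≤ (N + 2) ^ c) :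
    PwQ fun N => Nat.log 2 (a N) := of_subQ (SubQ.log_of_le c h)

theorem subP (g : PwQ G) : SubP G := by
  obtain ⟨a, g⟩ := g
  exact (subP_qq.pow a).of_eventually g

/-- `c * G N ≤ N` eventually -/
theorem neg (g : PwQ G) : Neg G fun N => N := g.subP.neg

theorem le_self (g : PwQ G) : ∀ᶠ N in atTop, G N ≤ N := by
  simpa only [one_mul] using g.neg 1

end PwQ

/-- the fuel with a power of `qq` -/
def fuQ (C q : ℕ) (inp : List ℕ) : R ℕ := do
  let N ← sizeR inp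
  let r ← qqR N
  nat (C * (N * r ^ q))

theorem impl_fuQ (C q : ℕ) : Impl (fuQ C q) := by
  unfold fuQ; impl

theorem sp_fuQ {g : Gl} {C q n : ℕ} {adj : Fin n → List (Fin n)}
    (h : C * (sizeN n adj * qq (sizeN n adj) ^ q) ≤ g.X) (h' : 2 * sizeN n adj + 2 ≤ g.X) :
    Sp g (fuQ C q (adjInput n adj)) fun r t =>
      r = C * (sizeN n adj * qq (sizeN n adj) ^ q) ∧ t ≤ 9 * sizeN n adj + 13 := by
  refine (sp_sizeR n adj).bind fun N t1 k1 => ?_
  rw [k1.1]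
  refine (sp_qqR h').bind fun r t3 k3 => ?_
  rw [k3.1]
  exact sp_nat.2 ⟨h, rfl, by omega⟩

/-- **the wrapper for large inputs, time `N * G N` with `PwQ G`** -/
theorem goal_pq (slow alg : List ℕ → R (List ℕ)) (S G : ℕ → ℕ) (c : ℕ) (hs : Impl slow)
    (ha : Impl alg) (hG : PwQ G)
    (hslow : ∀ (n : ℕ) (Γ : SimpleGraph (Fin n)) (adj : Fin n → List (Fin n)), 1 ≤ n →
      (∀ v, (adj v).Nodup ∧ ∀ u, u ∈ adj v ↔ Γ.Adj v u) →
      Sp ⟨S (sizeN n adj), -1⟩ (slow (adjInput n adj))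
        fun out t => IsMaxMatchingOutput Γ out ∧ t ≤ S (sizeN n adj))
    (halg : ∀ᶠ N : ℕ in atTop, ∀ (n : ℕ) (Γ : SimpleGraph (Fin n)) (adj : Fin n → List (Fin n)),
      1 ≤ n → (∀ v, (adj v).Nodup ∧ ∀ u, u ∈ adj v ↔ Γ.Adj v u) → sizeN n adj = N →
      Sp ⟨(N + 2) ^ c, 1 / ((N : ℝ) + 2) ^ 3⟩ (alg (adjInput n adj))
        fun out t => IsMaxMatchingOutput Γ out ∧ t ≤ N * G N) : Goal := by
  obtain ⟨q, hG⟩ := hG
  have hq : SubP fun N => qq N ^ (q + 1) := subP_qq.pow _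
  obtain ⟨N0, hN0⟩ := eventually_atTop.1 ((halg.and hG).and (hq.neg 4))
  let C : ℕ := (∑ N ∈ Finset.range N0, (S N + (2 * N + 4))) + 11
  have hF : AL fun N => C * (N * qq N ^ (q + 1)) := AL.mul_left (SubP.const C) (AL.id.mul hq)
  obtain ⟨k, hk⟩ := hF.lt_pow
  have hC : 11 ≤ C := Nat.le_add_left _ _
  have hS : ∀ N < N0, S N + (2 * N + 4) ≤ C := fun N h =>
    (Finset.single_le_sum (f := fun N => S N + (2 * N + 4)) (fun _ _ => Nat.zero_le _)
      (Finset.mem_range.2 h)).trans (Nat.le_add_right _ _)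
  refine goal_of (sw N0 slow alg) (fuQ C (q + 1))
    (fun N => if N < N0 then S N + (2 * N + 4) else 4 * (N * qq N ^ (q + 1))) _ (c + k)
    (by unfold sw; fun_prop) (impl_fuQ C _) hF fun n Γ adj hn hadj => ?_
  have hN : 1 ≤ sizeN n adj := hn.trans (le_sizeN n adj)
  have s1 := hslow n Γ adj hn hadj
  have s2 := fun h => (hN0 (sizeN n adj) h).1.1 n Γ adj hn hadj rfl
  have s3 := @sp_sizeR
  have s4 := @sp_fuQ ⟨(sizeN n adj + 2) ^ (c + k), -1⟩ C (q + 1) n adj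
  replace s3 := fun g => @s3 g n adj
  generalize sizeN n adj = N at *
  have r1 : qq N ^ q ≤ qq N ^ (q + 1) := Nat.pow_le_pow_right (qq_pos N) (by omega)
  have r2 : 2 ≤ qq N ^ (q + 1) := (two_le_qq N).trans (Nat.le_self_pow (by omega) _)
  have k1 := hk N hN
  have k2 : (N + 2) ^ k ≤ (N + 2) ^ (c + k) := Nat.pow_le_pow_right (by omega) (by omega)
  have k3 : (N + 2) ^ c ≤ (N + 2) ^ (c + k) := Nat.pow_le_pow_right (by omega) (by omega)
  have k4 : N * 2 ≤ N * qq N ^ (q + 1) := Nat.mul_le_mul_left _ r2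
  have k5 := Nat.mul_le_mul_right (N * qq N ^ (q + 1)) hC
  have k6 : C * 1 ≤ C * (N * qq N ^ (q + 1)) := Nat.mul_le_mul_left _ (by omega)
  have k7 := hS N
  dsimp only at *
  refine ⟨(s4 (by omega) (by omega)).mono fun F t h => ⟨?_, h.1.le, by omega⟩,
    (s3 _).bind fun M t h => ?_⟩
  · split_ifs with e
    · have := k7 e; omega
    · omega
  · rw [h.1]
    split_ifs with e
    · have := k7 e
      exact (s1.gl (by dsimp only; omega) (neg_one_lt_zero.le.trans (by positivity))).mono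
        fun out s q => ⟨q.1, by omega⟩
    · obtain ⟨⟨_, q1⟩, q2⟩ := hN0 N (by omega)
      have q3 := Nat.mul_le_mul_left N (q1.trans r1)
      refine ((s2 (by omega)).gl k3 (one_div_le_one_div_of_le (by positivity) ?_)).mono
        fun out s q => ⟨q.1, by omega⟩
      have q4 : 3 * (4 * (N * qq N ^ (q + 1)) + 1) ≤ (N + 2) ^ 3 := by
        have := Nat.mul_le_mul_left N q2
        nlinarith [Nat.zero_le (N ^ 3)]
      exact_mod_cast q4

end Crest.Agent.N325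
end

-- ▼ part N325/Fin/Defs

/-!
# Row 325 (helper57): the seams of the final assembly

`N` = size of the input, `Q` = one number `N ^ o(1)` that bounds all losses.
-/

set_option autoImplicit false

namespace Crest.Agent.N325.Fin

open Filter Tw Mt

/-- the programs of an oracle: parameters `(h, θ, κ)` -/
abbrev Run (T : Type) : Type := ℕ × ℕ × ℕ → Cmd × T → R (T × Rep × Bool)

/-- the canonical constants of the oracle -/
def kO (c0 N Q θ κ : ℕ) : TC :=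
  { c := ⟨128 * (N + 1), (N + 2) ^ c0, (N + 2) ^ c0, (N + 2) ^ c0⟩
    th := Q, ψ := 1, er := θ * Q, rp := (θ + κ) * Q, wt := 1, cc := 2
    AU := Q, AS := (κ / θ + 1) * Q, AD := N * Q, AR := N * Q }

/-- **seam (O)**: the oracle for graphs whose numbers are at most `(N + 2) ^ c0` -/
def OracleStmt : Prop :=
  ∀ c0 : ℕ, ∃ (T : Type) (_ : Rp T) (mk : ℕ → R (ℕ × T)) (run : Run T) (c1 : ℕ) (G : ℕ → ℕ),
    Impl mk ∧ (Impl fun p : (ℕ × ℕ × ℕ) × Cmd × T => run p.1 p.2) ∧ SubQ G ∧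
    ∀ᶠ N : ℕ in atTop, ∀ (g : Gl) (Q θ κ : ℕ), G N ≤ Q → 1 ≤ θ → θ ≤ κ → (N + 2) ^ c1 ≤ κ →
      κ * (N + 2) ^ c1 ≤ g.X → ∃ (h : ℕ) (Sh : T → Prop) (I : T → Gr → (ℕ → ℤ) → Prop)
        (Ψ : T → ℕ), (Sp g (mk N) fun r t => r.1 = h ∧ Sh r.2 ∧ t ≤ N * Q) ∧
          TowerSpec g θ κ (run (h, θ, κ)) (kO c0 N Q θ κ) Sh I Ψ

/-- graphs of maximum degree three on `range n` -/
structure Cub (n : ℕ) (E : ℕ → ℕ → Prop) (adj : Arr (List ℕ)) : Prop where
  symm : ∀ a b, E a b → E b a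
  irr : ∀ a, ¬E a a
  lt : ∀ a b, E a b → a < n ∧ b < n
  ad : Adj (Finset.range n) E adj
  nd : ∀ v, (adj.get v).Nodup
  deg : ∀ v, (adj.get v).length ≤ 3

/-- **seam (P)**: matching in graphs of degree three on top of an oracle; the input of `alg` is
`(N, Q, h, t, n, adj)` -/
def MatchStmt : Prop :=
  ∃ c0 : ℕ, ∀ (c1 : ℕ) (T : Type) [Rp T] (run : Run T),
    (Impl fun p : (ℕ × ℕ × ℕ) × Cmd × T => run p.1 p.2) →
    ∃ (alg : ℕ × ℕ × ℕ × T × ℕ × Arr (List ℕ) → R (Arr ℕ)) (θ κ : ℕ → ℕ → ℕ) (c2 e : ℕ),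
      Impl alg ∧ ∀ᶠ N : ℕ in atTop, ∀ Q : ℕ, (Nat.log 2 N + 2) ^ e ≤ Q → Q ^ e ≤ N →
        1 ≤ θ N Q ∧ θ N Q ≤ κ N Q ∧ (N + 2) ^ c1 ≤ κ N Q ∧ κ N Q ≤ (N + 2) ^ c2 ∧
        ∀ (g : Gl) (h : ℕ) (Sh : T → Prop) (I : T → Gr → (ℕ → ℤ) → Prop) (Ψ : T → ℕ) (t0 : T)
          (n : ℕ) (E : ℕ → ℕ → Prop) (adj : Arr (List ℕ)), (N + 2) ^ c2 ≤ g.X →
          1 / ((N : ℝ) + 2) ^ 3 ≤ g.d → g.d < 1 →
          TowerSpec g (θ N Q) (κ N Q) (run (h, θ N Q, κ N Q)) (kO c0 N Q (θ N Q) (κ N Q)) Sh I Ψ →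
          Sh t0 → n ≤ 4 * N + 4 → Cub n E adj →
          Sp g (alg (N, Q, h, t0, n, adj)) fun m t => IsM (Finset.range n) E m.get ∧
            (∀ m', IsM (Finset.range n) E m' →
              ex (Finset.range n) m.get ≤ ex (Finset.range n) m' + 2 * Q) ∧ t ≤ N * Q ^ e

end Crest.Agent.N325.Fin
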