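import Crest.Agent.N325.Ip.Par_Mg
import Crest.Agent.N325.Ip.Weak
import Crest.Agent.N325.Fin.Defs
import Crest.Agent.N325.Mt.Walk
import Crest.Agent.N325.Bf.Walk
import Crest.Agent.N325.Lst.ListImpl
import Crest.Agent.N325.P2.Util
import Crest.Agent.N325.Ml.Defs
import Crest.Agent.N325.P2.Rp
import Crest.Agent.N325.P2.Defs2
import Crest.Agent.N325.Ml.Phase
import Crest.Agent.N325.Wk.Inst
import Crest.Agent.N325.P2.Dual2

-- ▼ part N325/Ip/Top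
section

/-! # Row 325 (helper37): the layer `Ip` on a tower, constants in closed form -/

set_option autoImplicit false

namespace Crest.Agent.N325.Ip

open Crest.Agent.N325.Tw

/-- the constants of the layer from the amortised times of the tower, `Γ ≥ th / ψ` -/
def icOf (cl AU AS AR Γ : ℕ) : IC :=
  ⟨cl, AR + 1, AU + cl + 4, AS + 6, (AS + 5) * 10 ^ 6 * Γ ^ 2⟩

/-- what the layer asks of the tower -/
structure Ask (r : Raw) (k : TC) (m nb cl AU AS AR Γ Y : ℕ) : Prop where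
  hm : m ≤ k.c.m
  mnb : m ≤ k.c.nb
  hnb : nb ≤ k.c.nb
  lb : r.lb ≤ k.c.lb
  gb : r.gb ≤ k.c.gb
  th : k.th ≤ r.th
  ψ : r.ψ ≤ k.ψ
  hΓ : r.th ≤ Γ * r.ψ
  er : k.er ≤ r.ε * r.θ
  rp : k.rp ≤ Y ^ 11
  wt : 2 * AU + 4 + cl ≤ k.wt * r.τ
  cc : 2 ≤ k.cc
  hAU : k.AU ≤ AU
  hAS : k.AS ≤ AS
  hAR : k.AR ≤ AR
  F : r.F + 2 * (AU + AS) + 10 ≤ Y
  fu : Y < r.fu

/-- **seam (I)** -/
theorem ipTop {T : Type} {g : Gl} {run : Cmd × T → R (T × Rep × Bool)} {k : TC} {Sh : T → Prop}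
    {It : T → Gr → (ℕ → ℤ) → Prop} {Ψ : T → ℕ} {r : Raw} {m nb cl AU AS AR Γ Y : ℕ}
    (hS : TowerSpec g r.θ r.κ run k Sh It Ψ) (p : r.Pos) (h : r.Le Y) (hX : Y ^ 13 ≤ g.X)
    (a : Ask r k m nb cl AU AS AR Γ Y) :
    ∃ I Φ, IpSpec g run r.P (r.B m nb) (icOf cl AU AS AR Γ) Sh I Φ := by
  let k' : TC := ⟨k.c, r.th, r.ψ, k.er, k.rp, k.wt, k.cc, AU, AS, k.AD, AR⟩
  have hS' : TowerSpec g r.θ r.κ run k' Sh It Ψ :=
    hS.weak ⟨le_rfl, le_rfl, le_rfl, le_rfl, a.th, a.ψ, le_rfl, le_rfl, le_rfl, le_rfl, a.hAU, a.hAS,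
      le_rfl, a.hAR⟩
  refine ⟨_, _, ipSpec hS' (p.num a.er m nb) ⟨p.θ, a.cc, a.hm, a.mnb, a.hnb, a.lb, a.gb, ?_,
    (h.up (h.lb p) (by norm_num)).trans hX, (h.gb p).trans hX, ?_, ?_, le_rfl, le_rfl, le_rfl, ?_⟩⟩
  · change r.θ * (2 * AU + 4 + cl) ≤ k.wt * (r.τ * r.θ)
    rw [← mul_assoc, mul_comm]
    exact Nat.mul_le_mul_right _ a.wt
  · change r.W * r.D + k.er + k.rp * (r.F + 2 * (AU + AS) + 10) ≤ g.X
    have h1 : k.er ≤ Y ^ 10 :=
      a.er.trans ((Nat.mul_le_mul_right _ (Nat.le_add_right _ _)).trans (h.κ p))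
    exact (h.two (i := 12) (h.up (h.two (h.up h.Mu (by norm_num)) h1) (by norm_num))
      (Raw.mul_le1 a.rp a.F)).trans hX
  · change r.F + AU + AS + 10 < r.fu
    have := a.F; have := a.fu; omega
  · change (AS + 5) * (10 ^ 6 * r.th ^ 2) ≤ (AS + 5) * 10 ^ 6 * Γ ^ 2 * r.ψ ^ 2
    rw [mul_assoc, mul_assoc, ← mul_pow]
    exact Nat.mul_le_mul_left _ (Nat.mul_le_mul_left _ (Nat.pow_le_pow_left a.hΓ 2))

end Crest.Agent.N325.Ip
end

-- ▼ part N325/Fin/Ip0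
section

/-!
# N325 / Fin (helper34): the flow layer on the canonical oracle
-/

set_option autoImplicit false

namespace Crest.Agent.N325.Fin

open Tw Ip

/-- the raw scales -/
def raw (c1 N Q : ℕ) : Raw :=
  ⟨Q, 1, Q, 3 * Q, (N + 2) ^ c1, (N + 2) ^ 4, (N + 2) ^ 3, (N + 2) ^ 2, (N + 2) ^ 3, (N + 2) ^ 6,
    (N + 2) ^ (c1 + 8) + 1⟩

/-- the constants of the flow layer -/
def icF (N Q : ℕ) : IC := icOf 1000 Q ((4 * Q + 1) * Q) (N * Q) Q

theorem Raw_lb_eq {r : Raw} (p : r.Pos) : r.lb = r.Gl * r.cb * (r.F + 1) ^ 2 * r.Λ + 3 := by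
  change r.Gl * r.cb * r.s0 * r.D / (r.sm * r.sm) + 3 = _
  have e : r.Gl * r.cb * r.s0 * r.D = r.Gl * r.cb * (r.F + 1) ^ 2 * r.Λ * (r.sm * r.sm) := by
    unfold Raw.D Raw.s0; ring
  rw [e, Nat.mul_div_cancel _ (Nat.mul_pos p.sm p.sm)]

theorem Raw_gb_eq {r : Raw} (p : r.Pos) :
    r.gb = 40 * r.th * r.Gl * (r.pb + r.cb * (r.F + 1) ^ 2 * r.Λ) := by
  change 40 * r.th * r.Gl * r.pb + 40 * r.th * r.Gl * r.cb * r.s0 * r.D / (r.sm * r.sm) = _
  have e : 40 * r.th * r.Gl * r.cb * r.s0 * r.D =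
      40 * r.th * r.Gl * r.cb * (r.F + 1) ^ 2 * r.Λ * (r.sm * r.sm) := by
    unfold Raw.D Raw.s0; ring
  rw [e, Nat.mul_div_cancel _ (Nat.mul_pos p.sm p.sm)]; ring

variable {c1 N Q : ℕ}

theorem xpow_mono (N : ℕ) {i j : ℕ} (h : i ≤ j) : (N + 2) ^ i ≤ (N + 2) ^ j :=
  Nat.pow_le_pow_right (by omega) h

theorem xpow_pos (N i : ℕ) : 1 ≤ (N + 2) ^ i := Nat.one_le_pow _ _ (by omega)

theorem q_pows (hQ : 2 ^ 50 ≤ Q) (hN : Q ^ 4 ≤ N) :
    2 ^ 50 * Q ≤ Q ^ 2 ∧ 2 ^ 50 * Q ^ 2 ≤ Q ^ 3 ∧ 2 ^ 50 * Q ^ 3 ≤ N := by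
  refine ⟨?_, ?_, le_trans ?_ hN⟩
  · rw [sq]; exact Nat.mul_le_mul_right _ hQ
  · rw [pow_succ' Q 2]; exact Nat.mul_le_mul_right _ hQ
  · rw [pow_succ' Q 3]; exact Nat.mul_le_mul_right _ hQ

theorem raw_pos (hQ : 1 ≤ Q) : (raw c1 N Q).Pos :=
  ⟨le_rfl, hQ, by change 1 ≤ 3 * Q; omega, xpow_pos _ _, xpow_pos _ _, xpow_pos _ _, xpow_pos _ _⟩

theorem raw_le (hQ : 2 ^ 50 ≤ Q) (hN : Q ^ 4 ≤ N) : (raw c1 N Q).Le ((N + 2) ^ (c1 + 8)) := by
  obtain ⟨q2, q3, q4⟩ := q_pows hQ hN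
  have h1 : (N + 2) ^ 1 ≤ (N + 2) ^ (c1 + 8) := xpow_mono N (by omega)
  have h4 : (N + 2) ^ 4 ≤ (N + 2) ^ (c1 + 8) := xpow_mono N (by omega)
  have h3 : (N + 2) ^ 3 * 2 ≤ (N + 2) ^ 4 := by
    rw [pow_succ _ 3]; exact Nat.mul_le_mul_left _ (by omega)
  have := xpow_pos N 3
  rw [pow_one] at h1
  exact ⟨by omega, by change Q ≤ _; omega, by change Q + 3 * Q ≤ _; omega, xpow_mono N (by omega),
    h4, xpow_mono N (by omega), xpow_mono N (by omega), by change (N + 2) ^ 3 + 1 ≤ _; omega,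
    xpow_mono N (by omega)⟩

theorem raw_div (hQ : 1 ≤ Q) : (raw c1 N Q).κ / (raw c1 N Q).θ = 4 * Q := by
  rw [Raw.κ, Nat.mul_div_cancel _ (raw_pos hQ).θ]
  change Q + 3 * Q = _
  ring

theorem raw_Gl (hQ : 2 ^ 50 ≤ Q) (hN : Q ^ 4 ≤ N) :
    40 * Q * (raw c1 N Q).Gl ≤ (N + 2) ^ 5 := by
  obtain ⟨q2, q3, q4⟩ := q_pows hQ hN
  change 40 * Q * (4000 * Q * (Q + 3 * Q) * (N + 2) ^ 4) ≤ _
  calc 40 * Q * (4000 * Q * (Q + 3 * Q) * (N + 2) ^ 4) = 640000 * Q ^ 3 * (N + 2) ^ 4 := by ring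
    _ ≤ (N + 2) * (N + 2) ^ 4 := Nat.mul_le_mul_right _ (by omega)
    _ = _ := by ring

theorem raw_mid (N : ℕ) : (N + 2) ^ 3 * ((N + 2) ^ 3 + 1) ^ 2 * (N + 2) ^ 6 ≤ (N + 2) ^ 17 := by
  have h3 : (N + 2) ^ 3 * 2 ≤ (N + 2) ^ 4 := by
    rw [pow_succ _ 3]; exact Nat.mul_le_mul_left _ (by omega)
  have := xpow_pos N 3
  calc (N + 2) ^ 3 * ((N + 2) ^ 3 + 1) ^ 2 * (N + 2) ^ 6
      ≤ (N + 2) ^ 3 * ((N + 2) ^ 4) ^ 2 * (N + 2) ^ 6 :=
        Nat.mul_le_mul_right _ (Nat.mul_le_mul_left _ (Nat.pow_le_pow_left (by omega) 2))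
    _ = _ := by ring

theorem two_xpow (N i : ℕ) : 2 * (N + 2) ^ i ≤ (N + 2) ^ (i + 1) := by
  rw [pow_succ']; exact Nat.mul_le_mul_right _ (by omega)

theorem raw_lb (hQ : 2 ^ 50 ≤ Q) (hN : Q ^ 4 ≤ N) : (raw c1 N Q).lb ≤ (N + 2) ^ 40 := by
  have p : (raw c1 N Q).Pos := raw_pos (by omega)
  have h1 := raw_Gl (c1 := c1) hQ hN
  have h2 : 1 * (raw c1 N Q).Gl ≤ 40 * Q * (raw c1 N Q).Gl := Nat.mul_le_mul_right _ (by omega)
  have h3 := Nat.mul_le_mul ((one_mul _).ge.trans (h2.trans h1)) (raw_mid N)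
  have h4 : 2 * (N + 2) ^ 22 ≤ (N + 2) ^ 23 := two_xpow N 22
  have h5 : (N + 2) ^ 2 ≤ (N + 2) ^ 22 := xpow_mono N (by omega)
  have h6 : (N + 2) ^ 23 ≤ (N + 2) ^ 40 := xpow_mono N (by omega)
  have h7 : 2 ^ 2 ≤ (N + 2) ^ 2 := Nat.pow_le_pow_left (by omega) 2
  rw [← pow_add, ← mul_assoc, ← mul_assoc, show 5 + 17 = 22 from rfl] at h3
  rw [Raw_lb_eq p]
  change (raw c1 N Q).Gl * (N + 2) ^ 3 * ((N + 2) ^ 3 + 1) ^ 2 * (N + 2) ^ 6 + 3 ≤ _
  omega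

theorem raw_gb (hQ : 2 ^ 50 ≤ Q) (hN : Q ^ 4 ≤ N) : (raw c1 N Q).gb ≤ (N + 2) ^ 40 := by
  have p : (raw c1 N Q).Pos := raw_pos (by omega)
  have h1 := raw_Gl (c1 := c1) hQ hN
  have h2 := raw_mid N
  have h4 : 2 * (N + 2) ^ 17 ≤ (N + 2) ^ 18 := two_xpow N 17
  have h5 : (N + 2) ^ 2 ≤ (N + 2) ^ 17 := xpow_mono N (by omega)
  rw [Raw_gb_eq p]
  change 40 * Q * (raw c1 N Q).Gl *
    ((N + 2) ^ 2 + (N + 2) ^ 3 * ((N + 2) ^ 3 + 1) ^ 2 * (N + 2) ^ 6) ≤ _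
  calc _ ≤ (N + 2) ^ 5 * (N + 2) ^ 18 := Nat.mul_le_mul h1 (by omega)
    _ = (N + 2) ^ 23 := by ring
    _ ≤ _ := xpow_mono N (by omega)

theorem raw_κ_ge (hQ : 1 ≤ Q) : (N + 2) ^ c1 ≤ (raw c1 N Q).κ := by
  have p : (raw c1 N Q).Pos := raw_pos hQ
  refine le_trans (Nat.le_mul_of_pos_right _ ?_) p.Kb_lb
  rw [Raw_lb_eq p]; omega

/-- **the flow layer on the canonical oracle** -/
theorem ip_kO (hQ : 2 ^ 50 ≤ Q) (hN : Q ^ 4 ≤ N) :
    (raw c1 N Q).Pos ∧ (raw c1 N Q).Le ((N + 2) ^ (c1 + 8)) ∧ 1 ≤ (raw c1 N Q).θ ∧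
      (raw c1 N Q).θ ≤ (raw c1 N Q).κ ∧ (N + 2) ^ c1 ≤ (raw c1 N Q).κ ∧
      (raw c1 N Q).κ ≤ (N + 2) ^ (10 * (c1 + 8)) ∧
      ∀ (T : Type) (g : Gl) (run : Cmd × T → R (T × Rep × Bool)) (Sh : T → Prop)
        (I : T → Gr → (ℕ → ℤ) → Prop) (Ψ : T → ℕ), (N + 2) ^ (13 * (c1 + 8)) ≤ g.X →
        TowerSpec g (raw c1 N Q).θ (raw c1 N Q).κ run
          (kO 40 N Q (raw c1 N Q).θ (raw c1 N Q).κ) Sh I Ψ →
        ∃ I' Φ, IpSpec g run (raw c1 N Q).P ((raw c1 N Q).B (128 * (N + 1)) (128 * (N + 1)))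
          (icF N Q) Sh I' Φ := by
  obtain ⟨q2, q3, q4⟩ := q_pows hQ hN
  have p : (raw c1 N Q).Pos := raw_pos (by omega)
  have l : (raw c1 N Q).Le ((N + 2) ^ (c1 + 8)) := raw_le hQ hN
  have hκ := l.κ p
  refine ⟨p, l, p.θ, p.θ_le_κ, raw_κ_ge (by omega), by rwa [← pow_mul, mul_comm] at hκ,
    fun T g run Sh I Ψ hX hT => ipTop hT p l (by rwa [← pow_mul, mul_comm]) ?_⟩
  have h1 : (N + 2) ^ 2 ≤ (N + 2) ^ 40 := xpow_mono N (by omega)
  have h2 : 128 * (N + 1) ≤ (N + 2) ^ 2 := by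
    rw [sq]; exact Nat.mul_le_mul (by omega) (by omega)
  have h3 : (N + 2) ^ 4 ≤ (N + 2) ^ (c1 + 8) := xpow_mono N (by omega)
  have h4 : 2 * (N + 2) ^ 3 ≤ (N + 2) ^ 4 := two_xpow N 3
  have h5 : (N + 2) ^ 1 ≤ (N + 2) ^ 3 := xpow_mono N (by omega)
  rw [pow_one] at h5
  refine ⟨le_rfl, h2.trans h1, h2.trans h1, raw_lb hQ hN, raw_gb hQ hN, le_rfl, le_rfl,
    (mul_one _).ge, (mul_comm _ _).le, ?_, by change 2 * Q + 4 + 1000 ≤ 1 * (3 * Q); omega, le_rfl,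
    le_rfl, ?_, le_rfl, ?_, Nat.lt_succ_self _⟩
  · change ((raw c1 N Q).θ + (raw c1 N Q).κ) * Q ≤ _
    have := p.θ_le_κ
    calc _ ≤ 2 * ((N + 2) ^ (c1 + 8)) ^ 10 * Q := Nat.mul_le_mul_right _ (by omega)
      _ = ((N + 2) ^ (c1 + 8)) ^ 10 * (2 * Q) := by ring
      _ ≤ _ := by rw [pow_succ _ 10]; exact Nat.mul_le_mul_left _ (by omega)
  · change ((raw c1 N Q).κ / (raw c1 N Q).θ + 1) * Q ≤ _
    rw [raw_div (by omega)]
  · change (N + 2) ^ 3 + 2 * (Q + (4 * Q + 1) * Q) + 10 ≤ _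
    have e : (4 * Q + 1) * Q = 4 * Q ^ 2 + Q := by ring
    omega

/-- program for `raw` -/
def rawR (c1 N Q : ℕ) : R Raw := do
  let q ← nat (3 * Q)
  let a ← nat ((N + 2) ^ c1)
  let x2 ← nat ((N + 2) ^ 2)
  let x3 ← nat ((N + 2) ^ 3)
  let x4 ← nat ((N + 2) ^ 4)
  let x6 ← nat ((N + 2) ^ 6)
  let y ← nat ((N + 2) ^ (c1 + 8))
  pure ⟨Q, 1, Q, q, a, x4, x3, x2, x3, x6, y + 1⟩

theorem sp_rawR {g : Gl} (hQ : 3 * Q ≤ g.X) (hX : (N + 2) ^ (c1 + 8) ≤ g.X) :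
    Sp g (rawR c1 N Q) fun r t => r = raw c1 N Q ∧ t = 0 := by
  simp only [rawR, sp_bind, sp_nat, sp_pure]
  exact ⟨hQ, (xpow_mono N (by omega)).trans hX, (xpow_mono N (by omega)).trans hX,
    (xpow_mono N (by omega)).trans hX, (xpow_mono N (by omega)).trans hX,
    (xpow_mono N (by omega)).trans hX, hX, rfl, trivial⟩

@[fun_prop] theorem impl_rawR {α : Type} [Rp α] (c1 : ℕ) {N Q : α → ℕ} (hN : Pu true N)
    (hQ : Pu true Q) : Impl fun a => rawR c1 (N a) (Q a) := by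
  unfold rawR; impl

end Crest.Agent.N325.Fin
end

-- ▼ part N325/Fin/Ip1
section

/-!
# N325 / Fin (helper34): the flow layer on the canonical oracle, budget `F` as an argument
-/

set_option autoImplicit false

namespace Crest.Agent.N325.Fin

open Tw Ip

/-- the raw scales with the budget `F` -/
def rawF (c1 N Q F : ℕ) : Raw :=
  ⟨Q, 1, Q, 3 * Q, (N + 2) ^ c1, (N + 2) ^ 4, (N + 2) ^ 3, (N + 2) ^ 2, F, (N + 2) ^ 6,
    (N + 2) ^ (c1 + 8) + 1⟩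

variable {c1 N Q F : ℕ}

theorem raw_eq (c1 N Q : ℕ) : raw c1 N Q = rawF c1 N Q ((N + 2) ^ 3) := rfl

theorem rawF_pos (hQ : 1 ≤ Q) : (rawF c1 N Q F).Pos :=
  ⟨le_rfl, hQ, by change 1 ≤ 3 * Q; omega, xpow_pos _ _, xpow_pos _ _, xpow_pos _ _, xpow_pos _ _⟩

theorem rawF_le (hQ : 2 ^ 50 ≤ Q) (hN : Q ^ 4 ≤ N) (hF : F ≤ (N + 2) ^ 3) :
    (rawF c1 N Q F).Le ((N + 2) ^ (c1 + 8)) :=
  have l := raw_le (c1 := c1) hQ hN
  ⟨l.big, l.th, l.ρ, l.Kb, l.W, l.cb, l.pb, (Nat.add_le_add_right hF 1).trans l.F, l.Λ⟩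

theorem rawF_div (hQ : 1 ≤ Q) : (rawF c1 N Q F).κ / (rawF c1 N Q F).θ = 4 * Q := by
  rw [Raw.κ, Nat.mul_div_cancel _ (rawF_pos hQ).θ]
  change Q + 3 * Q = _
  ring

theorem rawF_lb (hQ : 2 ^ 50 ≤ Q) (hN : Q ^ 4 ≤ N) (hF : F ≤ (N + 2) ^ 3) :
    (rawF c1 N Q F).lb ≤ (N + 2) ^ 40 := by
  refine le_trans ?_ (raw_lb (c1 := c1) hQ hN)
  rw [Raw_lb_eq (rawF_pos (by omega)), Raw_lb_eq (raw_pos (by omega))]
  exact Nat.add_le_add_right (Nat.mul_le_mul_right _ (Nat.mul_le_mul_left _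
    (Nat.pow_le_pow_left (Nat.add_le_add_right hF 1) 2))) _

theorem rawF_gb (hQ : 2 ^ 50 ≤ Q) (hN : Q ^ 4 ≤ N) (hF : F ≤ (N + 2) ^ 3) :
    (rawF c1 N Q F).gb ≤ (N + 2) ^ 40 := by
  refine le_trans ?_ (raw_gb (c1 := c1) hQ hN)
  rw [Raw_gb_eq (rawF_pos (by omega)), Raw_gb_eq (raw_pos (by omega))]
  exact Nat.mul_le_mul_left _ (Nat.add_le_add_left (Nat.mul_le_mul_right _ (Nat.mul_le_mul_left _
    (Nat.pow_le_pow_left (Nat.add_le_add_right hF 1) 2))) _)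

theorem rawF_κ_ge (hQ : 1 ≤ Q) : (N + 2) ^ c1 ≤ (rawF c1 N Q F).κ := by
  have p : (rawF c1 N Q F).Pos := rawF_pos hQ
  refine le_trans (Nat.le_mul_of_pos_right _ ?_) p.Kb_lb
  rw [Raw_lb_eq p]; omega

/-- **the flow layer on the canonical oracle** -/
theorem ip_kF (hQ : 2 ^ 50 ≤ Q) (hN : Q ^ 4 ≤ N) (hF : F ≤ (N + 2) ^ 3) :
    (rawF c1 N Q F).Pos ∧ (rawF c1 N Q F).Le ((N + 2) ^ (c1 + 8)) ∧ 1 ≤ (rawF c1 N Q F).θ ∧
      (rawF c1 N Q F).θ ≤ (rawF c1 N Q F).κ ∧ (N + 2) ^ c1 ≤ (rawF c1 N Q F).κ ∧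
      (rawF c1 N Q F).κ ≤ (N + 2) ^ (10 * (c1 + 8)) ∧
      ∀ (T : Type) (g : Gl) (run : Cmd × T → R (T × Rep × Bool)) (Sh : T → Prop)
        (I : T → Gr → (ℕ → ℤ) → Prop) (Ψ : T → ℕ), (N + 2) ^ (13 * (c1 + 8)) ≤ g.X →
        TowerSpec g (rawF c1 N Q F).θ (rawF c1 N Q F).κ run
          (kO 40 N Q (rawF c1 N Q F).θ (rawF c1 N Q F).κ) Sh I Ψ →
        ∃ I' Φ, IpSpec g run (rawF c1 N Q F).P
          ((rawF c1 N Q F).B (128 * (N + 1)) (128 * (N + 1))) (icF N Q) Sh I' Φ := by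
  obtain ⟨q2, q3, q4⟩ := q_pows hQ hN
  have p : (rawF c1 N Q F).Pos := rawF_pos (by omega)
  have l : (rawF c1 N Q F).Le ((N + 2) ^ (c1 + 8)) := rawF_le hQ hN hF
  have hκ := l.κ p
  refine ⟨p, l, p.θ, p.θ_le_κ, rawF_κ_ge (by omega), by rwa [← pow_mul, mul_comm] at hκ,
    fun T g run Sh I Ψ hX hT => ipTop hT p l (by rwa [← pow_mul, mul_comm]) ?_⟩
  have h1 : (N + 2) ^ 2 ≤ (N + 2) ^ 40 := xpow_mono N (by omega)
  have h2 : 128 * (N + 1) ≤ (N + 2) ^ 2 := by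
    rw [sq]; exact Nat.mul_le_mul (by omega) (by omega)
  have h3 : (N + 2) ^ 4 ≤ (N + 2) ^ (c1 + 8) := xpow_mono N (by omega)
  have h4 : 2 * (N + 2) ^ 3 ≤ (N + 2) ^ 4 := two_xpow N 3
  have h5 : (N + 2) ^ 1 ≤ (N + 2) ^ 3 := xpow_mono N (by omega)
  rw [pow_one] at h5
  refine ⟨le_rfl, h2.trans h1, h2.trans h1, rawF_lb hQ hN hF, rawF_gb hQ hN hF, le_rfl, le_rfl,
    (mul_one _).ge, (mul_comm _ _).le, ?_, by change 2 * Q + 4 + 1000 ≤ 1 * (3 * Q); omega, le_rfl,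
    le_rfl, ?_, le_rfl, ?_, Nat.lt_succ_self _⟩
  · change ((rawF c1 N Q F).θ + (rawF c1 N Q F).κ) * Q ≤ _
    have := p.θ_le_κ
    calc _ ≤ 2 * ((N + 2) ^ (c1 + 8)) ^ 10 * Q := Nat.mul_le_mul_right _ (by omega)
      _ = ((N + 2) ^ (c1 + 8)) ^ 10 * (2 * Q) := by ring
      _ ≤ _ := by rw [pow_succ _ 10]; exact Nat.mul_le_mul_left _ (by omega)
  · change ((rawF c1 N Q F).κ / (rawF c1 N Q F).θ + 1) * Q ≤ _
    rw [rawF_div (by omega)]
  · change F + 2 * (Q + (4 * Q + 1) * Q) + 10 ≤ _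
    have e : (4 * Q + 1) * Q = 4 * Q ^ 2 + Q := by ring
    omega

/-- program for `rawF` -/
def rawFR (c1 N Q F : ℕ) : R Raw := do
  let q ← nat (3 * Q)
  let a ← nat ((N + 2) ^ c1)
  let x2 ← nat ((N + 2) ^ 2)
  let x3 ← nat ((N + 2) ^ 3)
  let x4 ← nat ((N + 2) ^ 4)
  let x6 ← nat ((N + 2) ^ 6)
  let y ← nat ((N + 2) ^ (c1 + 8))
  pure ⟨Q, 1, Q, q, a, x4, x3, x2, F, x6, y + 1⟩

theorem sp_rawFR {g : Gl} (hQ : 3 * Q ≤ g.X) (hX : (N + 2) ^ (c1 + 8) ≤ g.X) :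
    Sp g (rawFR c1 N Q F) fun r t => r = rawF c1 N Q F ∧ t = 0 := by
  simp only [rawFR, sp_bind, sp_nat, sp_pure]
  exact ⟨hQ, (xpow_mono N (by omega)).trans hX, (xpow_mono N (by omega)).trans hX,
    (xpow_mono N (by omega)).trans hX, (xpow_mono N (by omega)).trans hX,
    (xpow_mono N (by omega)).trans hX, hX, rfl, trivial⟩

@[fun_prop] theorem impl_rawFR {α : Type} [Rp α] (c1 : ℕ) {N Q F : α → ℕ} (hN : Pu true N)
    (hQ : Pu true Q) (hF : Pu true F) : Impl fun a => rawFR c1 (N a) (Q a) (F a) := by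
  unfold rawFR; impl

end Crest.Agent.N325.Fin
end

-- ▼ part N325/Ini/Dart
section

/-!
# Row 325, part II (helper12): the darts of a graph that is given by neighbour lists
-/

set_option autoImplicit false
open Finset

namespace Crest.Agent.N325.Ini

open Crest.Agent.N325.Mt Crest.Agent.N325.Bf

variable {g : Gl} {E : ℕ → ℕ → Prop}

/-- number of darts, tails, darts out of a vertex -/
def darts (n : ℕ) (A : Arr (List ℕ)) : R (ℕ × Arr ℕ × Arr (List ℕ)) :=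
  rangeL n 0 >>= fun l =>
  flatMapL (fun v => flatMapP (fun u => if v < u then [v, u] else []) (A.get v)) l >>= fun T =>
  lenL T >>= fun nd => arrOfL T 0 (Arr.cst 0) >>= fun tl => rangeL nd 0 >>= fun D =>
  bucketP (fun o => tl.get o) D (Arr.cst []) >>= fun adj => pure (nd, tl, adj)

/-- the darts describe the graph -/
structure Dr (n : ℕ) (E : ℕ → ℕ → Prop) (nd : ℕ) (tl : ℕ → ℕ) (adj : ℕ → List ℕ) : Prop where
  even : nd % 2 = 0
  tl_lt : ∀ o < nd, tl o < n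
  ne : ∀ o < nd, tl o ≠ tl (rv o)
  simple : ∀ o < nd, ∀ o' < nd, tl o = tl o' → tl (rv o) = tl (rv o') → o = o'
  nodup : ∀ v, (adj v).Nodup
  mem : ∀ v o, o ∈ adj v ↔ o < nd ∧ tl o = v
  e : ∀ a b, (∃ o, o < nd ∧ tl o = a ∧ tl (rv o) = b) ↔ a < n ∧ b < n ∧ E a b

theorem rv_lt {nd o : ℕ} (h : nd % 2 = 0) (k : o < nd) : rv o < nd := by
  unfold rv; split_ifs <;> omega

theorem Dr.sum {n nd : ℕ} {tl : ℕ → ℕ} {adj : ℕ → List ℕ} (h : Dr n E nd tl adj) :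
    ∑ v ∈ range n, (adj v).length = nd := by
  have := card_eq_sum_card_fiberwise (s := range nd) (t := range n) (f := tl)
    fun o k => by simpa using h.tl_lt o (by simpa using k)
  rw [card_range] at this
  rw [this]
  refine sum_congr rfl fun v _ => ?_
  rw [← List.toFinset_card_of_nodup (h.nodup v)]
  congr 1; ext o; simp [h.mem]

theorem Dr.len {n nd : ℕ} {tl : ℕ → ℕ} {adj : ℕ → List ℕ} (h : Dr n E nd tl adj)
    {A : Arr (List ℕ)} (hA : Adj (range n) E A) (hn : ∀ v, (A.get v).Nodup) {v : ℕ} (hv : v < n) :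
    (adj v).length = (A.get v).length := by
  rw [← List.length_map fun o => tl (rv o)]
  refine List.Perm.length_eq ((List.perm_ext_iff_of_nodup ?_ (hn v)).2 fun u => ?_)
  · refine (h.nodup v).map_on fun o a o' b c => ?_
    rw [h.mem] at a b
    exact h.simple o a.1 o' b.1 (a.2.trans b.2.symm) c
  · rw [hA v (mem_range.2 hv), mem_range, List.mem_map]
    have := h.e v u
    simp only [h.mem, and_assoc]
    rw [this]; exact ⟨fun k => k.2, fun k => ⟨hv, k⟩⟩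

theorem getD_vs (P : List (ℕ × ℕ)) (o : ℕ) :
    (vs P).getD o 0 = if o % 2 = 0 then (P.getD (o / 2) (0, 0)).1 else (P.getD (o / 2) (0, 0)).2 := by
  induction P generalizing o with
  | nil => simp
  | cons e P ih =>
    rcases o with _ | _ | o
    · simp
    · simp
    · rw [vs_cons, List.getD_cons_succ, List.getD_cons_succ, ih,
        show (o + 1 + 1) / 2 = o / 2 + 1 by omega, List.getD_cons_succ,
        show (o + 1 + 1) % 2 = o % 2 by omega]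

theorem dr_vs {n : ℕ} {P : List (ℕ × ℕ)} (hE : ∀ a b, E a b → E b a) (hi : ∀ a, ¬E a a)
    (nd : P.Nodup) (mem : ∀ a b, (a, b) ∈ P ↔ a < b ∧ b < n ∧ E a b) :
    Dr n E (2 * P.length) (fun o => (vs P).getD o 0) fun v =>
      ((List.range (2 * P.length)).filter fun o => (vs P).getD o 0 = v).reverse := by
  have key : ∀ o < 2 * P.length, ∃ a b, P[o / 2]? = some (a, b) ∧ a < b ∧ b < n ∧ E a b ∧
      (o % 2 = 0 ∧ (vs P).getD o 0 = a ∧ (vs P).getD (rv o) 0 = b ∨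
        o % 2 = 1 ∧ (vs P).getD o 0 = b ∧ (vs P).getD (rv o) 0 = a) := fun o k => by
    have l : o / 2 < P.length := by omega
    obtain ⟨x, y, z⟩ := (mem P[o / 2].1 P[o / 2].2).1 (List.getElem_mem l)
    refine ⟨_, _, List.getElem?_eq_getElem l, x, y, z, ?_⟩
    rw [getD_vs, getD_vs, rv_div, List.getD_eq_getElem _ _ l]
    rcases Nat.mod_two_eq_zero_or_one o with c | c
    · exact .inl ⟨c, if_pos c, if_neg (by unfold rv; rw [if_pos c]; omega)⟩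
    · exact .inr ⟨c, if_neg (by omega), if_pos (by unfold rv; rw [if_neg (by omega)]; omega)⟩
  refine ⟨by omega, fun o k => ?_, fun o k => ?_, fun o k o' k' x y => ?_, fun v => ?_,
    fun v o => by simp, fun a b => ⟨?_, fun ⟨x, y, z⟩ => ?_⟩⟩
  · obtain ⟨a, b, -, _, _, -, c⟩ := key o k; omega
  · obtain ⟨a, b, -, _, _, -, c⟩ := key o k; omega
  · obtain ⟨a, b, p, _, _, -, c⟩ := key o k
    obtain ⟨a', b', p', _, _, -, c'⟩ := key o' k'
    have e : a = a' ∧ b = b' ∧ o % 2 = o' % 2 := by omega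
    obtain ⟨rfl, rfl, e⟩ := e
    have := (List.nodup_iff_getElem?_ne_getElem?).1 nd
    have : o / 2 = o' / 2 := by
      by_contra ne
      rcases Nat.lt_or_gt_of_ne ne with l | l
      · exact this _ _ l (by omega) (p.trans p'.symm)
      · exact this _ _ l (by omega) (p'.trans p.symm)
    omega
  · exact List.nodup_reverse.2 (List.nodup_range.filter _)
  · rintro ⟨o, k, rfl, rfl⟩
    obtain ⟨a, b, -, _, _, z, ⟨-, c, d⟩ | ⟨-, c, d⟩⟩ := key o k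
    · rw [c, d]; exact ⟨by omega, by omega, z⟩
    · rw [c, d]; exact ⟨by omega, by omega, hE _ _ z⟩
  · rcases lt_trichotomy a b with l | rfl | l
    · obtain ⟨i, hi', e⟩ := List.getElem_of_mem ((mem a b).2 ⟨l, y, z⟩)
      obtain ⟨a', b', p, -, -, -, c⟩ := key (2 * i) (by omega)
      rw [show 2 * i / 2 = i by omega, List.getElem?_eq_getElem hi', e] at p
      obtain ⟨rfl, rfl⟩ : a = a' ∧ b = b' := by simpa using p
      exact ⟨2 * i, by omega, by omega, by omega⟩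
    · exact absurd z (hi _)
    · obtain ⟨i, hi', e⟩ := List.getElem_of_mem ((mem b a).2 ⟨l, x, hE _ _ z⟩)
      obtain ⟨a', b', p, -, -, -, c⟩ := key (2 * i + 1) (by omega)
      rw [show (2 * i + 1) / 2 = i by omega, List.getElem?_eq_getElem hi', e] at p
      obtain ⟨rfl, rfl⟩ : b = a' ∧ a = b' := by simpa using p
      exact ⟨2 * i + 1, by omega, by omega, by omega⟩

theorem sp_darts {n : ℕ} {A : Arr (List ℕ)} (hE : ∀ a b, E a b → E b a) (hi : ∀ a, ¬E a a)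
    (hA : Adj (range n) E A) (nd : ∀ v, (A.get v).Nodup) :
    Sp g (darts n A) fun r t => Dr n E r.1 r.2.1.get r.2.2.get ∧
      r.1 = ∑ v ∈ range n, (A.get v).length ∧ t ≤ 8 * n + 13 * r.1 + 9 := by
  refine (sp_rangeL_zero n).bind ?_
  rintro _ t0 ⟨rfl, e0⟩
  have f1 : ∀ v (l : List ℕ), (l.flatMap fun u => if v < u then [v, u] else []) =
      vs ((l.filter fun u => v < u).map fun u => (v, u)) := fun v l => by
    induction l with
    | nil => rfl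
    | cons u l ih => by_cases c : v < u <;> simp [c, ih]
  refine (sp_flatMapL (fun v => vs (((A.get v).filter fun u => v < u).map fun u => (v, u)))
    (fun v => 6 * (A.get v).length + 2)
    fun v _ => (sp_flatMapP _ _).mono fun r t k => ⟨k.1.trans (f1 _ _), ?_⟩).bind
      fun T t1 ⟨a1, e1⟩ => ?_
  · have := k.2
    rw [f1, length_vs, List.length_map] at this
    have := List.length_filter_le (fun u => decide (v < u)) (A.get v)
    omega
  rw [← a1] at e1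
  set P := (List.range n).flatMap fun v => ((A.get v).filter fun u => v < u).map fun u => (v, u)
    with hP
  have eT : T = vs P := by rw [a1, hP, vs, List.flatMap_assoc]; rfl
  have mem : ∀ a b, (a, b) ∈ P ↔ a < b ∧ b < n ∧ E a b := fun a b => by
    simp only [hP, List.mem_flatMap, List.mem_range, List.mem_map, List.mem_filter, Prod.mk.injEq,
      decide_eq_true_eq]
    constructor
    · rintro ⟨_, x, _, ⟨y, z⟩, rfl, rfl⟩
      exact ⟨z, by simpa using (hA _ (mem_range.2 x) _).1 y⟩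
    · exact fun ⟨x, y, z⟩ => ⟨a, by omega, b,
        ⟨(hA _ (mem_range.2 (by omega)) _).2 ⟨mem_range.2 y, z⟩, x⟩, rfl, rfl⟩
  have pn : P.Nodup := by
    refine List.nodup_flatMap.2 ⟨fun v _ => ((nd v).filter _).map fun a b c => by simpa using c, ?_⟩
    refine List.nodup_range.pairwise_of_forall_ne fun a _ b _ c => ?_
    simp only [Function.onFun, List.disjoint_left, List.mem_map]
    rintro _ ⟨u, -, rfl⟩ ⟨u', -, e⟩
    exact c (by simpa using (congrArg Prod.fst e).symm)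
  have dr := dr_vs hE hi pn mem
  refine (sp_lenL T).bind ?_
  rintro _ t2 ⟨rfl, e2⟩
  refine (sp_arrOfL_cst T 0).bind fun tl t3 ⟨a3, e3⟩ => (sp_rangeL_zero _).bind ?_
  rintro _ t4 ⟨rfl, e4⟩
  refine (sp_bucketP _ _ _).bind fun adj t5 ⟨a5, e5⟩ => ?_
  have dr' : Dr n E T.length tl.get adj.get := by
    have : adj.get = fun v => ((List.range T.length).filter fun o => tl.get o = v).reverse :=
      funext fun v => by rw [a5]; simp
    rw [this, a3, eT, length_vs]; exact dr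
  have s : T.length = ∑ v ∈ range n, (A.get v).length := by
    rw [← dr'.sum]; exact sum_congr rfl fun v hv => dr'.len hA nd (mem_range.1 hv)
  have c1 : ((List.range n).map fun v => 6 * (A.get v).length + 2).sum = 6 * T.length + 2 * n := by
    rw [← List.sum_toFinset _ List.nodup_range, List.toFinset_range, sum_add_distrib, ← mul_sum, s]
    simp [mul_comm]
  refine ⟨dr', s, ?_⟩
  simp only [List.length_range] at e1 e5 ⊢
  omega

@[fun_prop] theorem impl_darts : Impl fun p : ℕ × Arr (List ℕ) => darts p.1 p.2 := by impl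

end Crest.Agent.N325.Ini
end

-- ▼ part N325/Ini/Init
section

/-!
# Row 325, part II (helper12): the graph of darts and the start of a phase
-/

set_option autoImplicit false
open Finset

namespace Crest.Agent.N325.P2

open Crest.Agent.N325.Tw Crest.Agent.N325.Ip Crest.Agent.N325.Mt Crest.Agent.N325.Bf
  Crest.Agent.N325.Op

/-- the graph of darts -/
def mkG (n : ℕ) (A : Arr (List ℕ)) : R Gf :=
  Ini.darts n A >>= fun r => pure ⟨n, r.1, r.2.1, r.2.2, A⟩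

theorem sp_mkG {g : Gl} {n : ℕ} {E : ℕ → ℕ → Prop} {A : Arr (List ℕ)} (h : Fin.Cub n E A) :
    Sp g (mkG n A) fun G t => G.WF ∧ G.n = n ∧ G.E = E ∧ t ≤ 47 * n + 9 := by
  refine (Ini.sp_darts h.symm h.irr h.ad h.nd).bind fun r t ⟨a, b, c⟩ => ?_
  have l : r.1 ≤ 3 * n := by
    rw [b]; exact (sum_le_card_nsmul _ _ 3 fun v _ => h.deg v).trans (by simp [mul_comm])
  have e : Gf.E ⟨n, r.1, r.2.1, r.2.2, A⟩ = E := funext fun u => funext fun v =>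
    propext ((a.e u v).trans ⟨fun k => k.2.2, fun k => ⟨(h.lt _ _ k).1, (h.lt _ _ k).2, k⟩⟩)
  refine ⟨⟨a.even, a.tl_lt, a.ne, a.simple, fun v _ => a.nodup v, fun v _ => a.mem v, fun v => ?_,
    l, e ▸ h.ad, h.deg⟩, rfl, e, by omega⟩
  by_cases k : v < n
  · exact (a.len h.ad h.nd k).trans_le (h.deg v)
  · have : r.2.2.get v = [] := List.eq_nil_iff_forall_not_mem.2 fun o c => by
      obtain ⟨x, y⟩ := (a.mem v o).1 c
      exact k (y ▸ a.tl_lt o x)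
    change (r.2.2.get v).length ≤ 3
    rw [this]; exact Nat.zero_le _

/-- the data at the start: exposed vertices are classes, all darts wait -/
structure Fresh (G : Gf) (m : Arr ℕ) (d : Dt) : Prop where
  st : ∀ v < G.n, d.st.get v = if m.get v = v then 2 else 0
  cls : ∀ v < G.n, d.cls.get v = v
  mem : ∀ v < G.n, d.mem.get v = [v]
  cw : ∀ v, d.cw.get v = 1
  bs : ∀ v < G.n, d.bs.get v = v
  mt : d.mt = m
  pr : ∀ o, d.pr.get o = false
  Q : d.Q = List.range G.nd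

/-- the fresh data -/
def iniD (G : Gf) (m : Arr ℕ) : R Dt :=
  tabP (fun v => if m.get v = v then 2 else 0) G.n (Arr.cst 0) >>= fun st =>
  tabP (fun v => v) G.n (Arr.cst 0) >>= fun i => tabP (fun v => [v]) G.n (Arr.cst []) >>= fun l =>
  rangeL G.nd 0 >>= fun Q => pure ⟨st, i, l, .cst 1, i, m, .cst false, Q⟩

theorem sp_iniD {g : Gl} (G : Gf) (m : Arr ℕ) :
    Sp g (iniD G m) fun d t => Fresh G m d ∧ t = 3 * G.n + 2 * G.nd + 5 :=
  (sp_tabP _ _ _).bind fun _ _ a => (sp_tabP _ _ _).bind fun _ _ b => (sp_tabP _ _ _).bind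
    fun _ _ c => (sp_rangeL_zero _).bind fun _ _ q =>
      ⟨⟨fun v k => (a.1 v).trans (if_pos k), fun v k => (b.1 v).trans (if_pos k),
        fun v k => (c.1 v).trans (if_pos k), fun _ => rfl, fun v k => (b.1 v).trans (if_pos k), rfl,
        fun _ => rfl, q.1⟩, by omega⟩

section fresh
variable {D : ℕ} {C : Cf} {G : Gf} {m : Arr ℕ} {d : Dt}

theorem Fresh.isC_iff (h : Fresh G m d) {c : ℕ} : isC G d c ↔ c < G.n ∧ m.get c = c :=
  and_congr_right fun k => by rw [h.st c k, h.cls c k]; split_ifs with e <;> simp [e]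

theorem Fresh.cmb (h : Fresh G m d) (hm : IsM (range G.n) G.E m.get) : Cmb G d := by
  have s2 : ∀ v < G.n, d.st.get v = 2 ↔ m.get v = v := fun v k => by
    rw [h.st v k]; split_ifs with e <;> simp [e]
  have s1 : ∀ v < G.n, d.st.get v ≠ 1 := fun v k => by rw [h.st v k]; split_ifs <;> simp
  refine ⟨h.mt ▸ hm, fun v k => ?_, fun v k _ => h.cls v k, fun v k e => ?_,
    fun v k e => absurd e (s1 v k), fun v k e => ?_, fun c k => ?_, fun c k v => ?_, fun c k => ?_,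
    fun c k => ?_, fun c k v a b => ?_, fun c k => ?_, fun o _ e => by simp [h.pr] at e⟩
  · rw [h.st v k]; split_ifs <;> simp
  · have ne : m.get v ≠ v := fun c => by have := (s2 v k).2 c; omega
    rw [h.mt, h.st _ (mem_range.1 (hm.mem (mem_range.2 k))), hm.inv (mem_range.2 k), if_neg ne.symm]
    exact ⟨rfl, ne⟩
  · rw [h.cls v k]; exact h.isC_iff.2 ⟨k, (s2 v k).1 e⟩
  · rw [h.mem c k.1]; simp
  · rw [h.mem c k.1, List.mem_singleton]
    exact ⟨fun e => e ▸ k, fun e => (h.cls v e.1).symm.trans e.2.2⟩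
  · rw [h.mem c k.1, h.cw]; rfl
  · rw [h.mem c k.1, h.bs c k.1, h.mt]; exact ⟨by simp, .inl (h.isC_iff.1 k).2⟩
  · rw [h.mem c k.1, List.mem_singleton] at a
    exact absurd (a.trans (h.bs c k.1).symm) b
  · rw [h.mem c k.1]; simpa using FC.single c

theorem Fresh.qok (h : Fresh G m d) : QOk G d :=
  ⟨fun o k => by simpa [h.Q] using k, fun o k => .inl (by simpa [h.Q] using k)⟩

/-- the two arcs of a vertex -/
def oxs (D : ℕ) (C : Cf) (m : Arr ℕ) (v : ℕ) : List Ox :=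
  if m.get v = v then [(5 * v + 1, false, some (capA 0 (v + 1) C.B, (D : ℤ))),
    (5 * v + 2, false, some (snkA C v 2, (D : ℤ)))]
  else [(5 * v + 3, false, some (aG C v, (C.lam : ℤ))),
    (5 * v + 4, false, some (aU D C v, (C.lam : ℤ)))]

theorem oxs_nodup (n : ℕ) : (((List.range n).flatMap (oxs D C m)).map Prod.fst).Nodup := by
  rw [List.map_flatMap]
  refine List.nodup_flatMap.2 ⟨fun v _ => by unfold oxs; split_ifs <;> simp, ?_⟩
  refine List.nodup_range.pairwise_of_forall_ne fun a _ b _ c => ?_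
  simp only [Function.onFun, List.disjoint_left, oxs]
  split_ifs <;> simp <;> omega

theorem Fresh.has_iff (h : Fresh G m d) (e : ℕ) :
    has G d e ↔ e ∈ ((List.range G.n).flatMap (oxs D C m)).map Prod.fst := by
  have : e ∈ ((List.range G.n).flatMap (oxs D C m)).map Prod.fst ↔ e / 5 < G.n ∧
      if m.get (e / 5) = e / 5 then e % 5 = 1 ∨ e % 5 = 2 else e % 5 = 3 ∨ e % 5 = 4 := by
    rw [List.map_flatMap, List.mem_flatMap]
    constructor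
    · rintro ⟨v, a, b⟩
      rw [List.mem_range] at a
      unfold oxs at b
      split_ifs at b with c <;> simp only [List.map_cons, List.map_nil, List.mem_cons,
        List.not_mem_nil, or_false] at b <;> obtain rfl : v = e / 5 := by omega
      · rw [if_pos c]; omega
      · rw [if_neg c]; omega
    · rintro ⟨a, b⟩
      refine ⟨e / 5, List.mem_range.2 a, ?_⟩
      unfold oxs
      split_ifs at b ⊢ <;> simp <;> omega
  rw [this]
  obtain ⟨v, rfl | rfl | rfl | rfl | rfl⟩ := id_cases e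
  · rw [has0, h.pr]; split_ifs <;> simp
  · rw [has1, show (5 * v + 1) / 5 = v by omega, h.mt]
    refine and_congr_right fun k => ?_
    rw [h.st v k]; split_ifs with c <;> simp [c]
  · rw [has2, show (5 * v + 2) / 5 = v by omega, h.isC_iff]
    refine and_congr_right fun k => ?_
    split_ifs with c <;> simp [c]
  · rw [has3, show (5 * v + 3) / 5 = v by omega]
    refine and_congr_right fun k => ?_
    rw [h.st v k]; split_ifs with c <;> simp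
  · rw [has4, show (5 * v + 4) / 5 = v by omega]
    refine and_congr_right fun k => ?_
    rw [h.st v k]; split_ifs with c <;> simp

theorem Fresh.arc (h : Fresh G m d) {o : Ox} (ho : o ∈ (List.range G.n).flatMap (oxs D C m)) :
    o.2.1 = false ∧ ∃ x : ℤ, o.2.2 = some (arcOf D C G d o.1, x) ∧
      (x = D ∧ (o.1 % 5 = 1 ∨ o.1 % 5 = 2) ∨ x = C.lam ∧ (o.1 % 5 = 3 ∨ o.1 % 5 = 4)) := by
  obtain ⟨v, a, b⟩ := List.mem_flatMap.1 ho
  rw [List.mem_range] at a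
  unfold oxs at b
  split_ifs at b with c <;> simp only [List.mem_cons, List.not_mem_nil, or_false] at b <;>
    rcases b with rfl | rfl
  · exact ⟨rfl, _, by rw [arcOf1, aE, h.mt, if_pos c, c, h.cls v a], .inl ⟨rfl, by omega⟩⟩
  · exact ⟨rfl, _, by rw [arcOf2, h.cw], .inl ⟨rfl, by omega⟩⟩
  · exact ⟨rfl, _, by rw [arcOf3], .inr ⟨rfl, by omega⟩⟩
  · exact ⟨rfl, _, by rw [arcOf4], .inr ⟨rfl, by omega⟩⟩

theorem sum_map_flatMap {M α β : Type} [AddCommMonoid M] (f : β → M) (F : α → List β) (l : List α) :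
    ((l.flatMap F).map f).sum = (l.map fun v => ((F v).map f).sum).sum := by
  induction l with
  | nil => rfl
  | cons a l ih => simp [ih]

theorem Fresh.arcs (h : Fresh G m d) :
    Arcs D C G d (apps Net.emp ((List.range G.n).flatMap (oxs D C m))) := by
  have nd := oxs_nodup (D := D) (C := C) (m := m) G.n
  refine .of (fun e => ?_) (fun e he => ?_) fun v _ => ?_
  · rw [h.has_iff (D := D) (C := C)]
    refine ⟨fun k => by_contra fun c => by simpa [Net.emp] using (apps_ne c).1.1 k, fun k => ?_⟩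
    obtain ⟨o, ho, rfl⟩ := List.mem_map.1 k
    obtain ⟨-, x, e, -⟩ := h.arc ho
    exact (apps_mem nd ho).1.2 (by simp [e])
  · have k : e ∈ ((List.range G.n).flatMap (oxs D C m)).map Prod.fst :=
      by_contra fun c => by simpa [Net.emp] using (apps_ne c).1.1 he
    obtain ⟨o, ho, rfl⟩ := List.mem_map.1 k
    obtain ⟨-, x, e, -⟩ := h.arc ho
    exact ((apps_mem nd ho).2 _ e).1
  · rw [dv_apps nd, sum_map_flatMap, List.sum_eq_zero]
    · rfl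
    · intro x hx
      obtain ⟨u, -, rfl⟩ := List.mem_map.1 hx
      unfold oxs
      split_ifs <;> simp [old, Net.emp, ct, capA, snkA, aG, aU]
end fresh

section prog
variable {T : Type} (E : Env T)

/-- the two arcs of a vertex; `z = 2 Z`, `p = 5 Ph Z`, `u = 2 D` -/
def iniO (m : Arr ℕ) (z p u v : ℕ) : R (List Ox) :=
  nat (5 * v) >>= fun a =>
  if m.get v = v then
    pure [(a + 1, false, some (⟨0, v + 1, 0, 1, 0, 0, 0, 1, E.C.B⟩, (E.P.D : ℤ))),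
      (a + 2, false, some (⟨v + 1, 0, 0, z, 0, 0, 0, 1, E.C.M⟩, (E.P.D : ℤ)))]
  else pure [(a + 3, false, some (⟨0, v + 1, p, 1, 0, 0, 0, 1, E.C.M⟩, (E.C.lam : ℤ))),
    (a + 4, false, some (⟨v + 1, 0, 0, 1, 0, z, E.P.D, 1, u⟩, (E.C.lam : ℤ)))]

/-- **INIT** -/
def ini (t : T) (m : Arr ℕ) : R (S T) :=
  iniD E.G m >>= fun d => nat (2 * E.C.Z) >>= fun z => nat (5 * E.C.Ph * E.C.Z) >>= fun p =>
  nat (2 * E.P.D) >>= fun u => rangeL E.G.n 0 >>= fun l => flatMapL (iniO E m z p u) l >>= fun L =>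
  init E.run t >>= fun s => ops E.run E.P L s >>= fun s' => pure (s', d)
end prog

namespace Cx
variable {T : Type} {X : Cx T} {m : Arr ℕ} {d : Dt}

theorem Ok.big_ini (h : X.Ok) (f : Fresh X.G m d) {o : Ox}
    (ho : o ∈ (List.range X.G.n).flatMap (oxs X.P.D X.C m)) {u : Arc × ℤ} (e : o.2.2 = some u) :
    Big X.P u.1 u.2 := by
  obtain ⟨-, x, e', k⟩ := f.arc ho
  obtain rfl : u = (_, x) := Option.some.inj (e.symm.trans e')
  have := h.lam_le'; have := h.BD_le; have := h.B.2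
  refine h.big (arcOf_o1 _) (by omega) ?_
  unfold arcOf
  split_ifs <;> simp only [aP, aE, capA, snkA, aG, aU] <;> omega

theorem Ok.pot_ini (h : X.Ok) (f : Fresh X.G m d) (c : Cmb X.G d) :
    pot X.P X.Bd (apps Net.emp ((List.range X.G.n).flatMap (oxs X.P.D X.C m))) ≤
      X.G.n * (1 + (2 * X.C.Z + 4) * X.Lg) := by
  rw [pot_apps (oxs_nodup _), pot_emp, zero_add, sum_map_flatMap]
  refine (List.sum_le_card_nsmul _ (1 + (2 * X.C.Z + 4) * X.Lg) fun x hx => ?_).trans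
    (by rw [List.length_map, List.length_range, nsmul_eq_mul])
  obtain ⟨v, hv, rfl⟩ := List.mem_map.1 hx
  have key : ∀ o ∈ oxs X.P.D X.C m v, ∀ u, o.2.2 = some u → bar X.P X.Bd u.1 u.2 ≤
      u.1.p * (((u.2 : ℝ) + u.1.o1) / X.P.D) + (u.1.c1 + u.1.c2 + u.1.c3) * X.Lg := fun o a u e => by
    have ho := List.mem_flatMap.2 ⟨v, hv, a⟩
    have b := h.big_ini f ho e
    obtain ⟨-, x, e', -⟩ := f.arc ho
    obtain rfl : u = (_, x) := Option.some.inj (e.symm.trans e')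
    exact (bar_le h.D_pos (h.arc c ((f.has_iff _).2 (List.mem_map_of_mem ho))) b.1 b.2
      h.s0_pos).trans (add_le_add_right (mul_le_mul_of_nonneg_left h.log_le (by positivity)) _)
  have := h.Lg_nonneg
  unfold oxs at key ⊢
  split_ifs at key ⊢
  · have a := key _ List.mem_cons_self _ rfl
    have b := key _ (List.mem_cons_of_mem _ List.mem_cons_self) _ rfl
    simp [capA, snkA, old, Net.emp] at a b ⊢
    linarith
  · have a := key _ List.mem_cons_self _ rfl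
    have b := key _ (List.mem_cons_of_mem _ List.mem_cons_self) _ rfl
    have l : (20000 : ℝ) * (X.C.Ph * X.C.Z * X.C.lam) ≤ X.P.D := by exact_mod_cast h.lam_le
    have p : (0 : ℝ) < X.P.D := by exact_mod_cast h.D_pos
    have q : (5 : ℝ) * X.C.Ph * X.C.Z * (X.C.lam / X.P.D) ≤ 1 := by
      rw [← mul_div_assoc, div_le_one p]
      have : (0 : ℝ) ≤ X.C.Ph * X.C.Z * X.C.lam := by positivity
      linarith
    simp [aG, aU, old, Net.emp] at a b ⊢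
    linarith

theorem nS_le (d : Dt) (i : ℕ) : X.nS d i ≤ X.G.n := (card_filter_le _ _).trans (by simp)

theorem Ok.Psi_ini (h : X.Ok) (f : Fresh X.G m d) : X.Ψ d ≤
    X.G.n * (2 * X.C.Z * X.Lg + 15 * X.C.Z + X.C.K) +
      X.Au * ((ex (range X.G.n) m.get : ℝ) - X.xm) := by
  have p : (0 : ℝ) < X.P.D := by exact_mod_cast h.D_pos
  have l : Real.log 2 ≤ lM X.P X.Bd := Real.log_le_log two_pos (by
    rw [le_div_iff₀ p, ← h.Mu]; have := h.BD_le; exact_mod_cast (by omega : 2 * X.P.D ≤ X.C.M))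
  have l0 := (Real.log_pos one_lt_two).le.trans l
  have o : 0 ≤ X.offs d := add_nonneg (sum_nonneg fun c _ => mul_nonneg (by positivity) (by
    rw [f.cw, Nat.cast_one, one_add_one_eq_two]; linarith)) (by positivity)
  have a : (X.nS d 0 : ℝ) ≤ X.G.n := by exact_mod_cast nS_le d 0
  have b : (X.nS d 1 : ℝ) ≤ X.G.n := by exact_mod_cast nS_le d 1
  have c : (d.Q.length : ℝ) ≤ 3 * X.G.n := by
    rw [f.Q, List.length_range]; exact_mod_cast h.wf.nd_le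
  have t : (X.Th d : ℝ) ≤ X.G.n * X.C.K := by
    exact_mod_cast (sum_le_card_nsmul _ _ X.C.K fun v _ => Nat.sub_le _ _).trans
      (Nat.mul_le_mul_right _ (nS_le d 2))
  have z := mul_le_mul_of_nonneg_left (by linarith : (8 : ℝ) * X.nS d 0 + 4 * X.nS d 1 +
    d.Q.length ≤ 15 * X.G.n) (Nat.cast_nonneg (α := ℝ) X.C.Z)
  unfold Ψ; rw [f.mt]; linarith

/-- **the start of a phase** -/
theorem initSpec (h : X.Ok) (hF : X.k.AR + 4 * X.k.AU * X.G.n ≤ X.Bd.F) :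
    X.InitSpec (ini X.toEnv) (X.k.AR + X.κ * (X.G.n + 1) * X.C.Z ^ 2) := fun t m ht hm => by
  have hM := h.M_le_X
  have gX : 5 * X.C.Ph * X.C.Z ≤ X.g.X := by
    have := h.lam_le; have := h.BD_le
    have := Nat.le_mul_of_pos_right (X.C.Ph * X.C.Z) h.lam_pos
    rw [mul_assoc]; omega
  have z2 : 2 * X.C.Z ≤ 5 * X.C.Ph * X.C.Z :=
    Nat.mul_le_mul_right _ (by have := h.Ph; omega)
  have := h.BD_le; have := h.n_le_M
  refine (sp_iniD _ m).bind fun d t0 ⟨f, e0⟩ => ?_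
  simp only [sp_bind, sp_nat]
  refine ⟨by omega, gX, by omega, (sp_rangeL_zero _).mono ?_⟩
  rintro _ t1 ⟨rfl, e1⟩
  refine (sp_flatMapL (oxs X.P.D X.C m) (fun _ => 0) fun v hv => ?_).mono ?_
  · rw [List.mem_range] at hv
    simp only [iniO, sp_bind, sp_nat, sp_ite, sp_pure, oxs]
    exact ⟨by omega, fun c => ⟨by rw [if_pos c, snkA, mul_comm _ 2]; rfl, le_rfl⟩,
      fun c => ⟨by rw [if_neg c]; rfl, le_rfl⟩⟩
  rintro L t2 ⟨eL, e2⟩
  have len : L.length = 2 * X.G.n := by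
    have : ∀ v, (oxs X.P.D X.C m v).length = 2 := fun v => by unfold oxs; split_ifs <;> rfl
    rw [eL, List.length_flatMap]; simp [this, mul_comm]
  rw [← eL, len] at e2
  simp only [List.map_const', List.sum_replicate, smul_zero, List.length_range] at e2
  have c := f.cmb hm
  refine (h.ip.init ht).mono fun s t3 ⟨i, lg, e3⟩ => (sp_ops h.ip i (l := L) ?_ ?_).mono ?_
  · have : ((X.k.AR + 4 * X.k.AU * X.G.n : ℕ) : ℝ) ≤ X.Bd.F := by exact_mod_cast hF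
    have : (0 : ℝ) ≤ t3 := by positivity
    rw [len]; push_cast at *; linarith
  · subst eL
    refine oks_of_nodup (oxs_nodup _) fun o ho => ⟨by simp [(f.arc ho).1, Net.emp], fun u e => ?_⟩
    refine ⟨?_, h.dom (h.big_ini f ho e)⟩
    obtain ⟨-, x, e', -⟩ := f.arc ho
    obtain rfl : u = (_, x) := Option.some.inj (e.symm.trans e')
    exact h.arc c ((f.has_iff _).2 (List.mem_map_of_mem ho))
  rintro s' t4 ⟨i', n, u⟩
  have il : X.IL s Net.emp := ⟨i, fun e he => by simp [Net.emp] at he⟩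
  refine ⟨_, ⟨il.up i' u, eL ▸ f.arcs, c, f.qok⟩, fun v _ => by rw [f.mt], ?_⟩
  have p1 := Pt_up u
  have p2 := h.pot_ini f c
  have p3 := h.Psi_ini f
  rw [← eL] at p2
  rw [len, show X.Pt s = X.Φ s by simp [Pt, lg]] at p1
  have k1 := h.AU_le
  have k2 := h.Lg_le
  have k3 : (20000 : ℝ) ≤ X.C.Z := by exact_mod_cast h.Z_pos
  have k4 : (4000 : ℝ) * (X.C.K + 5) ≤ X.C.Z := by exact_mod_cast h.Z.1
  have k5 : ((t0 + t1 + t2 : ℕ) : ℝ) ≤ (17 * X.G.n + 9 : ℕ) := by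
    have := h.wf.nd_le; exact_mod_cast (by omega : t0 + t1 + t2 ≤ 17 * X.G.n + 9)
  have n0 : (0 : ℝ) ≤ X.G.n := by positivity
  have a0 : (0 : ℝ) ≤ X.k.AU := by positivity
  have q1 : 1 + (2 * X.C.Z + 4) * X.Lg + (2 * X.C.Z * X.Lg + 15 * X.C.Z + X.C.K) ≤
      (X.C.Z : ℝ) ^ 2 - 1 := by nlinarith
  have q2 := mul_le_mul_of_nonneg_left q1 n0
  have q3 := mul_le_mul_of_nonneg_left (by linarith : pot X.P X.Bd (apps Net.emp L) + X.Ψ d ≤
    X.G.n * ((X.C.Z : ℝ) ^ 2 - 1) + X.Au * ((ex (range X.G.n) m.get : ℝ) - X.xm))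
    (Nat.cast_nonneg (α := ℝ) X.κ)
  have q4 := mul_le_mul_of_nonneg_right k1 n0
  have q5 : (X.κ : ℝ) * 1 ≤ X.κ * X.C.Z ^ 2 :=
    mul_le_mul_of_nonneg_left (by nlinarith) (by positivity)
  have q6 := mul_nonneg a0 n0
  simp only [Tot]
  push_cast at *
  linarith

end Cx

end Crest.Agent.N325.P2
end

-- ▼ part N325/Fin/Ma0
section

/-!
# Row 325 (helper57): seam (P) from the machine on the flow layer
-/

set_option autoImplicit false

namespace Crest.Agent.N325.Fin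

open Filter Tw Mt Ip P2

/-- the type of the programs of an oracle -/
abbrev Rn (T : Type) : Type := Cmd × T → R (T × Rep × Bool)

/-- **seam (C)**: the machine on the flow layer; the input is `(run, P, G, N, Q, t)` -/
def CoreStmt : Prop :=
  ∀ (c1 : ℕ) (T : Type) [Rp T],
    ∃ (core : Rn T × Pm × Gf × ℕ × ℕ × T → R (Arr ℕ)) (c2 e0 e : ℕ), Impl core ∧
      ∀ᶠ N : ℕ in atTop, ∀ Q : ℕ, (Nat.log 2 N + 2) ^ e ≤ Q → Q ^ e ≤ N →
        ∀ (g : Gl) (run : Rn T) (Sh : T → Prop) (I : Ip.St T → Net → Prop) (Φ : Ip.St T → ℝ)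
          (G : Gf) (t0 : T), (N + 2) ^ c2 ≤ g.X → 1 / ((N : ℝ) + 2) ^ 3 ≤ g.d → g.d < 1 →
          IpSpec g run (rawF c1 N Q (N * Q ^ e0)).P
            ((rawF c1 N Q (N * Q ^ e0)).B (128 * (N + 1)) (128 * (N + 1))) (icF N Q) Sh I Φ →
          G.WF → G.n ≤ 4 * N + 4 → Sh t0 →
          Sp g (core (run, (rawF c1 N Q (N * Q ^ e0)).P, G, N, Q, t0)) fun m t =>
            IsM (Finset.range G.n) G.E m.get ∧ (∀ m', IsM (Finset.range G.n) G.E m' →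
              ex (Finset.range G.n) m.get ≤ ex (Finset.range G.n) m') ∧ t ≤ N * Q ^ e

/-- parameters, darts, machine -/
def algM {T : Type} (c1 e0 : ℕ) (run : ℕ × ℕ × ℕ → Rn T)
    (core : Rn T × Pm × Gf × ℕ × ℕ × T → R (Arr ℕ))
    (u : ℕ × ℕ × ℕ × T × ℕ × Arr (List ℕ)) : R (Arr ℕ) :=
  nat (u.1 * u.2.1 ^ e0) >>= fun F => rawFR c1 u.1 u.2.1 F >>= fun r => parR r >>= fun x =>
    mkG u.2.2.2.2.1 u.2.2.2.2.2 >>= fun G =>
      call core (run (u.2.2.1, x.2.1, x.2.2.1), x.1, G, u.1, u.2.1, u.2.2.2.1)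

theorem impl_algM {T : Type} [Rp T] (c1 e0 : ℕ) {run : ℕ × ℕ × ℕ → Rn T}
    {core : Rn T × Pm × Gf × ℕ × ℕ × T → R (Arr ℕ)}
    (h1 : Impl fun p : (ℕ × ℕ × ℕ) × Cmd × T => run p.1 p.2) (h2 : Impl core) :
    Impl (algM c1 e0 run core) := by
  have h3 : Pu true fun a => run a := Pu.lam h1
  unfold algM; impl

/-- **seam (P) from seam (C)** -/
theorem match_of_core (h : CoreStmt) : MatchStmt := by
  refine ⟨40, fun c1 T _ run hr => ?_⟩
  obtain ⟨core, c2, e0, e, i1, h⟩ := h c1 T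
  refine ⟨algM c1 e0 run core, fun N Q => (rawF c1 N Q (N * Q ^ e0)).θ,
    fun N Q => (rawF c1 N Q (N * Q ^ e0)).κ, c2 + 13 * (c1 + 8), e + e0 + 50,
    impl_algM c1 e0 hr i1, ?_⟩
  filter_upwards [h] with N h Q q1 q2
  have l2 : 2 ≤ Nat.log 2 N + 2 := by omega
  have b1 : 2 ^ 50 ≤ Q :=
    ((Nat.pow_le_pow_right two_pos (by omega)).trans (Nat.pow_le_pow_left l2 _)).trans q1
  have pw : ∀ i ≤ e + e0 + 50, Q ^ i ≤ N := fun i hi =>
    (Nat.pow_le_pow_right (by omega) hi).trans q2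
  have b2 := pw 1 (by omega)
  rw [pow_one] at b2
  have b3 : N * Q ^ e0 ≤ (N + 2) ^ 3 := by
    have := Nat.mul_le_mul_left N (pw e0 (by omega))
    nlinarith [Nat.zero_le (N ^ 3)]
  obtain ⟨k1, k2, k3, k4, k5, k6, k7⟩ := ip_kF (c1 := c1) b1 (pw 4 (by omega)) b3
  refine ⟨k3, k4, k5, k6.trans (xpow_mono N (by omega)), ?_⟩
  intro g hh Sh I Ψ t0 n E adj x1 x2 d1 hT hs hn hc
  have x3 : (N + 2) ^ (13 * (c1 + 8)) ≤ g.X := (xpow_mono N (by omega)).trans x1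
  have x4 : (N + 2) ^ 3 ≤ g.X := (xpow_mono N (by omega)).trans x1
  obtain ⟨I', Φ, hI⟩ := k7 T g _ Sh I Ψ x3 hT
  refine sp_bind.2 (sp_nat.2 ⟨b3.trans x4, ?_⟩)
  refine (sp_rawFR (le_trans (by nlinarith [Nat.zero_le (N ^ 3)]) x4)
    ((xpow_mono N (by omega)).trans x1)).bind ?_
  rintro _ _ ⟨rfl, rfl⟩
  refine (sp_parR k1 k2 (by rw [← pow_mul, mul_comm (c1 + 8)]; exact x3)).bind ?_
  rintro _ _ ⟨rfl, rfl⟩
  refine (sp_mkG hc).bind ?_
  rintro G t1 ⟨w, rfl, rfl, e1⟩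
  refine sp_call.2 ((h Q (le_trans (Nat.pow_le_pow_right (by omega) (by omega)) q1)
    (pw e (by omega)) g _ Sh I' Φ G t0 ((xpow_mono N (by omega)).trans x1) x2 d1 hI w hn hs).mono ?_)
  rintro m t2 ⟨m1, m2, e2⟩
  refine ⟨m1, fun m' hm => (m2 m' hm).trans (Nat.le_add_right _ _), ?_⟩
  have y1 : 1 ≤ Q ^ e := Nat.one_le_pow _ _ (by omega)
  have y2 : Q ^ e * Q ≤ Q ^ (e + e0 + 50) := by
    rw [← pow_succ]; exact Nat.pow_le_pow_right (by omega) (by omega)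
  have y3 : Q ^ e * 1000 ≤ Q ^ (e + e0 + 50) := (Nat.mul_le_mul_left _ (by omega)).trans y2
  have y4 := Nat.mul_le_mul_left N y3
  have y5 := Nat.mul_le_mul_left N y1
  rw [← mul_assoc] at y4
  omega

end Crest.Agent.N325.Fin
end

-- ▼ part N325/Fin/Cx
section

/-!
# N325 / Fin (helper37): the context of a phase and its numeric side conditions
-/

set_option autoImplicit false

namespace Crest.Agent.N325.Fin

open Tw Ip P2 Mt Filter

/-- large inputs -/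
structure Big (c1 N Q : ℕ) : Prop where
  l : 2 ^ 80 * (c1 + 8) * (Nat.log 2 N + 2) ^ 3 ≤ Q
  n : Q ^ 40 ≤ N

theorem ev_big (c1 : ℕ) : ∀ᶠ N : ℕ in atTop, ∀ e Q : ℕ, 40 ≤ e → (Nat.log 2 N + 2) ^ e ≤ Q →
    Q ^ e ≤ N → Big c1 N Q := by
  filter_upwards [tendsto_log2.eventually_ge_atTop (2 ^ 80 * (c1 + 8))] with N h e Q he h1 h2
  have h3 : (Nat.log 2 N + 2) ^ 4 ≤ Q := (Nat.pow_le_pow_right (by omega) (by omega)).trans h1
  have h4 : 1 ≤ Q := (Nat.one_le_pow _ _ (by omega)).trans h3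
  refine ⟨le_trans ?_ h3, (Nat.pow_le_pow_right h4 he).trans h2⟩
  rw [pow_succ' _ 3]
  exact Nat.mul_le_mul_right _ (by omega)

/-- the time budget of a phase -/
def FF (N Q : ℕ) : ℕ := N * Q ^ 30

/-- the capacity in real units, rounded up -/
def bb (r : Raw) (kb : ℕ) : ℕ := 2 ^ kb / r.D + 1

/-- the stored parameters of the phase `kb` -/
def cf (r : Raw) (N Q kb : ℕ) : Cf :=
  ⟨Q, 2 ^ 40, 2 ^ kb, kb, r.W * r.D, r.s0, Nat.log 2 N + 10, Q * bb r kb, kb + 8, Q * bb r kb, Q,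
    (N + 2) ^ 3⟩

/-- the least number of exposed vertices -/
noncomputable def xmin (G : Gf) : ℕ :=
  sInf {x | ∃ m, IsM (Finset.range G.n) G.E m ∧ ex (Finset.range G.n) m = x}

theorem xmin_le {G : Gf} {m : ℕ → ℕ} (h : IsM (Finset.range G.n) G.E m) :
    xmin G ≤ ex (Finset.range G.n) m := Nat.sInf_le ⟨m, h, rfl⟩

theorem xmin_att (G : Gf) :
    ∃ m, IsM (Finset.range G.n) G.E m ∧ ex (Finset.range G.n) m = xmin G :=
  Nat.sInf_mem (s := {x | ∃ m, IsM (Finset.range G.n) G.E m ∧ ex (Finset.range G.n) m = x})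
    ⟨_, id, fun _ hv => ⟨hv, rfl, fun h => (h rfl).elim⟩, rfl⟩

/-- the ghost context of the phase `kb` -/
noncomputable def cx {T : Type} (r : Raw) (N Q : ℕ) (run : Cmd × T → R (T × Rep × Bool)) (G : Gf)
    (g : Gl) (Sh : T → Prop) (I : St T → Net → Prop) (Φ : St T → ℝ) (kb : ℕ) : Cx T where
  run := run
  P := r.P
  C := cf r N Q kb
  G := G
  g := g
  Bd := r.B (128 * (N + 1)) (128 * (N + 1))
  k := icF N Q
  Sh := Sh
  I := I
  Φ := Φ
  κ := Q ^ 6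
  Au := Q ^ 8 * bb r kb
  Rm := N * Q ^ 5
  xm := xmin G

/-- what is used of the raw scales -/
structure RawOk (c1 N Q : ℕ) (r : Raw) : Prop where
  pos : r.Pos
  le : r.Le ((N + 2) ^ (c1 + 8))
  W : r.W = (N + 2) ^ 4
  cb : r.cb = (N + 2) ^ 3
  pb : r.pb = (N + 2) ^ 2
  Λ : r.Λ = (N + 2) ^ 6
  F : r.F = FF N Q
  fu : r.fu = (N + 2) ^ (c1 + 8) + 1

variable {c1 N Q kb : ℕ} {r : Raw}

namespace Big

theorem l3 (h : Big c1 N Q) : 2 ^ 53 * (Nat.log 2 N + 2) ^ 3 ≤ Q :=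
  le_trans (Nat.mul_le_mul_right _ (by omega)) h.l
theorem l2 (h : Big c1 N Q) : 2 ^ 54 * (Nat.log 2 N + 2) ^ 2 ≤ Q := by
  refine le_trans ?_ h.l3
  rw [pow_succ' _ 2, ← mul_assoc]; exact Nat.mul_le_mul_right _ (by omega)
theorem l1 (h : Big c1 N Q) : 2 ^ 55 * (Nat.log 2 N + 2) ≤ Q := by
  refine le_trans ?_ h.l2
  rw [sq, ← mul_assoc]; exact Nat.mul_le_mul_right _ (by omega)
theorem lc' (h : Big c1 N Q) : 2 ^ 82 * ((c1 + 8) * (Nat.log 2 N + 2)) ≤ Q := by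
  refine le_trans ?_ h.l
  have : 4 ≤ (Nat.log 2 N + 2) ^ 2 := Nat.pow_le_pow_left (n := 2) (by omega) 2
  calc 2 ^ 82 * ((c1 + 8) * (Nat.log 2 N + 2))
      = 2 ^ 80 * (c1 + 8) * (4 * (Nat.log 2 N + 2)) := by ring
    _ ≤ 2 ^ 80 * (c1 + 8) * ((Nat.log 2 N + 2) ^ 2 * (Nat.log 2 N + 2)) :=
        Nat.mul_le_mul_left _ (Nat.mul_le_mul_right _ this)
    _ = _ := by ring
theorem lc (h : Big c1 N Q) : 2 ^ 52 * ((c1 + 8) * (Nat.log 2 N + 2)) ≤ Q := by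
  have := h.lc'; omega
theorem q (h : Big c1 N Q) : 2 ^ 56 ≤ Q := by have := h.l1; omega
theorem pos (h : Big c1 N Q) : 1 ≤ Q := by have := h.q; omega
/-- one more factor `Q` absorbs a constant -/
theorem mono (h : Big c1 N Q) {i j : ℕ} (k : i ≤ j) : Q ^ i ≤ Q ^ j := Nat.pow_le_pow_right h.pos k
theorem up (h : Big c1 N Q) (i j : ℕ) (k : i < j := by norm_num) : 2 ^ 56 * Q ^ i ≤ Q ^ j :=
  ((Nat.mul_le_mul_right _ h.q).trans (pow_succ' Q i).ge).trans (h.mono k)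
theorem up1 (h : Big c1 N Q) (j : ℕ) (k : 1 < j := by norm_num) : 2 ^ 56 * Q ≤ Q ^ j := by
  simpa only [pow_one] using h.up 1 j k
theorem le_N (h : Big c1 N Q) {i : ℕ} (k : i ≤ 40) : Q ^ i ≤ N := (h.mono k).trans h.n
theorem QN (h : Big c1 N Q) : 2 ^ 56 * Q ≤ N := by
  exact (h.up1 2).trans (h.le_N (by norm_num))
theorem hN (h : Big c1 N Q) : 2 ^ 112 ≤ N := by have := h.QN; have := h.q; omega
theorem FF_le (h : Big c1 N Q) : FF N Q ≤ (N + 2) ^ 2 := by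
  rw [FF, sq]; exact Nat.mul_le_mul (by omega) ((h.le_N (by norm_num)).trans (by omega))
theorem AQ (h : Big c1 N Q) : (icF N Q).AQ ≤ 5 * Q ^ 2 := by
  change (4 * Q + 1) * Q + 6 ≤ _
  have := h.up1 2; have := h.q
  have e : (4 * Q + 1) * Q = 4 * Q ^ 2 + Q := by ring
  omega
theorem AP (h : Big c1 N Q) : 2 ^ 30 * (icF N Q).AP ≤ Q ^ 5 := by
  change 2 ^ 30 * (((4 * Q + 1) * Q + 5) * 10 ^ 6 * Q ^ 2) ≤ _
  have h1 : (4 * Q + 1) * Q + 6 ≤ 5 * Q ^ 2 := h.AQ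
  calc _ ≤ 2 ^ 30 * (5 * Q ^ 2 * 10 ^ 6 * Q ^ 2) :=
        Nat.mul_le_mul_left _ (Nat.mul_le_mul_right _ (Nat.mul_le_mul_right _ (by omega)))
    _ = 2 ^ 30 * 5 * 10 ^ 6 * Q ^ 4 := by ring
    _ ≤ _ := le_trans (Nat.mul_le_mul_right _ (by norm_num)) (h.up 4 5)
end Big

theorem Big.xs (h : Big c1 N Q) (i j : ℕ) (k : i < j := by norm_num) :
    2 ^ 100 * (N + 2) ^ i ≤ (N + 2) ^ j :=
  ((Nat.mul_le_mul_right _ (by have := h.hN; omega)).trans (pow_succ' (N + 2) i).ge).trans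
    (xpow_mono N k)

theorem icF_AU : (icF N Q).AU = Q + 1004 := rfl
theorem icF_cl : (icF N Q).cl = 1000 := rfl
theorem icF_AR : (icF N Q).AR = N * Q + 1 := rfl

theorem x_le_two_pow (N : ℕ) : N + 2 ≤ 2 ^ (Nat.log 2 N + 2) := by
  have := Nat.lt_pow_succ_log_self (b := 2) (by norm_num) N
  have := Nat.one_le_two_pow (n := Nat.log 2 N)
  rw [pow_succ] at *; rw [pow_succ]; omega

theorem log_le_of_le_two_pow {a i : ℕ} (ha : 1 ≤ a) (h : a ≤ 2 ^ i) : Real.log a ≤ i := by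
  have h1 : (a : ℝ) ≤ 2 ^ i := by exact_mod_cast h
  have h2 : (0 : ℝ) < a := by exact_mod_cast ha
  refine (Real.log_le_log h2 h1).trans ?_
  rw [Real.log_pow]
  have := Real.log_two_lt_d9
  have h3 : (0 : ℝ) ≤ i := Nat.cast_nonneg _
  nlinarith

theorem RawOk.Mu_le (o : RawOk c1 N Q r) :
    r.W * r.D ≤ 2 ^ (8 * ((c1 + 8) * (Nat.log 2 N + 2))) := by
  refine o.le.Mu.trans ?_
  rw [mul_comm 8, pow_mul, mul_comm (c1 + 8), pow_mul]
  exact Nat.pow_le_pow_left (Nat.pow_le_pow_left (x_le_two_pow N) _) _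

section cx
variable {T : Type} {run : Cmd × T → R (T × Rep × Bool)} {G : Gf} {g : Gl} {Sh : T → Prop}
  {I : St T → Net → Prop} {Φ : St T → ℝ}

theorem cx_Lg (o : RawOk c1 N Q r) (h : Big c1 N Q) :
    2 ^ 49 * (cx r N Q run G g Sh I Φ kb).Lg ≤ Q := by
  have h1 := log_le_of_le_two_pow (Nat.mul_pos o.pos.W o.pos.D) o.Mu_le
  have h2 : ((2 ^ 52 * ((c1 + 8) * (Nat.log 2 N + 2)) : ℕ) : ℝ) ≤ Q := by exact_mod_cast h.lc
  change 2 ^ 49 * Real.log ((r.W * r.D : ℕ) : ℝ) ≤ _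
  push_cast at h1 h2 ⊢
  linarith

/-- **the context of a phase is sound** -/
theorem cx_ok (o : RawOk c1 N Q r) (h : Big c1 N Q)
    (ip : IpSpec g run r.P (r.B (128 * (N + 1)) (128 * (N + 1))) (icF N Q) Sh I Φ) (wf : G.WF)
    (hn : G.n ≤ 4 * N + 4) (hX : (N + 2) ^ (36 * (c1 + 8)) ≤ g.X) (k1 : 100 * r.D ≤ 2 ^ kb)
    (k2 : 2 ^ kb ≤ N * Q * r.D) : (cx r N Q run G g Sh I Φ kb).Ok := by
  have hN := h.hN; have hQ := h.QN; have hq := h.q; have hl := h.l1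
  have x2 : 2 ^ 100 * (N + 2) ≤ (N + 2) ^ 2 := by rw [sq]; exact Nat.mul_le_mul_right _ (by omega)
  refine ⟨ip, wf, fun m => xmin_le, ?_, ?_, ?_, ?_, rfl, ⟨o.pos.sm, r.sm_le_s0, le_rfl⟩, ?_,
    ⟨rfl, k1⟩, ?_, ?_, ⟨?_, ?_⟩, le_rfl, ?_, (by norm_num : 100 ≤ 1000), ?_, ?_, ?_,
    (by omega : 100 ≤ Q + 1004)⟩
  · change 15 * G.n + 5 ≤ 128 * (N + 1); omega
  · change G.n + 1 ≤ 128 * (N + 1); omega
  · change 5 * 2 ^ 40 * Q ≤ r.pb; rw [o.pb]; omega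
  · change Q * (G.n + 2) + 2 ≤ r.cb
    have h1 : Q * (G.n + 2) ≤ (N + 2) * (4 * (N + 2)) := Nat.mul_le_mul (by omega) (by omega)
    have h2 := h.xs 2 3
    have h3 : (N + 2) * (4 * (N + 2)) = 4 * (N + 2) ^ 2 := by ring
    rw [o.cb]; omega
  · change 1000 * r.s0 * (r.pb + r.cb) * (3 * G.n + 4) ≤ r.s0 * r.Λ
    rw [o.pb, o.cb, o.Λ]
    have h1 : (N + 2) ^ 2 ≤ (N + 2) ^ 3 := xpow_mono N (by norm_num)
    have h2 := h.xs 4 5
    have h3 : (N + 2) ^ 5 ≤ (N + 2) ^ 6 := xpow_mono N (by norm_num)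
    calc _ ≤ 1000 * r.s0 * (2 * (N + 2) ^ 3) * (12 * (N + 2)) :=
          Nat.mul_le_mul (Nat.mul_le_mul_left _ (by omega)) (by omega)
      _ = r.s0 * (24000 * (N + 2) ^ 4) := by ring
      _ ≤ _ := Nat.mul_le_mul_left _ (by omega)
  · change 100 * (G.n + 1) * (2 ^ kb + r.D) ≤ r.W * r.D
    have h1 : N * Q + 1 ≤ (N + 2) ^ 2 := by nlinarith
    have h2 : 2 ^ kb + r.D ≤ (N + 2) ^ 2 * r.D :=
      le_trans (by rw [add_mul, one_mul]; omega) (Nat.mul_le_mul_right _ h1)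
    have h3 := h.xs 3 4
    calc _ ≤ 100 * (4 * (N + 2)) * ((N + 2) ^ 2 * r.D) :=
          Nat.mul_le_mul (Nat.mul_le_mul_left _ (by omega)) h2
      _ = 400 * (N + 2) ^ 3 * r.D := by ring
      _ ≤ _ := Nat.mul_le_mul_right _ (by rw [o.W]; omega)
  · change 64 * (G.n + 1) < 2 ^ (Nat.log 2 N + 10)
    have := x_le_two_pow N
    rw [show Nat.log 2 N + 10 = Nat.log 2 N + 2 + 8 from rfl, pow_add _ _ 8]; omega
  · change 4000 * (Nat.log 2 N + 10 + 5) ≤ Q; omega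
  · have h1 := cx_Lg (run := run) (G := G) (g := g) (Sh := Sh) (I := I) (Φ := Φ) (kb := kb) o h
    have h2 : (2 : ℝ) ^ 56 ≤ Q := by exact_mod_cast hq
    change 100 * (_ + 1) ≤ (Q : ℝ)
    linarith
  · change (r.W * r.D * (r.W * r.D) * Q * 2 ^ 40) ^ 2 ≤ g.X
    have h1 : N + 2 ≤ (N + 2) ^ (c1 + 8) := Nat.le_self_pow (by omega) _
    refine le_trans ?_ hX
    rw [mul_comm 36, pow_mul, show 36 = 18 * 2 from rfl, pow_mul]
    exact Nat.pow_le_pow_left (Raw.mul_le1 (Raw.mul_le1 (Raw.mul_pow_le o.le.Mu o.le.Mu)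
      (by omega)) (by omega)) 2
  · change (icF N Q).AP + 1000 * (Q + 1004 + (icF N Q).AQ + 1000 + 1) *
      (Nat.log 2 N + 10 + 5) ^ 2 ≤ Q ^ 6
    have h1 := h.AP; have h2 := h.AQ; have h3 := h.up1 2; have h4 := h.up 4 5
    have h5 := h.up 5 6
    have h6 : 1000 * (Q + 1004 + (icF N Q).AQ + 1000 + 1) * (Nat.log 2 N + 10 + 5) ^ 2 ≤
        1000 * (7 * Q ^ 2) * Q ^ 2 := Nat.mul_le_mul (Nat.mul_le_mul_left _ (by omega)) (Nat.pow_le_pow_left (by omega) 2)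
    have h7 : 1000 * (7 * Q ^ 2) * Q ^ 2 = 7000 * Q ^ 4 := by ring
    omega
  · change 100 * (G.n + 1) ≤ N * Q ^ 5
    have h1 : Q ^ 1 ≤ Q ^ 5 := h.mono (by norm_num)
    rw [pow_one] at h1
    exact le_trans (by omega) (Nat.mul_le_mul_left N (le_trans (by omega : 1000 ≤ Q) h1))
  · change 1000 * (Nat.log 2 N + 10 + 5) ^ 2 * (G.n + 1) ≤ (N + 2) ^ 3
    have h1 : (Nat.log 2 N + 10 + 5) ^ 2 ≤ Q ^ 2 := Nat.pow_le_pow_left (by omega) 2
    have h2 := h.le_N (i := 2) (by norm_num)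
    have h3 := h.xs 2 3
    calc _ ≤ 1000 * (N + 2) * (4 * (N + 2)) :=
          Nat.mul_le_mul (Nat.mul_le_mul_left _ (by omega)) (by omega)
      _ = 4000 * (N + 2) ^ 2 := by ring
      _ ≤ _ := by omega

end cx

theorem rawOk (h : Big c1 N Q) : RawOk c1 N Q (rawF c1 N Q (FF N Q)) :=
  ⟨rawF_pos h.pos, rawF_le (by have := h.q; omega) (h.le_N (by norm_num))
    (h.FF_le.trans (xpow_mono N (by norm_num))), rfl, rfl, rfl, rfl, rfl, rfl⟩

/-- the program for `cf` -/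
def cfR (r : Raw) (P : Pm) (N Q kb : ℕ) : R Cf := do
  let B ← powR 2 kb
  let M ← nat (r.W * P.D)
  let l ← lg2 N
  let nu ← nat (Q * (B / P.D + 1))
  let f ← nat ((N + 2) ^ 3)
  pure ⟨Q, 2 ^ 40, B, kb, M, P.s0, l + 10, nu, kb + 8, nu, Q, f⟩

theorem RawOk.bb_le (_ : RawOk c1 N Q r) (k2 : 2 ^ kb ≤ N * Q * r.D) : bb r kb ≤ N * Q + 1 :=
  Nat.succ_le_succ (Nat.div_le_of_le_mul (by rwa [mul_comm r.D]))

theorem RawOk.B_le (o : RawOk c1 N Q r) (h : Big c1 N Q) (k2 : 2 ^ kb ≤ N * Q * r.D) :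
    2 ^ kb ≤ r.W * r.D := by
  refine k2.trans (Nat.mul_le_mul_right _ ?_)
  have := h.QN
  rw [o.W]
  exact le_trans (by nlinarith) (xpow_mono N (by norm_num : 2 ≤ 4))

theorem RawOk.kb_le (o : RawOk c1 N Q r) (h : Big c1 N Q) (k2 : 2 ^ kb ≤ N * Q * r.D) :
    2 ^ 49 * kb ≤ Q := by
  have h1 := (Nat.pow_le_pow_iff_right (by norm_num)).1 ((o.B_le h k2).trans o.Mu_le)
  have := h.lc
  omega

theorem sp_cfR {g : Gl} (o : RawOk c1 N Q r) (h : Big c1 N Q)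
    (hX : (N + 2) ^ (36 * (c1 + 8)) ≤ g.X) (k2 : 2 ^ kb ≤ N * Q * r.D) :
    Sp g (cfR r r.P N Q kb) fun C t => C = cf r N Q kb ∧ t ≤ FF N Q := by
  have hM : r.W * r.D ≤ g.X := by
    refine o.le.Mu.trans (le_trans ?_ hX)
    rw [← pow_mul]; exact xpow_mono N (by omega)
  have h3 : (N + 2) ^ 3 ≤ g.X := (xpow_mono N (by omega)).trans hX
  have hb := o.bb_le k2
  have := h.QN; have := h.l1; have := o.kb_le h k2
  refine (sp_powR one_le_two ((o.B_le h k2).trans hM)).bind ?_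
  rintro _ t ⟨rfl, e⟩
  refine sp_bind.2 (sp_nat.2 ⟨hM, (sp_lg2 N).bind ?_⟩)
  rintro _ t' ⟨rfl, e'⟩
  simp only [sp_bind, sp_nat, sp_pure]
  refine ⟨le_trans ?_ h3, h3, rfl, ?_⟩
  · refine (Nat.mul_le_mul_left _ hb).trans ?_
    calc Q * (N * Q + 1) ≤ (N + 2) * ((N + 2) * (N + 2)) :=
          Nat.mul_le_mul (by omega) (by nlinarith)
      _ = _ := by ring
  · have h4 : N * 1 ≤ FF N Q := Nat.mul_le_mul_left _ (Nat.one_le_pow _ _ h.pos)
    omega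

end Crest.Agent.N325.Fin
end

-- ▼ part N325/Fin/Nm
section

/-!
# Row 325 (helper29): the values of the constants of part II and the numeric side conditions
-/

set_option autoImplicit false

namespace Crest.Agent.N325.P2.Cx

variable {T : Type}

/-- capacity in units, rounded up -/
def bb (X : Cx T) : ℕ := X.C.B / X.P.D + 1

/-- the values of the constants in terms of the size `N` and of `Z` -/
structure Val (X : Cx T) (N : ℕ) : Prop where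
  n : X.G.n ≤ 4 * N + 4
  ZN : X.C.Z ^ 30 ≤ N
  lg : ∃ l, X.C.M < 2 ^ l ∧ 2 ^ 70 * l ≤ X.C.Z
  NM : (N + 2) ^ 4 ≤ X.C.M
  Ph : X.C.Ph = 2 ^ 40
  B : X.C.B ≤ N * X.C.Z * X.P.D
  nu : X.C.nu = X.C.Z * X.bb
  ts : X.C.ts = X.C.Z * X.bb
  ex : X.C.ex = X.C.kb + 8
  L : X.C.L = X.C.Z
  fu : X.C.fu = (N + 2) ^ 3
  κ : X.κ = X.C.Z ^ 6
  Au : X.Au = X.C.Z ^ 8 * X.bb
  Rm : X.Rm = N * X.C.Z ^ 5
  F : X.Bd.F = N * X.C.Z ^ 30
  AU : X.k.AU = X.C.Z + 1004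
  AQ : X.k.AQ ≤ X.C.Z ^ 3
  AR : X.k.AR ≤ N * X.C.Z + 1
  cl : X.k.cl = 1000
  d0 : 1 / ((N : ℝ) + 2) ^ 3 ≤ X.g.d
  d1 : X.g.d < 1

/-- the field `lg` from a polynomial bound -/
theorem lg_of {M N c Z : ℕ} (h : M ≤ (N + 2) ^ c)
    (k : 2 ^ 70 * (c * (Nat.log 2 N + 2) + 1) ≤ Z) : ∃ l, M < 2 ^ l ∧ 2 ^ 70 * l ≤ Z := by
  refine ⟨_, h.trans_lt ?_, k⟩
  have a : N < 2 ^ (Nat.log 2 N + 1) := Nat.lt_pow_succ_log_self one_lt_two N
  have b : 2 ^ 1 ≤ 2 ^ (Nat.log 2 N + 1) := Nat.pow_le_pow_right two_pos (by omega)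
  have e : N + 2 ≤ 2 ^ (Nat.log 2 N + 2) := by rw [pow_succ _ (_ + 1)]; omega
  calc _ ≤ (2 ^ (Nat.log 2 N + 2)) ^ c := Nat.pow_le_pow_left e _
    _ = 2 ^ (c * (Nat.log 2 N + 2)) := by rw [← pow_mul, mul_comm]
    _ < _ := Nat.pow_lt_pow_right one_lt_two (by omega)

variable {X : Cx T} {N : ℕ}

theorem bb_pos (X : Cx T) : 1 ≤ X.bb := Nat.le_add_left _ _

theorem Ok.bb_ge (h : X.Ok) : 101 ≤ X.bb :=
  Nat.succ_le_succ ((Nat.le_div_iff_mul_le h.D_pos).2 h.B.2)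

/-- `B < bb D` -/
theorem Ok.B_lt (h : X.Ok) : X.C.B < X.bb * X.P.D := by
  rw [mul_comm]; exact Nat.lt_mul_div_succ _ h.D_pos

/-- `bb D ≤ 2 B` -/
theorem Ok.bb_le (h : X.Ok) : X.bb * X.P.D ≤ 2 * X.C.B := by
  have := Nat.div_mul_le_self X.C.B X.P.D
  have := h.B.2
  rw [bb, add_mul]; omega

theorem Ok.B_div_le (h : X.Ok) : (X.C.B : ℝ) / X.P.D ≤ X.bb := by
  have a : (0 : ℝ) < X.P.D := by exact_mod_cast h.D_pos
  rw [div_le_iff₀ a]
  exact_mod_cast h.B_lt.le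

namespace Val
variable (v : X.Val N)
include v

theorem Z_ge : 2 ^ 70 ≤ X.C.Z := by
  obtain ⟨l, a, b⟩ := v.lg
  have c : 1 ≤ X.C.M := le_trans (Nat.one_le_pow _ _ (by omega)) v.NM
  rcases l with _ | l
  · omega
  · exact le_trans (Nat.le_mul_of_pos_right _ (Nat.succ_pos _)) b

theorem pw {i j : ℕ} (k : i ≤ j) : X.C.Z ^ i ≤ X.C.Z ^ j :=
  Nat.pow_le_pow_right (by have := v.Z_ge; omega) k

/-- one more power absorbs a constant -/
theorem up (a i : ℕ) : 2 ^ 70 * (a * X.C.Z ^ i) ≤ a * X.C.Z ^ (i + 1) := by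
  rw [pow_succ' _ i, mul_left_comm a]
  exact Nat.mul_le_mul_right _ v.Z_ge

theorem mono (a : ℕ) {i j : ℕ} (k : i ≤ j) : a * X.C.Z ^ i ≤ a * X.C.Z ^ j :=
  Nat.mul_le_mul_left _ (v.pw k)

theorem pw_le {i : ℕ} (k : i ≤ 30) : X.C.Z ^ i ≤ N := (v.pw k).trans v.ZN

theorem Z_le : X.C.Z ≤ N := by simpa using v.pw_le (i := 1) (by omega)

theorem N_ge : 2 ^ 70 ≤ N := v.Z_ge.trans v.Z_le

theorem n_le : X.G.n + 1 ≤ 5 * N := by have := v.n; have := v.N_ge; omega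

theorem AU_le : X.k.AU ≤ 2 * X.C.Z := by have := v.AU; have := v.Z_ge; omega

theorem bb_le (h : X.Ok) : X.bb ≤ 2 * (N * X.C.Z) := by
  have a := h.bb_le
  have b := v.B
  refine Nat.le_of_mul_le_mul_right (c := X.P.D) ?_ h.D_pos
  rw [mul_assoc 2]; omega

/-- `Z ^ i bb ≤ 2 N Z ^ (i + 1)` -/
theorem zb_le (h : X.Ok) (i : ℕ) : X.bb * X.C.Z ^ i ≤ 2 * (N * X.C.Z ^ (i + 1)) :=
  (Nat.mul_le_mul_right _ (v.bb_le h)).trans_eq (by ring)

theorem N4_le (h : X.Ok) : (N + 2) ^ 4 ≤ X.g.X := v.NM.trans h.M_le_X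

/-- `N Z ^ i` is a legal number -/
theorem nz_le {i : ℕ} (k : i ≤ 30) : 2 ^ 70 * (N * X.C.Z ^ i) ≤ (N + 2) ^ 3 := by
  have a := v.pw_le k
  have b := v.N_ge
  calc _ ≤ (N + 2) * ((N + 2) * (N + 2)) :=
        Nat.mul_le_mul (by omega) (Nat.mul_le_mul (by omega) (by omega))
    _ = _ := by ring

theorem N3_le (h : X.Ok) : (N + 2) ^ 3 ≤ X.g.X :=
  (Nat.pow_le_pow_right (by omega) (by omega)).trans (v.N4_le h)

/-- the numeric hypothesis of `initSpec` -/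
theorem hF : X.k.AR + 4 * X.k.AU * X.G.n ≤ X.Bd.F := by
  have a := Nat.mul_le_mul (Nat.mul_le_mul_left 4 v.AU_le) ((Nat.le_succ _).trans v.n_le)
  have b := v.up N 1
  have c := v.mono N (i := 1 + 1) (j := 30) (by omega)
  have d := v.AR
  have e : 4 * (2 * X.C.Z) * (5 * N) = 40 * (N * X.C.Z) := by ring
  have f : 1 ≤ N * X.C.Z := Nat.mul_pos (by have := v.N_ge; omega) (by have := v.Z_ge; omega)
  rw [pow_one] at b
  rw [v.F]; omega

/-- the budget of a phase -/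
theorem ini (h : X.Ok) {c0 : ℕ} (hc : c0 ≤ 1000) (gap : ℕ)
    (k : gap * X.C.B ≤ 2 * c0 * X.G.n * X.P.D) :
    X.k.AR + X.κ * (X.G.n + 1) * X.C.Z ^ 2 + X.κ * X.Au * gap + X.k.AQ + 2 +
      X.Rm * (2 * X.k.AU) ≤ X.Bd.F := by
  have hN := v.N_ge
  have a1 : gap * X.bb ≤ 20000 * N := by
    refine Nat.le_of_mul_le_mul_right (c := X.P.D) ?_ h.D_pos
    have b1 := Nat.mul_le_mul_left gap h.bb_le
    have b2 : 2 * c0 * X.G.n * X.P.D ≤ 2 * 1000 * (5 * N) * X.P.D :=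
      Nat.mul_le_mul_right _ (Nat.mul_le_mul (by omega) ((Nat.le_succ _).trans v.n_le))
    calc _ = gap * (X.bb * X.P.D) := mul_assoc _ _ _
      _ ≤ 2 * (gap * X.C.B) := b1.trans_eq (by ring)
      _ ≤ 2 * (2 * 1000 * (5 * N) * X.P.D) := by omega
      _ = _ := by ring
  have a2 : X.κ * X.Au * gap ≤ 20000 * (N * X.C.Z ^ 14) := by
    rw [v.κ, v.Au]
    calc _ = gap * X.bb * X.C.Z ^ 14 := by ring
      _ ≤ 20000 * N * X.C.Z ^ 14 := Nat.mul_le_mul_right _ a1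
      _ = _ := by ring
  have a3 : X.κ * (X.G.n + 1) * X.C.Z ^ 2 ≤ 5 * (N * X.C.Z ^ 8) := by
    rw [v.κ]
    exact (Nat.mul_le_mul_right _ (Nat.mul_le_mul_left _ v.n_le)).trans_eq (by ring)
  have a4 : X.Rm * (2 * X.k.AU) ≤ 4 * (N * X.C.Z ^ 6) := by
    rw [v.Rm]
    exact (Nat.mul_le_mul_left _ (Nat.mul_le_mul_left 2 v.AU_le)).trans_eq (by ring)
  have a5 : X.k.AQ ≤ N * X.C.Z ^ 3 := v.AQ.trans (Nat.le_mul_of_pos_left _ (by omega))
  have a6 := v.AR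
  have b0 := v.mono N (i := 0) (j := 14) (by omega)
  have b1 := v.mono N (i := 1) (j := 14) (by omega)
  have b2 := v.mono N (i := 3) (j := 14) (by omega)
  have b3 := v.mono N (i := 6) (j := 14) (by omega)
  have b4 := v.mono N (i := 8) (j := 14) (by omega)
  have b5 := v.up N 14
  have b6 := v.mono N (i := 14 + 1) (j := 30) (by omega)
  rw [pow_one] at b1
  rw [pow_zero] at b0
  rw [v.F]; omega

/-- the numeric condition of AUGMENT -/
theorem aug (h : X.Ok) {Wa : ℕ} (k : Wa ≤ X.bb * X.C.Z ^ 4) : X.AugNum Wa := by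
  have hZ := v.Z_ge
  have a1 := h.B_div_le
  have a2 := h.Lg_le
  have a3 := h.Lg_nonneg
  have z : (2 : ℝ) ^ 70 ≤ X.C.Z := by exact_mod_cast hZ
  have b1 : X.C.Z * (X.C.Z * X.bb + X.C.Z * (Wa + 10)) ≤ X.Au := by
    have c0 := h.bb_ge
    have c1 := v.mono X.bb (i := 0) (j := 4) (by omega)
    rw [pow_zero] at c1
    have c2 := v.mono X.bb (i := 2) (j := 6) (by omega)
    have c3 := v.up X.bb 6
    have c4 := v.mono X.bb (i := 6 + 1) (j := 8) (by omega)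
    have c5 : X.C.Z * (X.C.Z * (Wa + 10)) ≤ 2 * (X.bb * X.C.Z ^ 6) :=
      (Nat.mul_le_mul_left _ (Nat.mul_le_mul_left _
        (show Wa + 10 ≤ 2 * (X.bb * X.C.Z ^ 4) by omega))).trans_eq (by ring)
    have c6 : X.C.Z * (X.C.Z * X.bb) = X.bb * X.C.Z ^ 2 := by ring
    rw [v.Au, mul_comm (_ ^ 8), mul_add]; omega
  refine le_trans ?_ (show ((X.C.Z * (X.C.Z * X.bb + X.C.Z * (Wa + 10)) : ℕ) : ℝ) ≤ _ by
    exact_mod_cast b1)
  push_cast
  rw [v.Ph, mul_div_assoc]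
  refine mul_le_mul_of_nonneg_left (add_le_add (mul_le_mul ?_ a1 (by positivity) (by positivity))
    (mul_le_mul_of_nonneg_right (by linarith) (by positivity))) (by positivity)
  push_cast; linarith

end Val

end Crest.Agent.N325.P2.Cx
end

-- ▼ part N325/Fin/Val
section

/-! # N325 / Fin (helper37): the values of the context of a phase; the range of the phases -/

set_option autoImplicit false

namespace Crest.Agent.N325.Fin

open Tw Ip P2 Mt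

variable {c1 N Q kb : ℕ} {r : Raw} {T : Type} {run : Cmd × T → R (T × Rep × Bool)} {G : Gf}
  {g : Gl} {Sh : T → Prop} {I : St T → Net → Prop} {Φ : St T → ℝ}

theorem cx_val (o : RawOk c1 N Q r) (h : Big c1 N Q) (hn : G.n ≤ 4 * N + 4)
    (k2 : 2 ^ kb ≤ N * Q * r.D) (d0 : 1 / ((N : ℝ) + 2) ^ 3 ≤ g.d) (d1 : g.d < 1) :
    (cx r N Q run G g Sh I Φ kb).Val N := by
  refine ⟨hn, h.le_N (by norm_num), ⟨8 * ((c1 + 8) * (Nat.log 2 N + 2)) + 1,
    o.Mu_le.trans_lt (Nat.pow_lt_pow_right one_lt_two (Nat.lt_succ_self _)), ?_⟩, ?_, rfl, k2, rfl,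
    rfl, rfl, rfl, rfl, rfl, rfl, rfl, o.F, rfl, ?_, le_rfl, rfl, d0, d1⟩
  · have h1 := h.lc'
    have h2 : 1 ≤ (c1 + 8) * (Nat.log 2 N + 2) := Nat.mul_pos (by omega) (by omega)
    change _ ≤ Q
    omega
  · change _ ≤ r.W * r.D
    rw [o.W]; exact Nat.le_mul_of_pos_right _ o.pos.D
  · have h1 := h.AQ; have h2 := h.up 2 3
    change (icF N Q).AQ ≤ Q ^ 3
    omega

theorem RawOk.F_lt (o : RawOk c1 N Q r) (h : Big c1 N Q) : r.F < r.fu := by
  rw [o.F, o.fu]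
  exact Nat.lt_succ_of_le (h.FF_le.trans (xpow_mono N (by omega)))

/-- the first phase -/
theorem size_range (D : ℕ) (hD : 1 ≤ D) :
    100 * D ≤ 2 ^ (100 * D).size ∧ 2 ^ (100 * D).size ≤ 200 * D := by
  refine ⟨(Nat.lt_size_self _).le, ?_⟩
  have h1 : 0 < (100 * D).size := Nat.size_pos.2 (by omega)
  have h2 : 2 ^ ((100 * D).size - 1) ≤ 100 * D := Nat.lt_size.1 (by omega)
  have h3 : 2 ^ (100 * D).size = 2 ^ ((100 * D).size - 1) * 2 := by
    rw [← pow_succ]; congr 1; omega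
  omega

/-- all phases are in range -/
theorem Big.range (h : Big c1 N Q) {D kb0 j : ℕ} (a : 100 * D ≤ 2 ^ kb0) (b : 2 ^ kb0 ≤ 400 * D)
    (h1 : kb0 ≤ j) (h2 : j < kb0 + (Nat.log 2 N + 20)) : 100 * D ≤ 2 ^ j ∧ 2 ^ j ≤ N * Q * D := by
  refine ⟨a.trans (Nat.pow_le_pow_right two_pos h1), ?_⟩
  have h3 : 2 ^ Nat.log 2 N ≤ N := Nat.pow_log_le_self 2 (by have := h.hN; omega)
  have h4 := h.q
  calc 2 ^ j ≤ 2 ^ (kb0 + (Nat.log 2 N + 20)) := Nat.pow_le_pow_right two_pos h2.le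
    _ = 2 ^ Nat.log 2 N * (2 ^ 20 * 2 ^ kb0) := by ring
    _ ≤ N * (2 ^ 20 * (400 * D)) := Nat.mul_le_mul h3 (Nat.mul_le_mul_left _ b)
    _ = N * (2 ^ 20 * 400) * D := by ring
    _ ≤ _ := Nat.mul_le_mul_right _ (Nat.mul_le_mul_left _ (by omega))

/-- the last capacity exceeds the error term -/
theorem last_big {n D kb0 : ℕ} (hn : n ≤ 4 * N + 4) (hD : 1 ≤ D) (a : 100 * D ≤ 2 ^ kb0) :
    1000 * n * D < 2 ^ (kb0 + (Nat.log 2 N + 20) - 1) := by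
  have h1 := x_le_two_pow N
  calc 1000 * n * D ≤ 1000 * (4 * (N + 2)) * D :=
        Nat.mul_le_mul_right _ (Nat.mul_le_mul_left _ (by omega))
    _ = 100 * D * (40 * (N + 2)) := by ring
    _ < 100 * D * (2 ^ 17 * 2 ^ (Nat.log 2 N + 2)) :=
        Nat.mul_lt_mul_of_pos_left (by omega) (by omega)
    _ ≤ 2 ^ kb0 * (2 ^ 17 * 2 ^ (Nat.log 2 N + 2)) := Nat.mul_le_mul_right _ a
    _ = _ := by rw [← pow_add, ← pow_add]; congr 1; omega

end Crest.Agent.N325.Fin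
end

-- ▼ part N325/Fin/Core
section

/-!
# Row 325 (helper57): seam (C) from the events
-/

set_option autoImplicit false

namespace Crest.Agent.N325.Fin

open Filter Tw Mt Ip P2

/-- **seam (E)**: the events of a phase -/
def EvStmt : Prop :=
  ∀ (T : Type) [Rp T], ∃ (lab unl : Env T → S T → ℕ → R (S T))
    (ins edg : Env T → S T → ℕ → List ℕ → R (S T)) (ini : Env T → T → Arr ℕ → R (S T)),
    (Impl fun p : Env T × T × Arr ℕ => phaseE lab unl ins edg ini p.1 p.2) ∧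
    ∀ (X : Cx T) (N : ℕ), X.Ok → X.Val N →
      X.LabelSpec (lab X.toEnv) ∧ X.UnlabSpec (unl X.toEnv) ∧ X.InsSpec (ins X.toEnv) ∧
        X.EdgeSpec (edg X.toEnv) ∧
        X.InitSpec (ini X.toEnv) (X.k.AR + X.κ * (X.G.n + 1) * X.C.Z ^ 2) ∧ X.EndSpec 200

section
variable {T : Type} (lab unl : Env T → S T → ℕ → R (S T))
  (ins edg : Env T → S T → ℕ → List ℕ → R (S T)) (ini : Env T → T → Arr ℕ → R (S T))

/-- parameters of the phases, all phases -/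
def coreR (c1 : ℕ) (u : Rn T × Pm × Gf × ℕ × ℕ × T) : R (Arr ℕ) :=
  nat (u.2.2.2.1 * u.2.2.2.2.1 ^ 30) >>= fun F => rawFR c1 u.2.2.2.1 u.2.2.2.2.1 F >>= fun r =>
    nat (100 * u.2.1.D) >>= fun a => lg2 a >>= fun k => lg2 u.2.2.2.1 >>= fun l =>
      p2 lab unl ins edg ini u.1 u.2.1 u.2.2.1
        (fun j => cfR r u.2.1 u.2.2.2.1 u.2.2.2.2.1 j) (k + 1) (l + 20) u.2.2.2.2.2

theorem impl_coreR [Rp T] (c1 : ℕ)
    (h : Impl fun p : Env T × T × Arr ℕ => phaseE lab unl ins edg ini p.1 p.2) :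
    Impl (coreR lab unl ins edg ini c1) := by
  obtain ⟨ph, e⟩ : ∃ ph : Env T × T × Arr ℕ → R (T × Arr ℕ),
      ∀ E u, phaseE lab unl ins edg ini E u = ph (E, u) :=
    ⟨fun p => phaseE lab unl ins edg ini p.1 p.2, fun _ _ => rfl⟩
  simp only [e] at h
  unfold coreR p2 cfR
  simp only [e]
  impl

end

/-- **seam (C) from seam (E)** -/
theorem core_of_ev (h : EvStmt) : CoreStmt := by
  intro c1 T _
  obtain ⟨lab, unl, ins, edg, ini, i1, h⟩ := h T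
  refine ⟨coreR lab unl ins edg ini c1, 36 * (c1 + 8), 30, 40, impl_coreR _ _ _ _ _ c1 i1, ?_⟩
  filter_upwards [ev_big c1] with N hb Q q1 q2 g run Sh I Φ G t0 x1 d0 d1 ip wf hn sh
  have b := hb 40 Q le_rfl q1 q2
  have o := rawOk b
  have hN := b.hN
  have hQ := b.QN
  have q := b.q
  have x2 : (N + 2) ^ 2 ≤ g.X := (xpow_mono N (by omega)).trans x1
  have hD := o.pos.D
  have x3 : 100 * (rawF c1 N Q (FF N Q)).D ≤ ((N + 2) ^ (c1 + 8)) ^ 8 := by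
    rw [pow_succ' _ 7]
    exact Nat.mul_le_mul (le_trans (by norm_num) o.le.big) o.le.D
  refine sp_bind.2 (sp_nat.2 ⟨b.FF_le.trans x2, ?_⟩)
  refine (sp_rawFR (le_trans (by nlinarith) x2) ((xpow_mono N (by omega)).trans x1)).bind ?_
  rintro _ _ ⟨rfl, rfl⟩
  refine sp_bind.2 (sp_nat.2 ⟨x3.trans (by
    rw [← pow_mul]; exact (xpow_mono N (by omega)).trans x1), ?_⟩)
  refine (sp_lg2 _).bind ?_
  rintro _ t1 ⟨rfl, e1⟩
  refine (sp_lg2 _).bind ?_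
  rintro _ t2 ⟨rfl, e2⟩
  dsimp only at *
  change t1 ≤ Nat.log 2 (100 * (rawF c1 N Q (FF N Q)).D) + 1 at e1
  generalize hk : Nat.log 2 (100 * (rawF c1 N Q (N * Q ^ 30)).P.D) = k
  change Nat.log 2 (100 * (rawF c1 N Q (FF N Q)).D) = k at hk
  rw [hk] at e1
  have k1 : 100 * (rawF c1 N Q (FF N Q)).D ≤ 2 ^ (k + 1) :=
    hk ▸ (Nat.lt_pow_succ_log_self one_lt_two _).le
  have k2 : 2 ^ (k + 1) ≤ 400 * (rawF c1 N Q (FF N Q)).D := by
    have := Nat.pow_log_le_self 2 (x := 100 * (rawF c1 N Q (FF N Q)).D) (by omega)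
    rw [hk] at this
    rw [pow_succ]; omega
  have k3 := o.kb_le b (b.range k1 k2 le_rfl (by omega)).2
  refine (sp_p2 (c0 := 200) (F := FF N Q) (cx (rawF c1 N Q (FF N Q)) N Q run G g Sh I Φ)
    (fun j a1 a2 => ?_) (by omega) k2 sh).mono ?_
  · obtain ⟨r1, r2⟩ := b.range k1 k2 a1 a2
    have ok := cx_ok o b ip wf hn x1 r1 r2
    have v := cx_val (run := run) (Sh := Sh) (I := I) (Φ := Φ) o b hn r2 d0 d1
    obtain ⟨s1, s2, s3, s4, s5, s6⟩ := h _ N ok v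
    exact ⟨⟨ok, s1, s2, s3, s4, ⟨_, s5, v.ini ok (by norm_num)⟩, s6, o.F_lt b, xmin_att G⟩, rfl,
      rfl, rfl, rfl, rfl, rfl, rfl, sp_cfR o b x1 r2⟩
  · rintro m t ⟨m1, m2, e3⟩
    refine ⟨m1, fun m' hm => ?_, ?_⟩
    · have y1 := m2 m' hm
      have y2 := last_big hn hD k1
      change _ ≤ _ + 200 * G.n * (rawF c1 N Q (FF N Q)).D at y1
      refine Nat.le_of_lt_succ (Nat.lt_of_mul_lt_mul_right
        (a := 2 ^ (k + 1 + (Nat.log 2 N + 20) - 1)) ?_)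
      rw [Nat.succ_mul]
      rw [mul_assoc] at y1 y2
      omega
    · have y1 := b.l1
      have y2 : N ≤ FF N Q := Nat.le_mul_of_pos_right _ (Nat.one_le_pow _ _ (by omega))
      have y3 : (Nat.log 2 N + 20) * (2 * FF N Q + 9) ≤ Q * (3 * FF N Q) :=
        Nat.mul_le_mul (by omega) (by omega)
      have y4 : N * Q ^ 40 = Q * FF N Q * Q ^ 9 := by rw [FF]; ring
      have y5 : Q * FF N Q * 100 ≤ Q * FF N Q * Q ^ 9 :=
        Nat.mul_le_mul_left _ (le_trans (by omega) (Nat.le_self_pow (by norm_num) Q))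
      have y6 : FF N Q ≤ Q * FF N Q := Nat.le_mul_of_pos_left _ (by omega)
      have y7 : Q * (3 * FF N Q) = 3 * (Q * FF N Q) := by ring
      omega

end Crest.Agent.N325.Fin
end

-- ▼ part N325/Fin/Nm2

/-!
# Row 325 (helper29): the numeric side conditions of the walks and of the EDGE event
-/

set_option autoImplicit false

namespace Crest.Agent.N325.P2.Cx

variable {T : Type}

/-- bound on the weight of one path -/
def Wb (X : Cx T) : ℕ := X.bb * X.C.Z ^ 3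

variable {X : Cx T} {N : ℕ}

namespace Val
variable (v : X.Val N)
include v

theorem lt (a i j : ℕ) (k : i < j := by norm_num) : 2 ^ 70 * (a * X.C.Z ^ i) ≤ a * X.C.Z ^ j :=
  (v.up a i).trans (v.mono a k)

theorem PhB (h : X.Ok) {a : ℕ} (k : a * 2 ^ 40 ≤ X.C.Z) :
    a * X.C.Ph * X.C.B ≤ X.C.Z * X.bb * X.P.D := by
  rw [v.Ph, mul_assoc X.C.Z]; exact Nat.mul_le_mul k h.B_lt.le

theorem kb_le (h : X.Ok) : 2 ^ 70 * X.C.kb ≤ X.C.Z := by
  obtain ⟨l, a, b⟩ := v.lg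
  have c := h.BD_le
  have d : 2 ^ X.C.kb < 2 ^ l := by rw [← h.B.1]; omega
  have := (Nat.pow_lt_pow_iff_right one_lt_two).1 d
  omega

theorem Wb_le (h : X.Ok) : X.Wb ≤ 2 * (N * X.C.Z ^ 4) := v.zb_le h 3

/-- surplus and light classes -/
theorem sur (h : X.Ok) : X.SurStmt (X.bb * X.C.Z) := fun s N' i g => ⟨i.surplus h g, fun c k => by
  have := v.Z_ge
  refine Nat.le_of_mul_le_mul_right ((i.cls_wt h g k).trans ?_) h.D_pos
  rw [mul_comm X.bb]; exact v.PhB h (by omega)⟩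

/-- the numeric conditions of the walks -/
theorem wk (h : X.Ok) : X.WkNum X.Wb := by
  obtain ⟨l, a, b⟩ := v.lg
  have hZ := v.Z_ge
  have hN := v.N_ge
  refine ⟨⟨l, le_trans ?_ a.le, by omega, ?_⟩, ?_, v.d1, le_trans ?_ v.d0, ?_⟩
  · refine le_trans ?_ h.M
    have c : 1 ≤ X.C.B := h.B.1 ▸ Nat.one_le_two_pow
    calc _ ≤ (X.G.n + 1) * X.C.B := by rw [add_mul]; omega
      _ ≤ _ := Nat.mul_le_mul (by omega) (by omega)
  · rw [v.ts]; exact v.PhB h (by omega)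
  · rw [v.nu]; exact v.PhB h (by omega)
  · have c1 := v.Wb_le h
    have c2 := v.nz_le (i := 4) (by omega)
    have c3 : 1 ≤ N * X.C.Z ^ 4 := Nat.mul_pos (by omega) (Nat.pow_pos (by omega))
    have c4 : (N + 2) ^ 3 ≤ 2 ^ l :=
      ((Nat.pow_le_pow_right (by omega) (by omega)).trans v.NM).trans a.le
    have c5 : (X.Wb + 1) * (N + 2) ^ 3 ≤ 2 ^ X.C.Z :=
      calc _ ≤ 2 ^ l * 2 ^ l := Nat.mul_le_mul (by omega) c4
        _ = 2 ^ (l + l) := (pow_add _ _ _).symm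
        _ ≤ _ := Nat.pow_le_pow_right two_pos (by omega)
    rw [v.L, one_div_pow, mul_one_div, div_le_div_iff₀ (by positivity) (by positivity), one_mul]
    exact_mod_cast c5
  · have c0 := h.bb_ge
    have c1 := v.kb_le h
    have c2 : X.C.Z ≤ X.C.Z * X.bb := Nat.le_mul_of_pos_right _ (by omega)
    have c3 : (X.C.ts + 1) * X.C.kb ≤ 2 * (X.C.Z * X.bb) * X.C.Z := by
      rw [v.ts]; exact Nat.mul_le_mul (by omega) (by omega)
    have c4 : X.C.Z * X.bb ≤ X.C.Z * X.bb * X.C.Z := Nat.le_mul_of_pos_right _ (by omega)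
    have c5 := v.nz_le (i := 4) (by omega)
    have c6 := v.N3_le h
    have c7 : _ ≤ 2 * (N * X.C.Z ^ 4) := v.zb_le h 3
    rw [mul_assoc] at c3
    calc _ ≤ 2 * X.C.Z * (3 * (X.C.Z * X.bb * X.C.Z)) :=
          Nat.mul_le_mul (by rw [v.L]; omega) (by omega)
      _ = 6 * (X.bb * X.C.Z ^ 3) := by ring
      _ ≤ _ := by omega

theorem wkA_le (h : X.Ok) : X.wkA X.Wb ≤ 2 * (X.bb * X.C.Z ^ 4) := by
  have hZ := v.Z_ge
  have c0 := h.bb_ge
  have c1 := v.kb_le h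
  have c2 : X.C.Z ≤ X.C.Z * X.bb := Nat.le_mul_of_pos_right _ (by omega)
  have c3 : X.C.Z * (X.C.Z * X.bb) * (2 * X.k.AU) ≤ 4 * (X.bb * X.C.Z ^ 3) :=
    (Nat.mul_le_mul_left _ (Nat.mul_le_mul_left 2 v.AU_le)).trans_eq (by ring)
  have c4 : X.C.Z * ((X.C.Z * X.bb + 1) * (10 * X.C.kb + 27)) ≤ 2 * (X.bb * X.C.Z ^ 3) :=
    (Nat.mul_le_mul_left _ (Nat.mul_le_mul (show _ ≤ 2 * (X.C.Z * X.bb) by omega)
      (show _ ≤ X.C.Z by omega))).trans_eq (by ring)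
  have c5 : X.C.Z * (X.bb * X.C.Z ^ 3) = X.bb * X.C.Z ^ 4 := by ring
  have c6 := v.lt X.bb 3 4
  have c7 : 1 ≤ X.bb * X.C.Z ^ 3 := Nat.mul_pos (by omega) (Nat.pow_pos (by omega))
  rw [wkA, v.L, v.ts, Wb, mul_add X.C.Z]
  omega

/-- the numeric conditions of EDGE -/
theorem edge (h : X.Ok) {A : ℕ} (hA : A ≤ 2 ^ 60 * (X.bb * X.C.Z ^ 4)) :
    X.EdgeNum X.C.ts X.Wb A (X.bb * X.C.Z) X.Wb := by
  have hZ := v.Z_ge
  have hN := v.N_ge
  have c0 := h.bb_ge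
  have c1 := v.Wb_le h
  refine ⟨?_, le_rfl, ?_, ?_, ?_⟩
  · have d1 := v.lt X.bb 1 2
    have d2 := v.lt X.bb 2 3
    have d3 : X.C.Z * (X.C.Z * X.bb) = X.bb * X.C.Z ^ 2 := by ring
    rw [pow_one] at d1
    rw [v.nu, v.L, v.ts, Wb, d3, mul_comm X.C.Z]
    omega
  · have d1 := v.nz_le (i := 4) (by omega)
    have d2 := v.N3_le h
    have d3 : 1 ≤ N * X.C.Z ^ 4 := Nat.mul_pos (by omega) (Nat.pow_pos (by omega))
    omega
  · have d1 : _ ≤ 2 * (N * X.C.Z ^ 5) := v.zb_le h 4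
    have d2 := v.lt N 4 5
    have d3 := v.mono N (i := 0) (j := 4) (by omega)
    have d4 := v.n_le
    rw [pow_zero] at d3
    have d5 : 100 * (2 * X.Wb + X.G.n + 1) * (2 * X.k.AU) ≤ N * X.C.Z ^ 5 * X.k.AU := by
      rw [← mul_assoc]; exact Nat.mul_le_mul_right _ (by omega)
    have d6 : N * X.C.Z ^ 5 * 2 ^ 70 ≤ N * X.C.Z ^ 5 * X.k.AU :=
      Nat.mul_le_mul_left _ (by have := v.AU; omega)
    rw [v.Rm, mul_left_comm (N * _)]
    omega
  · have d1 := v.mono X.bb (i := 3) (j := 6) (by omega)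
    have d2 := v.lt X.bb 4 6
    have d4 := v.mono X.bb (i := 1) (j := 6) (by omega)
    have d5 := v.lt X.bb 6 14
    have d7 : X.C.Z ≤ X.bb * X.C.Z := Nat.le_mul_of_pos_left _ (by omega)
    have d8 : X.C.Z ^ 6 ≤ X.bb * X.C.Z ^ 6 := Nat.le_mul_of_pos_left _ (by omega)
    have d9 : X.C.Z ^ 6 * (X.C.Z ^ 8 * X.bb) = X.bb * X.C.Z ^ 14 := by ring
    rw [pow_one] at d4
    rw [v.κ, v.Au, v.L, d9, Wb]
    omega

theorem aug2 (h : X.Ok) : X.AugNum (2 * X.Wb) :=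
  v.aug h (by have := v.lt X.bb 3 4; rw [Wb]; omega)

/-- **EDGE** from MERGE and AUGMENT -/
theorem edgeSpec (h : X.Ok) {mg : S T → List ℕ → List ℕ → ℕ → List ℕ → R (S T)}
    {ag : S T → ℕ → List ℕ → ℕ × List (ℕ × ℕ) → ℕ × List (ℕ × ℕ) → R (S T)}
    (hm : X.MergeSpec mg) (ha : X.AugSpec (2 * X.Wb) ag) :
    X.EdgeSpec (edgeE X.toEnv mg ag (wkE X.toEnv)) :=
  edgeSpec_of h hm ha (wkStmt h (v.wk h)) (v.sur h)
    (v.edge h (by have := v.wkA_le h; omega))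

end Val

end Crest.Agent.N325.P2.Cx
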