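import Crest.Agent.N325.P2.DropE
import Crest.Agent.N325.P2.DropF2
import Crest.Agent.N325.P2.DropP
import Crest.Agent.N325.P2.Ins
import Crest.Agent.N325.P2.Dual
import Crest.Agent.N325.En.Cnt
import Crest.Agent.N325.Ml.Defs
import Crest.Agent.N325.P2.Defs2
import Crest.Agent.N325.Bl.Trv
import Crest.Agent.N325.Ag.Defs
import Crest.Agent.N325.Ag.FinD
import Crest.Agent.N325.P2.Clo
import Crest.Agent.N325.Ag.RotD
import Crest.Agent.N325.P2.Util
import Crest.Agent.N325.P2.App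
import Crest.Agent.N325.Lb.Bar
import Crest.Agent.N325.Mt.Defs
import Crest.Agent.N325.Mt.Walk
import Crest.Agent.N325.Lst.ListImpl
import Crest.Agent.N325.Mt.Search
import Crest.Agent.N325.Mt.Finish_Mg
import Crest.Agent.N325.M0.Std0
import Crest.Agent.N325.Mt.SImpl
import Crest.Agent.N325.M0.Std
import Crest.Agent.N325.Fin.Defs

-- ▼ part N325/P2/DropF
section

/-!
# Row 325, part II (helper73): DROP meets its specification
-/

set_option autoImplicit false
open Finset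

namespace Crest.Agent.N325.P2.Cx

open Crest.Agent.N325.Tw Crest.Agent.N325.Ip Crest.Agent.N325.Mt Crest.Agent.N325.Bf
  Crest.Agent.N325.On

variable {T : Type} {X : Cx T} {s : St T} {d d' : Dt} {Y : List ℕ} {N N' : Net}

/-- the balance of the potential -/
theorem Inv.bal_drop (i : X.Inv (s, d) N) (h : X.Ok) (f : Flo N X.C.lam)
    (hY : ∀ c ∈ Y, isC X.G d c) (nd : Y.Nodup) (p : Drp X.G d (drW d Y) d')
    (n : DrN X.P.D X.C X.G d d' (drW d Y) N N') :
    wsum (wtC d) Y + (pot X.P X.Bd N' + X.Ψ d') + ∑ c ∈ Y.toFinset, (X.C.Z * wtC d c : ℝ) *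
      (Real.log (wtC d c * X.P.D / N.X (5 * c + 2)) - 15) ≤ pot X.P X.Bd N + X.Ψ d +
        (5 * X.C.Ph * X.C.Z * (exitF X.G d N Y.toFinset : ℝ) / X.P.D + 1) := by
  have hc : Cmb X.G d := i.cmb
  have a := i.pot_drop h f hY p n
  have b := Psi_drop (p.drD hc i.q hY nd) hc fun c k => hY c (List.mem_toFinset.1 k)
  have c : ∑ c ∈ Y.toFinset, (X.C.Z * wtC d c : ℝ) *
      (Real.log (wtC d c * X.P.D / N.X (5 * c + 2)) - 15) =
      ∑ c ∈ Y.toFinset, (X.C.Z * wtC d c : ℝ) * (X.Lg - Real.log (N.X (5 * c + 2))) -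
        ∑ c ∈ Y.toFinset, (X.C.Z * wtC d c : ℝ) * (lM X.P X.Bd - Real.log (wtC d c)) -
          15 * X.C.Z * wsum (wtC d) Y := by
    rw [On.wsum, ← List.sum_toFinset _ nd, Nat.cast_sum, mul_sum, ← sum_sub_distrib, ← sum_sub_distrib]
    refine sum_congr rfl fun c k => ?_
    have x0 : (0 : ℝ) < N.X (5 * c + 2) := by
      exact_mod_cast (i.lt_B h (i.arcs.sink (hY c (List.mem_toFinset.1 k))).1).1
    have d0 : (0 : ℝ) < X.P.D := by exact_mod_cast h.D_pos
    have w0 : (0 : ℝ) < wtC d c := by exact_mod_cast Nat.succ_pos _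
    rw [Real.log_div (by positivity) x0.ne', Real.log_mul w0.ne' d0.ne', h.lM_eq]
    ring
  rw [List.toFinset_card_of_nodup (nodup_drW hc hY nd), ← card_drUR hc hY nd] at a
  rw [c, ← card_dr hc hY nd]
  have l := h.Lg_le
  have z : (20000 : ℝ) ≤ X.C.Z := by exact_mod_cast h.Z_pos
  have k : (X.C.K : ℝ) ≤ X.C.Z := by have := h.Z.1; exact_mod_cast (by omega : X.C.K ≤ X.C.Z)
  have l2 := mul_le_mul_of_nonneg_left (Real.log_two_lt_d9.le.trans (by norm_num : _ ≤ (1 : ℝ)))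
    (Nat.cast_nonneg (α := ℝ) X.C.Z)
  have u := mul_le_mul_of_nonneg_left (show 2 + 4 * X.Lg ≤ X.C.Z by linarith)
    (Nat.cast_nonneg (α := ℝ) #(drU X.G d Y.toFinset))
  have r := mul_le_mul_of_nonneg_left (show 3 + 4 * X.Lg + (2 * X.C.Z * Real.log 2 + X.C.K) ≤
    24 * X.C.Z by linarith) (Nat.cast_nonneg (α := ℝ) #(drR X.G d Y.toFinset))
  push_cast at a ⊢
  linarith

/-- **DROP** -/
theorem dropSpec (h : X.Ok) : X.DropSpec (dropE X.toEnv) := by
  rintro ⟨s, d⟩ N Y i rm f nd hY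
  unfold dropE
  split_ifs with e
  · subst e
    exact ⟨N, i, f, rfl, ⟨[], rfl⟩, by simp, by simp [On.wsum], by simp [exitF]⟩
  have hc : Cmb X.G d := i.cmb
  have hG := h.wf
  have w := wk_drW hc hY
  have hW : ∀ v ∈ drW d Y, v < X.G.n := fun v hv => (w.lt v hv).1
  have ndW := nodup_drW hc hY nd
  have lW : (drW d Y).length ≤ X.G.n := by
    rw [← List.toFinset_card_of_nodup ndW]
    exact (card_le_card fun v hv => mem_range.2 (hW v (List.mem_toFinset.1 hv))).trans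
      (card_range _).le
  have lw := length_drW hc hY
  have w1 := (List.length_pos_iff.2 e).trans_le (length_le_wsum d Y)
  have lL := length_drI hG d (drW d Y)
  have gX := h.M_le_X
  have au : (100 : ℝ) ≤ X.k.AU := by exact_mod_cast h.AU
  have L1 : ((drI X.G d (drW d Y)).length : ℝ) ≤ 16 * X.G.n := by
    exact_mod_cast (by omega : (drI X.G d (drW d Y)).length ≤ 16 * X.G.n)
  have L2 : ((drI X.G d (drW d Y)).length : ℝ) ≤ 16 * wsum (wtC d) Y := by
    exact_mod_cast (by omega : (drI X.G d (drW d Y)).length ≤ 16 * wsum (wtC d) Y)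
  have L3 := mul_le_mul_of_nonneg_left L1 (Nat.cast_nonneg (α := ℝ) X.k.AU)
  have L4 := mul_le_mul_of_nonneg_left L2 (Nat.cast_nonneg (α := ℝ) X.k.AU)
  have n0 := mul_le_mul_of_nonneg_left au (Nat.cast_nonneg (α := ℝ) X.G.n)
  have n1 := Nat.cast_nonneg (α := ℝ) X.G.n
  simp only [RoomN] at rm
  push_cast at rm
  refine (sp_drp hG hc i.q hY nd (by have := h.n_le_M; omega)).bind
    fun ⟨d', W, L⟩ t1 ⟨e1, e2, p, dd, k1⟩ => ?_
  dsimp only at e1 e2 p dd ⊢
  subst e2 e1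
  refine (sp_rd h i.il i.arcs.mem (by have := phi_le_Pt (X := X) (s := s); linarith)).bind
    fun ⟨s1, x0⟩ t2 ⟨il, hx, k2, _⟩ => (sp_flatMapP _ _).bind fun O t3 ⟨eO, k3⟩ =>
    (sp_mapP rv O).bind fun O' t4 ⟨eO', k4⟩ => ?_
  dsimp only at il hx k2 ⊢
  have mO : ∀ o, o ∈ O ↔ o < X.G.nd ∧ X.G.tl.get o ∈ drW d Y := fun o => eO ▸ mem_drO hG hW
  have mO' : ∀ o, o ∈ O' ↔ o < X.G.nd ∧ X.G.hd o ∈ drW d Y := fun o => by
    rw [eO', List.mem_map]
    exact ⟨fun ⟨x, k, j⟩ => j ▸ ⟨hG.rv_lt ((mO x).1 k).1, by rw [Gf.hd_rv]; exact ((mO x).1 k).2⟩,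
      fun k => ⟨rv o, (mO _).2 ⟨hG.rv_lt k.1, k.2⟩, rv_rv o⟩⟩
  have lO : O.length ≤ 3 * (drW d Y).length := eO ▸ length_drO hG _
  have lO' : O'.length = O.length := by rw [eO', List.length_map]
  have ndO : O.Nodup := eO ▸ List.nodup_flatMap.2 ⟨fun v hv => hG.nodup v (hW v hv),
    List.Pairwise.imp_of_mem (fun {a b} ha hb ne o k1 k2 => ne
      (((hG.mem a (hW a ha) o).1 k1).2.symm.trans ((hG.mem b (hW b hb) o).1 k2).2)) ndW⟩
  have ndO' : O'.Nodup := eO' ▸ ndO.map fun a b k => by rw [← rv_rv a, k, rv_rv]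
  have hb : ∀ e, (x0.get e).natAbs ≤ X.C.B := fun e => by
    rw [hx]
    split_ifs with c
    · have := i.lt_B h c.2; omega
    · exact Nat.zero_le _
  have oB : O.length * X.C.B ≤ 3 * (X.G.n * X.C.B) := by
    rw [← mul_assoc]; exact Nat.mul_le_mul_right _ (by omega)
  have nB := h.nB_le
  refine (sp_accL _ ndO hb hb (by omega)).bind fun x1 t5 ⟨a1, b1, k5⟩ =>
    (sp_accL _ ndO' hb b1 (by rw [lO']; omega)).bind fun x2 t6 ⟨a2, _, k6⟩ =>
    (sp_foldP _ _ _).bind fun x t7 ⟨a3, k7⟩ => ?_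
  have mL := @mem_drI X.G d _ hG hW
  have key : ∀ (O : List ℕ) (J : Finset ℕ) (τ : ℕ → ℕ) (e : ℕ),
      (∀ o ∈ O, 5 * o ∈ drI X.G d (drW d Y)) → (∀ o, o ∈ J ↔ o ∈ O ∧ 5 * o ∈ N.E) →
      ∑ o ∈ O.toFinset with τ o = e, x0.get (5 * o) = ∑ o ∈ J with τ o = e, N.X (5 * o) :=
    fun O J τ e a b => (sum_subset_zero_on_sdiff (filter_subset_filter _ fun o k =>
      List.mem_toFinset.2 ((b o).1 k).1) (fun o k => by
        obtain ⟨k1, k2⟩ := mem_sdiff.1 k
        rw [mem_filter] at k1 k2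
        rw [hx, if_neg fun c => k2 ⟨(b o).2 ⟨List.mem_toFinset.1 k1.1, c.2⟩, k1.2⟩])
      fun o k => by
        have := (b o).1 (mem_filter.1 k).1
        rw [hx, if_pos ⟨a o this.1, this.2⟩]).symm
  have hX : ∀ e, has X.G d' e → (if e ∈ drI X.G d (drW d Y) then x.get e else N.X e) =
      nX X.P.D X.C X.G d (drW d Y) N e := fun e k => by
    unfold nX
    by_cases c : Fr (drW d Y) e
    · rw [if_pos c, if_pos (mL.2 (.inl c)), a3, foldl_frs]; exact if_pos c
    rw [if_neg c]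
    split_ifs with m
    · rw [a3, foldl_frs, if_neg (show ¬(_ ∧ _) from c), a2, a1, hx, if_pos ⟨m, (i.arcs.mem e).2
        ((p.kept (D := 0) (C := X.C) w hG hc c).1.1 k).1⟩, adX, add_assoc,
        key O (dJ1 X.G d (drW d Y)) _ e (fun o ho => mL.2 (.inr ⟨o, ((mO o).1 ho).1,
          ((mO o).1 ho).2, .inl rfl⟩)) fun o => by rw [mem_dJ1, mO, i.arcs.mem, has0]; tauto,
        key O' (dJ2 X.G d (drW d Y)) _ e (fun o ho => mL.2 (.inr ⟨rv o, hG.rv_lt ((mO' o).1 ho).1,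
          ((mO' o).1 ho).2, .inr (.inl (by rw [rv_rv]))⟩))
          fun o => by rw [mem_dJ2, mO', i.arcs.mem, has0]; tauto]
    · rw [adX, sum_eq_zero, sum_eq_zero, add_zero, add_zero] <;> intro o ho <;>
        refine absurd (mL.2 (.inr ?_)) m <;> obtain ⟨ho, q⟩ := mem_filter.1 ho
      · rw [mem_dJ2] at ho
        exact ⟨rv o, hG.rv_lt ho.1, ho.2.2, .inr (.inr (.inr (by rw [Gf.hd_rv, q])))⟩
      · rw [mem_dJ1] at ho
        exact ⟨o, ho.1, ho.2.2, .inr (.inr (.inl q.symm))⟩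
  refine (sp_app0 h il i.arcs dd.cmb (by have := phi_le_Pt (X := X) (s := s1); linarith)
    (fun e => p.off w hG hc _ _) fun e he k => ?_).mono fun r t8 ⟨er, N', il', m1, m2, _, k8, _⟩ => ?_
  · have := i.flo_nX h f p w k
    rw [← hX e k, if_pos he] at this
    exact h.dom (h.big (arcOf_o1 e) this.1 this.2)
  have n : DrN X.P.D X.C X.G d d' (drW d Y) N N' :=
    ⟨m1, fun e he => (m2 e he).1, fun e he => (m2 e he).2.trans (hX e ((m1 e).1 he))⟩
  obtain ⟨s', d2⟩ := r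
  obtain rfl : d2 = d' := er
  have w2 : (1 : ℝ) ≤ wsum (wtC d) Y := by exact_mod_cast w1
  have w3 := mul_le_mul_of_nonneg_left au (zero_le_one.trans w2)
  have t2' := Nat.cast_nonneg (α := ℝ) t2
  have t8' := Nat.cast_nonneg (α := ℝ) t8
  refine ⟨N', ⟨il', ⟨m1, n.arc, n.circ p w hG hc i.arcs⟩, dd.cmb, dd.qok⟩, fun e he => ?_, dd.mt,
    dd.q.imp fun _ k => k.1, fun c k r hr er => ?_, by dsimp only at k8 ⊢; linarith, ?_⟩
  · rw [n.X e he, n.arc e he]; exact i.flo_nX h f p w ((m1 e).1 he)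
  · obtain ⟨r1, r2, r3⟩ := (hc.mem c (hY c k) r).1 hr
    have q : r ∈ drW d Y := (mem_drW hc hY).2 ⟨r1, .inl ⟨r2, r3 ▸ k⟩⟩
    refine ⟨(p.isC_iff w).2 (.inl ⟨q, er⟩), by rw [p.mem, if_pos q], fun o ho eo => ?_⟩
    exact Bool.eq_false_iff.2 fun j => ((p.pr o ho).1 j).2.1 (eo ▸ q)
  · have b := mul_le_mul_of_nonneg_left (i.bal_drop h f hY nd p n) (Nat.cast_nonneg (α := ℝ) X.κ)
    have k := mul_le_mul_of_nonneg_left h.AU_le (zero_le_one.trans w2)
    rw [← eO] at k3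
    have : ((t1 + t3 + t4 + t5 + t6 + t7 : ℕ) : ℝ) ≤ (200 * wsum (wtC d) Y : ℕ) := by
      exact_mod_cast (by omega : t1 + t3 + t4 + t5 + t6 + t7 ≤ 200 * wsum (wtC d) Y)
    simp only [Tot] at k8 ⊢
    push_cast at this ⊢
    linarith

end Crest.Agent.N325.P2.Cx
end

-- ▼ part N325/P2/Ins2
section

/-! # Row 325, part II (helper19): the specification of INSERT -/

set_option autoImplicit false

namespace Crest.Agent.N325.P2.Cx

theorem insSpec {T : Type} {X : Cx T} (h : X.Ok) : X.InsSpec (insEv X.toEnv) :=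
  insSpec_of h fun _ _ i q => i.flo10 h q

end Crest.Agent.N325.P2.Cx
end

-- ▼ part N325/En/Cnt2
section

/-!
# Row 325 (helper32): the end count when the matched edge of a base carries no plain arc
-/

set_option autoImplicit false
open Finset

namespace Crest.Agent.N325.En

open Crest.Agent.N325.Mt Crest.Agent.N325.Ip Crest.Agent.N325.Ipm

/-- as `Shp`, but an edge from a class to the inner vertex whose entry arc `ar u` ends at this class
needs no plain arc -/
structure Shp2 (V : Finset ℕ) (E : ℕ → ℕ → Prop) (N : Net) (C : Finset ℕ) (S : ℕ → Finset ℕ)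
    (A : Finset ℕ) (nd ar : ℕ → ℕ) (K : Finset ℕ) (H : ℕ → Prop) : Prop where
  sub : ∀ c ∈ C, S c ⊆ V
  odd : ∀ c ∈ C, Odd #(S c)
  dis : ∀ c ∈ C, ∀ c' ∈ C, c ≠ c' → Disjoint (S c) (S c')
  out : ∀ c ∈ C, ∀ v ∈ S c, ∀ u ∈ V, u ∉ S c → E v u → (u ∈ A ∧ (N.arc (ar u)).b = c) ∨
    (u ∈ A ∨ H (nd u)) ∧ ∃ e ∈ N.E, (N.arc e).a = c ∧ (N.arc e).b = nd u ∧ (N.arc e).p = 0
  inj : Set.InjOn (fun u => (N.arc (ar u)).b) ↑(A ∪ K)
  dAK : Disjoint A K
  ent : ∀ u ∈ A ∪ K, ar u ∈ N.E ∧ (N.arc (ar u)).p = 0 ∧ (N.arc (ar u)).b ∈ C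
  hA : ∀ u ∈ A, (N.arc (ar u)).a = nd u
  hK : ∀ u ∈ K, (N.arc (ar u)).a = 0

/-- the abstract end count -/
theorem Shp2.count {V : Finset ℕ} {E : ℕ → ℕ → Prop} {N : Net} {C : Finset ℕ}
    {S : ℕ → Finset ℕ} {A : Finset ℕ} {nd ar : ℕ → ℕ} {K : Finset ℕ} {H : ℕ → Prop}
    (h : Shp2 V E N C S A nd ar K H) {y r : ℕ → ℝ} {θ : ℝ} (h0 : 0 < θ) (y0 : y 0 = 0)
    (hH : ∀ v, H v → θ ≤ y v) (r0 : ∀ e ∈ N.E, 0 ≤ r e)
    (hr : ∀ e ∈ N.E, (N.arc e).p = 0 → y (N.arc e).b ≤ y (N.arc e).a + r e)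
    {m : ℕ → ℕ} (hm : IsM V E m) : (#K : ℝ) ≤ ex V m + 2 * (∑ e ∈ N.E, r e) / θ := by
  let φ : ℕ → ℝ := fun v => clp θ (y v)
  let ψ : ℕ → ℝ := fun u => if u ∈ A then max (φ (nd u)) (φ (N.arc (ar u)).b) else 0
  let ρ : ℕ → ℝ := fun c => ∑ e ∈ N.E with (N.arc e).a = c, r e / θ
  have rθ : ∀ e ∈ N.E, 0 ≤ r e / θ := fun e he => div_nonneg (r0 e he) h0.le
  have lip : ∀ e ∈ N.E, (N.arc e).p = 0 → φ (N.arc e).a ≤ φ (N.arc e).b + r e / θ :=
    fun e he hp => clp_lip h0 (r0 e he) (hr e he hp)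
  have ρ0 : ∀ c, 0 ≤ ρ c := fun c => sum_nonneg fun e he => rθ e (mem_filter.1 he).1
  have k1 := ex_ge hm (A := A) h.sub h.odd h.dis (φ := φ) (ψ := ψ) (ρ := ρ)
    (fun _ _ => clp_le_one _ _) (fun u => by
      simp only [ψ]; split_ifs
      · exact le_max_of_le_left (clp_nonneg _ _)
      · exact le_rfl) (fun u k => if_neg k) (fun c _ => ρ0 c) fun c hc v hv u hu hn hE => by
      rcases h.out c hc v hv u hu hn hE with ⟨k, q⟩ | ⟨a, e, he, ea, eb, ep⟩
      · have := ρ0 c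
        have := le_max_right (φ (nd u)) (φ c)
        simp only [ψ, k, if_true, q]; linarith
      have b := lip e he ep
      have b' : r e / θ ≤ ρ c := single_le_sum (f := fun e => r e / θ)
        (fun e he => rθ e (mem_filter.1 he).1) (mem_filter.2 ⟨he, ea⟩)
      rw [ea, eb] at b
      by_cases k : u ∈ A
      · have := le_max_left (φ (nd u)) (φ (N.arc (ar u)).b)
        simp only [ψ, k, if_true]; linarith
      · have : φ (nd u) = 0 := clp_high h0 (hH _ (a.resolve_left k))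
        simp only [ψ, k, if_false]; linarith
  have k2 : ∑ c ∈ C, ρ c ≤ ∑ e ∈ N.E, r e / θ := by
    rw [sum_fiberwise_eq_sum_filter]
    exact sum_le_sum_of_subset_of_nonneg (filter_subset _ _) fun e he _ => rθ e he
  have k3 : ∑ u ∈ A ∪ K, φ (N.arc (ar u)).b ≤ ∑ c ∈ C, φ c := by
    rw [← sum_image (f := φ) h.inj]
    exact sum_le_sum_of_subset_of_nonneg (fun v hv => by
      obtain ⟨u, hu, rfl⟩ := mem_image.1 hv
      exact (h.ent u hu).2.2) fun u _ _ => clp_nonneg _ _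
  have k4 : ∑ u ∈ A ∪ K, r (ar u) / θ ≤ ∑ e ∈ N.E, r e / θ := by
    rw [← sum_image (f := fun e => r e / θ) (g := ar) fun u hu u' hu' e => h.inj hu hu' (by
      simp only [e])]
    exact sum_le_sum_of_subset_of_nonneg (fun e he => by
      obtain ⟨u, hu, rfl⟩ := mem_image.1 he
      exact (h.ent u hu).1) fun e he _ => rθ e he
  have k5 : ∑ u ∈ A, ψ u ≤ ∑ u ∈ A, (φ (N.arc (ar u)).b + r (ar u) / θ) :=
    sum_le_sum fun u hu => by
      have e := h.ent u (mem_union_left _ hu)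
      have a := lip _ e.1 e.2.1
      have := rθ _ e.1
      rw [h.hA u hu] at a
      simp only [ψ, hu, if_true]
      exact max_le a (by linarith)
  have k6 : ∑ _u ∈ K, (1 : ℝ) ≤ ∑ u ∈ K, (φ (N.arc (ar u)).b + r (ar u) / θ) :=
    sum_le_sum fun u hu => by
      have e := h.ent u (mem_union_right _ hu)
      have a := lip _ e.1 e.2.1
      rw [h.hK u hu] at a
      simpa only [φ, y0, clp_zero] using a
  rw [sum_union h.dAK] at k3 k4
  rw [sum_add_distrib] at k5 k6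
  rw [sum_const, nsmul_eq_mul, mul_one] at k6
  rw [mul_div_assoc, sum_div]
  linarith

/-- the end count, arcs of small capacity are allowed if the dual falls along them -/
theorem endCount2 {V : Finset ℕ} {E : ℕ → ℕ → Prop} {N : Net} {C : Finset ℕ}
    {S : ℕ → Finset ℕ} {A : Finset ℕ} {nd ar : ℕ → ℕ} {K : Finset ℕ} {H : ℕ → Prop}
    (h : Shp2 V E N C S A nd ar K H) {P : Pm} {y : ℕ → ℝ} (hD : 1 ≤ P.D) (hs : 1 ≤ P.s0)
    (hc : N.Circ N.X) (hy : Du P N y) (hf : Fat P N) {b : ℕ}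
    (hb : ∀ e ∈ N.E, b ≤ (N.arc e).o3 ∨ y (N.arc e).b ≤ y (N.arc e).a) {θ : ℝ} (h0 : 0 < θ)
    (y0 : y 0 = 0) (hH : ∀ v, H v → θ ≤ y v) {m : ℕ → ℕ} (hm : IsM V E m) :
    ((#K : ℝ) - ex V m) * b * θ ≤ 11 / 5 * P.D *
      ∑ e ∈ N.E, (11 / 9 * ((N.arc e).c1 + (N.arc e).c2) + (N.arc e).c3 : ℝ) := by
  have u0 := fun e he => up_nonneg (N := N) (e := e) hD hs hf he
  have k := h.count h0 y0 hH (r := fun e => 11 / 10 * if b ≤ (N.arc e).o3 then up P N e else 0)
    (fun e he => mul_nonneg (by norm_num) (by split_ifs; exacts [u0 e he, le_rfl]))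
    (fun e he hp => by
      split_ifs with c
      · exact hy.rise hD hs hf he hp
      · simpa using (hb e he).resolve_left c) hm
  have d : (0 : ℝ) < P.D := by exact_mod_cast hD
  have b0 : (0 : ℝ) ≤ b := Nat.cast_nonneg _
  have u : (b : ℝ) / P.D * ∑ e ∈ N.E, (if b ≤ (N.arc e).o3 then up P N e else 0) ≤
      ∑ e ∈ N.E, (11 / 9 * ((N.arc e).c1 + (N.arc e).c2) + (N.arc e).c3 : ℝ) := by
    refine le_trans ?_ (rise_sum hD hs hc hy hf)
    rw [mul_sum]
    refine sum_le_sum fun e he => ?_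
    have := u0 e he
    split_ifs with c
    · gcongr
    · rw [mul_zero]; positivity
  rw [← mul_sum, ← sub_le_iff_le_add', le_div_iff₀ h0] at k
  rw [div_mul_eq_mul_div, div_le_iff₀ d] at u
  nlinarith [mul_le_mul_of_nonneg_left k b0]

end Crest.Agent.N325.En
end

-- ▼ part N325/P2/End
section

/-!
# Row 325, part II (helper32): the end of a phase — the matching is nearly maximum
-/

set_option autoImplicit false
open Finset

namespace Crest.Agent.N325.P2

open Crest.Agent.N325.Tw Crest.Agent.N325.Ip Crest.Agent.N325.Mt Crest.Agent.N325.Bf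
  Crest.Agent.N325.Ipm

namespace End

variable {D : ℕ} {C : Cf} {G : Gf} {d : Dt} {N : Net}

theorem fc_odd {S : Finset ℕ} {E : ℕ → ℕ → Prop} (h : FC S E) {v : ℕ} (hv : v ∈ S) : Odd #S := by
  obtain ⟨m, hm, ne⟩ := h v hv
  have := even_card_of_invol (S.erase v) m (fun u hu => hm.mem hu) (fun u hu => hm.inv hu) ne
  rw [← card_erase_add_one hv]; exact this.add_one

theorem a0 (h : Arcs D C G d N) {o : ℕ} (ho : o < G.nd) (hp : d.pr.get o = true) :
    5 * o ∈ N.E ∧ N.arc (5 * o) = aP C G d o := by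
  have e1 : 5 * o % 5 = 0 := by omega
  have e2 : 5 * o / 5 = o := by omega
  have a : 5 * o ∈ N.E := (h.mem _).2 (by simp only [has, e1, e2, if_true]; exact ⟨ho, hp⟩)
  exact ⟨a, by rw [h.arc _ a]; simp only [arcOf, e1, e2, if_true]⟩

theorem a1 (h : Arcs D C G d N) {v : ℕ} (hv : v < G.n) (hp : d.st.get v = 1 ∨ d.mt.get v = v) :
    5 * v + 1 ∈ N.E ∧ N.arc (5 * v + 1) = aE C d v := by
  have e1 : (5 * v + 1) % 5 = 1 := by omega
  have e2 : (5 * v + 1) / 5 = v := by omega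
  have a : 5 * v + 1 ∈ N.E := (h.mem _).2 (by simpa [has, e1, e2] using ⟨hv, hp⟩)
  exact ⟨a, by rw [h.arc _ a]; simp [arcOf, e1, e2]⟩

theorem a4 (h : Arcs D C G d N) {v : ℕ} (hv : v < G.n) (hp : d.st.get v = 0) :
    5 * v + 4 ∈ N.E ∧ N.arc (5 * v + 4) = aU D C v := by
  have e1 : (5 * v + 4) % 5 = 4 := by omega
  have e2 : (5 * v + 4) / 5 = v := by omega
  have a : 5 * v + 4 ∈ N.E := (h.mem _).2 (by simpa [has, e1, e2] using ⟨hv, hp⟩)
  exact ⟨a, by rw [h.arc _ a]; simp [arcOf, e1, e2]⟩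

/-- what the end count needs of one arc -/
theorem kind (h : Arcs D C G d N) (hB : C.B ≤ C.M) (hn : G.nd ≤ 3 * G.n) {e : ℕ} (he : e ∈ N.E) :
    (N.arc e).o1 = 0 ∧ e < 15 * G.n ∧ (e % 5 = 2 → isC G d (e / 5)) ∧ (e % 5 = 4 → e / 5 < G.n) ∧
    (C.B ≤ (N.arc e).o3 ∨ ∃ v < G.n, d.st.get v = 0 ∧ N.arc e = aU D C v) ∧
    (11 / 9 * ((N.arc e).c1 + (N.arc e).c2) + (N.arc e).c3 : ℝ) ≤ 20 / 9 + 11 / 9 * C.Z *
      (((if e % 5 = 4 then 2 else 0) + if e % 5 = 2 then d.cw.get (e / 5) + 1 else 0 : ℕ) : ℝ) := by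
  have a := (h.mem e).1 he
  rw [h.arc e he]
  have k : e % 5 = 0 ∨ e % 5 = 1 ∨ e % 5 = 2 ∨ e % 5 = 3 ∨ e % 5 = 4 := by omega
  rcases k with k | k | k | k | k <;> simp only [has, arcOf, k] at a ⊢ <;> norm_num at a ⊢
  · exact ⟨rfl, by omega, .inl hB, by norm_num [aP, capA]⟩
  · exact ⟨rfl, by omega, .inl le_rfl, by norm_num [aE, capA]⟩
  · refine ⟨rfl, by have := a.1; omega, a, .inl hB, ?_⟩
    simp only [snkA]; push_cast; linarith
  · exact ⟨rfl, by omega, .inl hB, by norm_num [aG]⟩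
  · refine ⟨rfl, by omega, a.1, .inr ⟨_, a.1, a.2, rfl⟩, ?_⟩
    simp only [aU]; push_cast; linarith

/-- the classes are disjoint -/
theorem sum_cw (h : Cmb G d) : ∑ c ∈ (range G.n).filter (isC G d), (d.cw.get c + 1) ≤ 2 * G.n := by
  have a : ∑ c ∈ (range G.n).filter (isC G d), d.cw.get c ≤ G.n := by
    have := card_eq_sum_card_fiberwise (s := (range G.n).filter (d.st.get · = 2))
      (t := (range G.n).filter (isC G d)) (f := d.cls.get) fun v hv => by
        have k := mem_filter.1 (mem_coe.1 hv)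
        have q := h.out v (mem_range.1 k.1) k.2
        exact mem_coe.2 (mem_filter.2 ⟨mem_range.2 q.1, q⟩)
    refine le_trans (le_of_eq ?_) (this.symm.trans_le ((card_filter_le _ _).trans_eq (card_range _)))
    refine sum_congr rfl fun c hc => ?_
    have q := (mem_filter.1 hc).2
    rw [h.cw c q, ← List.toFinset_card_of_nodup (h.nodup c q)]
    congr 1; ext v
    simp only [List.mem_toFinset, h.mem c q, mem_filter, mem_range, and_assoc]
  have b : #((range G.n).filter (isC G d)) ≤ G.n := (card_filter_le _ _).trans_eq (card_range _)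
  rw [sum_add_distrib, sum_const, smul_eq_mul]; omega

/-- the total weight of the barriers -/
theorem sum_wt (h : Arcs D C G d N) (hc : Cmb G d) (hB : C.B ≤ C.M) (hn : G.nd ≤ 3 * G.n)
    (hZ : 300 ≤ C.Z) :
    ∑ e ∈ N.E, (11 / 9 * ((N.arc e).c1 + (N.arc e).c2) + (N.arc e).c3 : ℝ) ≤ 5 * C.Z * G.n := by
  have k := fun e he => kind h hB hn (e := e) he
  have c0 : #N.E ≤ 15 * G.n :=
    (card_le_card fun e he => mem_range.2 (k e he).2.1).trans_eq (card_range _)
  have c4 : ∑ e ∈ N.E, (if e % 5 = 4 then 2 else 0) ≤ 2 * G.n := by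
    rw [← sum_filter, sum_const, smul_eq_mul, mul_comm]
    refine Nat.mul_le_mul_left _ ((card_le_card_of_injOn (t := range G.n) (· / 5) (fun e he => ?_)
      fun e he e' he' q => ?_).trans_eq (card_range _))
    · have := mem_filter.1 (mem_coe.1 he)
      exact mem_coe.2 (mem_range.2 ((k e this.1).2.2.2.1 this.2))
    · have := (mem_filter.1 (mem_coe.1 he)).2
      have := (mem_filter.1 (mem_coe.1 he')).2
      simp only at q; omega
  have c2 : ∑ e ∈ N.E, (if e % 5 = 2 then d.cw.get (e / 5) + 1 else 0) ≤ 2 * G.n := by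
    rw [← sum_filter, ← sum_image (f := fun c => d.cw.get c + 1) (g := (· / 5))
      fun e he e' he' q => by
        have := (mem_filter.1 (mem_coe.1 he)).2
        have := (mem_filter.1 (mem_coe.1 he')).2
        simp only at q; omega]
    refine le_trans (sum_le_sum_of_subset fun c q => ?_) (sum_cw hc)
    obtain ⟨e, he, rfl⟩ := mem_image.1 q
    have := (k e (mem_filter.1 he).1).2.2.1 (mem_filter.1 he).2
    exact mem_filter.2 ⟨mem_range.2 this.1, this⟩
  refine (sum_le_sum fun e he => (k e he).2.2.2.2.2).trans ?_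
  rw [sum_add_distrib, ← mul_sum, ← Nat.cast_sum, sum_add_distrib, sum_const, nsmul_eq_mul]
  have c0' : (#N.E : ℝ) ≤ 15 * G.n := by exact_mod_cast c0
  have c6 : ((∑ e ∈ N.E, (if e % 5 = 4 then 2 else 0) +
      ∑ e ∈ N.E, (if e % 5 = 2 then d.cw.get (e / 5) + 1 else 0) : ℕ) : ℝ) ≤ 4 * G.n := by
    exact_mod_cast (by omega)
  have z : (300 : ℝ) ≤ C.Z := by exact_mod_cast hZ
  have n0 : (0 : ℝ) ≤ G.n := Nat.cast_nonneg _
  nlinarith [mul_le_mul_of_nonneg_left c6 (by linarith : (0 : ℝ) ≤ C.Z),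
    mul_le_mul_of_nonneg_right z n0]

/-- exposed vertices are outer -/
theorem root_st (h : Cmb G d) {v : ℕ} (hv : v < G.n) (e : d.mt.get v = v) : d.st.get v = 2 := by
  have a := h.st_le v hv
  have b : d.st.get v ≠ 0 := fun k => (h.unl v hv k).2 e
  have c : d.st.get v ≠ 1 := fun k => by
    have := (h.inn v hv k).1
    rw [e] at this; omega
  omega

/-- the mate of an inner or exposed vertex is a base -/
theorem ent_bs (h : Cmb G d) {v : ℕ} (hv : v < G.n) (e : d.st.get v = 1 ∨ d.mt.get v = v) :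
    d.st.get (d.mt.get v) = 2 ∧ d.bs.get (d.cls.get (d.mt.get v)) = d.mt.get v := by
  refine e.elim (h.inn v hv) fun e => ?_
  have a := root_st h hv e
  have c := h.out v hv a
  rw [e]
  exact ⟨a, by_contra fun k => (h.inside _ c v ((h.mem _ c v).2 ⟨hv, a, rfl⟩) (Ne.symm k)).2 e⟩

/-- the shape at the end -/
theorem shp (h : Arcs D C G d N) (hc : Cmb G d) (hq : QOk G d) (q : d.Q = []) :
    En.Shp2 (range G.n) G.E N (((range G.n).filter (isC G d)).image (· + 1))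
      (fun c => (d.mem.get (c - 1)).toFinset) ((range G.n).filter (d.st.get · = 1)) (· + 1)
      (5 * · + 1) (exs (range G.n) d.mt.get) fun x => ∃ v < G.n, d.st.get v = 0 ∧ x = v + 1 := by
  have mC : ∀ c ∈ ((range G.n).filter (isC G d)).image (· + 1), ∃ a, isC G d a ∧ c = a + 1 :=
    fun c k => let ⟨a, k1, k2⟩ := mem_image.1 k; ⟨a, (mem_filter.1 k1).2, k2.symm⟩
  have mA : ∀ u ∈ (range G.n).filter (d.st.get · = 1) ∪ exs (range G.n) d.mt.get,
      u < G.n ∧ (d.st.get u = 1 ∨ d.mt.get u = u) := fun u k => (mem_union.1 k).elim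
    (fun k => ⟨mem_range.1 (mem_filter.1 k).1, .inl (mem_filter.1 k).2⟩)
    fun k => ⟨mem_range.1 (mem_exs.1 k).1, .inr (mem_exs.1 k).2⟩
  have ar := fun u k => a1 h (mA u k).1 (mA u k).2
  have nA : ∀ u ∈ (range G.n).filter (d.st.get · = 1), d.mt.get u ≠ u := fun u k e => by
    have := root_st hc (mem_range.1 (mem_filter.1 k).1) e
    have := (mem_filter.1 k).2
    omega
  refine ⟨fun c k v hv => ?_, fun c k => ?_, fun c k c' k' ne => ?_, fun c k v hv u hu hn e => ?_,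
    fun u hu u' hu' e => ?_, disjoint_left.2 fun u k k' => nA u k (mem_exs.1 k').2,
    fun u k => ?_, fun u k => ?_, fun u k => ?_⟩
  · obtain ⟨a, ha, rfl⟩ := mC c k
    exact mem_range.2 ((hc.mem a ha v).1 (List.mem_toFinset.1 hv)).1
  · obtain ⟨a, ha, rfl⟩ := mC c k
    exact fc_odd (hc.fc a ha) (List.mem_toFinset.2 (hc.bs a ha).1)
  · obtain ⟨a, ha, rfl⟩ := mC c k
    obtain ⟨a', ha', rfl⟩ := mC c' k'
    refine disjoint_left.2 fun v x x' => ne ?_
    rw [← ((hc.mem a ha v).1 (List.mem_toFinset.1 x)).2.2,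
      ← ((hc.mem a' ha' v).1 (List.mem_toFinset.1 x')).2.2]
  · obtain ⟨a, ha, rfl⟩ := mC c k
    obtain ⟨o, ho, rfl, rfl⟩ := e
    simp only [Nat.add_sub_cancel, List.mem_toFinset] at hv hn
    obtain ⟨v1, v2, v3⟩ := (hc.mem a ha _).1 hv
    have u1 := mem_range.1 hu
    have dn : Done G d o := by simpa [q] using hq.cmp o ho
    rcases dn with x | x | x | x
    · exact absurd v2 x
    · have y := a0 h ho x
      have z := (hc.pr o ho x).2.1
      have := hc.st_le _ u1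
      refine .inr ⟨?_, _, y.1, by rw [y.2, ← v3]; rfl, by rw [y.2]; rfl, by rw [y.2]; rfl⟩
      by_cases w : d.st.get (G.hd o) = 1
      exacts [.inl (mem_filter.2 ⟨hu, w⟩), .inr ⟨_, u1, by omega, rfl⟩]
    · have b : G.tl.get o = d.bs.get a := by_contra fun w => hn (x ▸ (hc.inside a ha _ hv w).1)
      have s : d.st.get (G.hd o) = 1 := by
        rcases (hc.bs a ha).2 with w | w <;> rw [← b, x] at w
        · exact absurd (w ▸ hv) hn
        · exact w
      refine .inl ⟨mem_filter.2 ⟨hu, s⟩, ?_⟩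
      rw [(a1 h u1 (.inl s)).2, ← x, ← v3]
      simp only [aE, capA, hc.isM.inv (mem_range.2 v1)]
    · exact absurd ((hc.mem a ha _).2 ⟨u1, x.1, x.2.trans v3⟩) hn
  · have x := mA u hu
    have x' := mA u' hu'
    simp only [(ar u hu).2, (ar u' hu').2, aE, capA, add_left_inj] at e
    have := (ent_bs hc x.1 x.2).2
    rw [e, (ent_bs hc x'.1 x'.2).2] at this
    rw [← hc.isM.inv (mem_range.2 x.1), ← this, hc.isM.inv (mem_range.2 x'.1)]
  · have x := mA u k
    have y := hc.out _ (mem_range.1 (hc.isM.mem (mem_range.2 x.1))) (ent_bs hc x.1 x.2).1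
    refine ⟨(ar u k).1, by rw [(ar u k).2]; rfl, ?_⟩
    rw [(ar u k).2]
    exact mem_image_of_mem (· + 1) (mem_filter.2 ⟨mem_range.2 y.1, y⟩)
  · rw [(ar u (mem_union_left _ k)).2]
    simp only [aE, capA, nA u k, if_false]
  · rw [(ar u (mem_union_right _ k)).2]
    simp only [aE, capA, (mem_exs.1 k).2, if_true]

/-- the dual of a pending vertex is high -/
theorem pend {P : Pm} {y : ℕ → ℝ} (hD : 1 ≤ P.D) (hs : 1 ≤ P.s0) (hy : En.Du P N y) (y0 : y 0 = 0)
    (hf : En.Fat P N) {e v : ℕ} (he : e ∈ N.E) (a : N.arc e = aU P.D C v)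
    (x : 50 * N.X e ≤ 51 * P.D) (hZ : 300 ≤ C.Z) : 4 / 5 * (C.Z : ℝ) ≤ y (v + 1) := by
  have k := hy.le he
  obtain ⟨-, a2, a3, a4, -⟩ := hf.s1 hD he
  have σ := σ0_pos hD hs
  have w1 := wt_pos (s0 := σ0 P) (σ.trans_le a2)
  have w2 := one_div_le_wt (s0 := σ0 P) (σ.trans_le (a2.trans a3))
  have p2 := σ.trans_le (a2.trans a3)
  rw [wt_of_le a4] at k
  have d0 : (0 : ℝ) < P.D := by exact_mod_cast hD
  have x' : (50 : ℝ) * N.X e ≤ 51 * P.D := by exact_mod_cast x
  have b2 : s2 P (N.arc e) (N.X e) ≤ 101 / 50 := by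
    rw [s2, a, div_le_iff₀ d0]; simp only [aU]; linarith
  have b3 : 49 / 50 ≤ s3 P (N.arc e) (N.X e) := by
    rw [s3, a, le_div_iff₀ d0]; simp only [aU]; push_cast; linarith
  have w2' := (one_div_le_one_div_of_le p2 b2).trans w2
  have w3 := one_div_le_one_div_of_le (by norm_num) b3
  have z : (300 : ℝ) ≤ C.Z := by exact_mod_cast hZ
  have := mul_le_mul_of_nonneg_left w2' (by linarith : (0 : ℝ) ≤ C.Z)
  generalize s1 P (N.arc e) (N.X e) = t1 at *
  generalize s2 P (N.arc e) (N.X e) = t2 at *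
  generalize s3 P (N.arc e) (N.X e) = t3 at *
  rw [a] at k
  simp only [aU, y0] at k
  push_cast at k
  norm_num at this w3 k ⊢
  linarith

end End

namespace Cx
variable {T : Type} {X : Cx T} {s : S T} {N : Net} {m : ℕ → ℕ}

/-- **the end of a phase**, with the floor as a hypothesis -/
theorem Ok.end_le' (h : X.Ok) (hi : X.Inv s N) (hg : X.Good s.2 N) (hf : Flo N X.C.lam)
    (hq : s.2.Q = []) (hm : IsM (range X.G.n) X.G.E m) :
    ex (range X.G.n) s.2.mt.get * X.C.B ≤ ex (range X.G.n) m * X.C.B + 20 * X.G.n * X.P.D := by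
  have hs : 1 ≤ X.P.s0 := h.sm.1.trans h.sm.2.1
  have hD : 1 ≤ X.P.D := by
    have a := h.cb
    have b := hs.trans h.sm.2.2
    exact le_trans (Nat.mul_pos (Nat.mul_pos (by omega) (by omega)) (by omega)) h.lam
  have hB : X.C.B ≤ X.C.M := le_trans (by nlinarith) h.M
  have hZ : 300 ≤ X.C.Z := by have := h.Z.1; omega
  have z : (300 : ℝ) ≤ X.C.Z := by exact_mod_cast hZ
  have k := fun e he => End.kind hi.arcs hB h.wf.nd_le (e := e) he
  have fat : En.Fat X.P N := fun e he => by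
    have a := hf e he
    have b : (X.P.s0 : ℤ) ≤ X.C.lam := by exact_mod_cast h.sm.2.2
    exact ⟨(k e he).1, by omega, by omega⟩
  obtain ⟨y, hy, y0⟩ := En.quiet_norm hg.1
  have pd : ∀ v < X.G.n, s.2.st.get v = 0 → 4 / 5 * (X.C.Z : ℝ) ≤ y (v + 1) := fun v hv e =>
    End.pend hD hs hy y0 fat (End.a4 hi.arcs hv e).1 (End.a4 hi.arcs hv e).2 (hg.2.pnd v hv e) hZ
  have c := En.endCount2 (End.shp hi.arcs hi.cmb hi.q hq) hD hs hi.arcs.circ hy fat (b := X.C.B)
    (fun e he => (k e he).2.2.2.2.1.imp_right fun ⟨v, hv, a, b⟩ => by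
      have := pd v hv a
      rw [b]; simp only [aU, y0]; linarith) (θ := 4 / 5 * X.C.Z) (by linarith) y0
    (fun _ ⟨v, hv, a, b⟩ => b ▸ pd v hv a) hm
  have w := End.sum_wt hi.arcs hi.cmb hB h.wf.nd_le hZ
  have d0 : (0 : ℝ) ≤ X.P.D := Nat.cast_nonneg _
  have n0 : (0 : ℝ) ≤ X.G.n * X.P.D := by positivity
  have r : ((ex (range X.G.n) s.2.mt.get : ℝ) - ex (range X.G.n) m) * X.C.B * X.C.Z ≤
      20 * X.G.n * X.P.D * X.C.Z := by
    have := mul_le_mul_of_nonneg_left w d0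
    have := mul_nonneg n0 (by linarith : (0 : ℝ) ≤ X.C.Z)
    rw [ex]; linarith
  have r' := le_of_mul_le_mul_right r (by linarith)
  have : (ex (range X.G.n) s.2.mt.get : ℝ) * X.C.B ≤
    ex (range X.G.n) m * X.C.B + 20 * X.G.n * X.P.D := by linarith
  exact_mod_cast this

/-- **END** from the floor theorem -/
theorem endSpec_of (h : X.Ok)
    (hf : ∀ s N, X.Inv s N → Quiet X.P N → Flo N (10 * X.C.lam)) {c0 : ℕ} (hc : 20 ≤ c0) :
    X.EndSpec c0 := fun s N hi hg hq _ hm =>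
  (h.end_le' hi hg (fun e he => by have := hf s N hi hg.1 e he; push_cast at this; omega) hq hm).trans
    (by gcongr)

/-- **END** -/
theorem endSpec (h : X.Ok) {c0 : ℕ} (hc : 20 ≤ c0) : X.EndSpec c0 :=
  endSpec_of h (fun _ _ i q => i.flo10 h q) hc

end Cx

end Crest.Agent.N325.P2
end

-- ▼ part N325/P2/UnlM
section

/-!
# Row 325, part II (helper74): the duals on the ball of UNLABEL
-/

set_option autoImplicit false
open Finset

namespace Crest.Agent.N325.P2

open Crest.Agent.N325.Tw Crest.Agent.N325.Ip Crest.Agent.N325.Mt Crest.Agent.N325.Bf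
  Crest.Agent.N325.Du

/-- the plain darts from the classes `Y` to inner heads whose class is not in `Y` -/
def cutD (G : Gf) (d : Dt) (Y : Finset ℕ) : Finset ℕ :=
  (range G.nd).filter fun o => d.pr.get o = true ∧ d.cls.get (G.tl.get o) ∈ Y ∧
    d.st.get (G.hd o) = 1 ∧ d.cls.get (d.mt.get (G.hd o)) ∉ Y

/-- at most three darts leave a member -/
theorem card_darts {G : Gf} {d : Dt} (w : G.WF) (c : Cmb G d) {Y : Finset ℕ}
    (hY : ∀ a ∈ Y, isC G d a) :
    #((range G.nd).filter fun o => d.pr.get o = true ∧ d.cls.get (G.tl.get o) ∈ Y) ≤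
      3 * ∑ a ∈ Y, d.cw.get a := by
  refine (card_le_card (t := Y.biUnion fun a => (d.mem.get a).toFinset.biUnion fun v =>
    (G.adj.get v).toFinset) fun o ho => ?_).trans (card_biUnion_le.trans ?_)
  · obtain ⟨a, b, e⟩ := mem_filter.1 ho
    rw [mem_range] at a
    exact mem_biUnion.2 ⟨_, e, mem_biUnion.2 ⟨G.tl.get o, List.mem_toFinset.2
      ((c.mem _ (hY _ e) _).2 ⟨w.tl_lt o a, (c.pr o a b).1, rfl⟩),
      List.mem_toFinset.2 ((w.mem _ (w.tl_lt o a) o).2 ⟨a, rfl⟩)⟩⟩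
  · rw [mul_sum]
    refine sum_le_sum fun a ha => card_biUnion_le.trans ?_
    refine (sum_le_card_nsmul _ _ 3 fun v _ => (List.toFinset_card_le _).trans (w.deg v)).trans ?_
    rw [smul_eq_mul, c.cw a (hY a ha), mul_comm]
    exact Nat.mul_le_mul_left _ (List.toFinset_card_le _)

namespace Cx
variable {T : Type} {X : Cx T} {s : S T} {N : Net} {y : ℕ → ℝ} {c o e : ℕ}

/-- reference flows are close to the flows -/
theorem Inv.rf_near (i : X.Inv s N) (h : X.Ok) (he : e ∈ N.E) :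
    0 < s.1.rf.get e ∧ 100 * N.X e ≤ 101 * s.1.rf.get e ∧ 99 * s.1.rf.get e ≤ 100 * N.X e ∧
      s.1.rf.get e ≤ 2 * X.C.B := by
  obtain ⟨-, a, -, b, k⟩ := h.ip.view i.il.1 e he
  have o1 := (i.arcs.o1_c3 he).1
  have := h.sm.1
  have l := (i.lt_B h he).2
  unfold Dom at b
  have q := (k.slack h.D_pos a (by omega) (by omega)).1
  rw [o1, Nat.cast_zero, add_zero, abs_le] at q
  have q1 : ((100 * N.X e : ℤ) : ℝ) ≤ (101 * s.1.rf.get e : ℤ) := by push_cast; linarith [q.2]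
  have q2 : ((99 * s.1.rf.get e : ℤ) : ℝ) ≤ (100 * N.X e : ℤ) := by push_cast; linarith [q.1]
  have q3 := Int.cast_le.1 q1
  have q4 := Int.cast_le.1 q2
  exact ⟨by omega, q3, q4, by omega⟩

theorem Inv.unl_s0 (i : X.Inv s N) (h : X.Ok) (hq : Quiet X.P N) (he : e ∈ N.E) :
    (X.P.s0 : ℤ) ≤ N.X e := by
  have := (i.flo h hq e he).1
  have := h.sm.2.2
  omega

theorem Ok.unl_PhZ (h : X.Ok) : (2 : ℝ) ^ 40 ≤ X.C.Ph ∧ (20000 : ℝ) ≤ X.C.Z ∧ (1 : ℝ) ≤ X.P.D :=
  ⟨by exact_mod_cast h.Ph, by exact_mod_cast h.Z_pos, by exact_mod_cast h.D_pos⟩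

/-- the price at the starved class is high -/
theorem Inv.unl_start (i : X.Inv s N) (h : X.Ok) (hy : Dual X.P N y) (hc : isC X.G s.2 c)
    (k : (99 * X.C.Ph : ℤ) * N.X (5 * c + 2) ≤ 100 * (s.2.cw.get c + 1) * X.P.D) :
    4 / 5 * ((X.C.Ph : ℝ) * X.C.Z) ≤ y (c + 1) := by
  obtain ⟨p, q⟩ := i.arcs.sink hc
  have S := h.shp i.il.1 i.arcs i.cmb
  have a := S.price_le hy p (q ▸ ⟨mem_shpC.2 hc, rfl, rfl,
    Nat.mul_le_mul_left _ (Nat.succ_le_succ (i.cmb.cw_le hc).2), rfl, rfl⟩)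
  rw [q] at a
  change 9 / 10 * (((X.C.Z * (s.2.cw.get c + 1) : ℕ) : ℝ) * _) - _ ≤ y (c + 1) at a
  have x0 : (0 : ℝ) < N.X (5 * c + 2) := by exact_mod_cast S.pos p
  have k' : (99 * X.C.Ph : ℝ) * N.X (5 * c + 2) ≤ 100 * (s.2.cw.get c + 1) * X.P.D := by
    exact_mod_cast k
  obtain ⟨h1, h2, -⟩ := h.unl_PhZ
  have b : (99 / 100 * X.C.Ph : ℝ) ≤ (s.2.cw.get c + 1) * (X.P.D / N.X (5 * c + 2)) := by
    rw [← mul_div_assoc, le_div_iff₀ x0]; linarith
  have b' := mul_le_mul_of_nonneg_left b (by linarith : (0 : ℝ) ≤ X.C.Z)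
  push_cast at a
  nlinarith

/-- the fall of the dual along a plain arc -/
theorem Inv.unl_fallP (i : X.Inv s N) (h : X.Ok) (hq : Quiet X.P N) (hy : Dual X.P N y)
    (ho : o < X.G.nd) (hp : s.2.pr.get o = true) :
    y (s.2.cls.get (X.G.tl.get o) + 1) - 11 / 10 * ((X.P.D : ℝ) / N.X (5 * o)) ≤
      y (X.G.hd o + 1) := by
  obtain ⟨p, q⟩ := i.arcs.plain ho hp
  obtain ⟨s1, s2, -⟩ := i.cmb.pr o ho hp
  have a := (h.shp i.il.1 i.arcs i.cmb).fall hy p (.inl (q ▸
    ⟨mem_shpC.2 (i.cmb.out _ (h.wf.tl_lt o ho) s1), mem_shpH.2 ⟨h.wf.hd_lt ho, s2⟩, rfl, rfl, rfl,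
      rfl⟩)) (i.unl_s0 h hq p)
  rwa [q] at a

/-- the flow of a plain arc continues on the arc out of its head -/
theorem Inv.unl_plainLe (i : X.Inv s N) (h : X.Ok) (ho : o < X.G.nd) (hp : s.2.pr.get o = true)
    (he : e ∈ N.E) (k : (N.arc e).a = X.G.hd o + 1) :
    (X.P.D : ℝ) / N.X e ≤ X.P.D / N.X (5 * o) := by
  obtain ⟨p, q⟩ := i.arcs.plain ho hp
  have S := h.shp i.il.1 i.arcs i.cmb
  have a := S.in_le_out p he (q ▸ mem_shpH.2 ⟨h.wf.hd_lt ho, (i.cmb.pr o ho hp).2.1⟩)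
    (by rw [k, q]; rfl)
  exact div_le_div_of_nonneg_left (Nat.cast_nonneg _) (by exact_mod_cast S.pos p)
    (by exact_mod_cast a)

/-- **the fall of the dual from class to class** -/
theorem Inv.unl_fall (i : X.Inv s N) (h : X.Ok) (hq : Quiet X.P N) (hy : Dual X.P N y)
    (ho : o < X.G.nd) (hp : s.2.pr.get o = true) (h1 : s.2.st.get (X.G.hd o) = 1) :
    isC X.G s.2 (s.2.cls.get (s.2.mt.get (X.G.hd o))) ∧
      y (s.2.cls.get (X.G.tl.get o) + 1) - 9 / 4 * ((X.P.D : ℝ) / s.1.rf.get (5 * o)) ≤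
        y (s.2.cls.get (s.2.mt.get (X.G.hd o)) + 1) := by
  have hv := h.wf.hd_lt ho
  have hc := (i.cmb.entry hv (.inl h1)).1
  refine ⟨hc, ?_⟩
  have ne : s.2.mt.get (X.G.hd o) ≠ X.G.hd o := fun k => by
    have := i.cmb.root_st hv k; omega
  obtain ⟨p, q⟩ := i.arcs.entry hv (.inl h1)
  have qa : (N.arc (5 * X.G.hd o + 1)).a = X.G.hd o + 1 := by rw [q]; exact if_neg ne
  have a := (h.shp i.il.1 i.arcs i.cmb).fall hy p (.inr ⟨.inl (qa ▸ mem_shpH.2 ⟨hv, by omega⟩),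
    q ▸ mem_shpC.2 hc, q ▸ rfl, q ▸ rfl, q ▸ rfl, q ▸ rfl⟩) (i.unl_s0 h hq p)
  rw [qa, show (N.arc (5 * X.G.hd o + 1)).b = s.2.cls.get (s.2.mt.get (X.G.hd o)) + 1 by
    rw [q]; rfl] at a
  have b := i.unl_fallP h hq hy ho hp
  have c1 := i.unl_plainLe h ho hp p qa
  obtain ⟨r0, -, r1, -⟩ := i.rf_near h (i.arcs.plain ho hp).1
  have r0' : (0 : ℝ) < s.1.rf.get (5 * o) := by exact_mod_cast r0
  have r1' : (99 : ℝ) * s.1.rf.get (5 * o) ≤ 100 * N.X (5 * o) := by exact_mod_cast r1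
  have D0 : (0 : ℝ) ≤ X.P.D := Nat.cast_nonneg _
  have c2 : (X.P.D : ℝ) / N.X (5 * o) ≤ X.P.D / (99 / 100 * s.1.rf.get (5 * o)) :=
    div_le_div_of_nonneg_left D0 (by positivity) (by linarith)
  rw [mul_comm (99 / 100 : ℝ), ← div_div] at c2
  have c3 : 0 ≤ (X.P.D : ℝ) / s.1.rf.get (5 * o) := by positivity
  linarith

/-- classes with a high dual have a high price -/
theorem Inv.unl_price (i : X.Inv s N) (h : X.Ok) (hq : Quiet X.P N) (hy : Dual X.P N y)
    (hc : isC X.G s.2 c) (k : (X.C.Ph : ℝ) * X.C.Z / 2 ≤ y (c + 1)) :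
    26 ≤ Real.log (wtC s.2 c * X.P.D / N.X (5 * c + 2)) := by
  obtain ⟨p, q⟩ := i.arcs.sink hc
  have S := h.shp i.il.1 i.arcs i.cmb
  have a := S.le_price hy p (q ▸ ⟨mem_shpC.2 hc, rfl, rfl,
    Nat.mul_le_mul_left _ (Nat.succ_le_succ (i.cmb.cw_le hc).2), rfl, rfl⟩) (i.unl_s0 h hq p)
  rw [q] at a
  change y (c + 1) ≤ 11 / 10 * (((X.C.Z * wtC s.2 c : ℕ) : ℝ) * _) at a
  obtain ⟨h1, h2, -⟩ := h.unl_PhZ
  rw [Nat.cast_mul, mul_assoc, ← mul_div_assoc] at a
  have b : (2 : ℝ) ^ 38 ≤ wtC s.2 c * X.P.D / N.X (5 * c + 2) := by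
    by_contra! b
    nlinarith
  have := Real.log_le_log (by positivity) b
  rw [Real.log_pow] at this
  have := Real.log_two_gt_d9
  push_cast at *
  linarith

/-- little flow goes from an expensive class to a pending vertex -/
theorem Inv.unl_pend (i : X.Inv s N) (h : X.Ok) (hq : Quiet X.P N) (hy : Dual X.P N y)
    (ho : o < X.G.nd) (hp : s.2.pr.get o = true) (h0 : s.2.st.get (X.G.hd o) = 0)
    (k : (X.C.Ph : ℝ) * X.C.Z / 2 ≤ y (s.2.cls.get (X.G.tl.get o) + 1)) :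
    (X.C.Ph : ℝ) * X.C.Z * N.X (5 * o) ≤ 5 * X.P.D := by
  have hv := h.wf.hd_lt ho
  obtain ⟨p, q⟩ := i.arcs.pend hv h0
  have S := h.shp i.il.1 i.arcs i.cmb
  have a := S.pend_le hy p (q ▸ ⟨mem_shpH.2 ⟨hv, by omega⟩, rfl, rfl, rfl, rfl, rfl, rfl⟩)
    (i.unl_s0 h hq p)
  have b := i.unl_fallP h hq hy ho hp
  have c1 := i.unl_plainLe h ho hp p (by rw [q]; rfl)
  rw [q] at a
  change y (X.G.hd o + 1) ≤ _ + 11 / 5 * (X.C.Z : ℝ) at a
  have x0 : (0 : ℝ) < N.X (5 * o) := by exact_mod_cast S.pos (i.arcs.plain ho hp).1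
  obtain ⟨h1, h2, -⟩ := h.unl_PhZ
  have : (X.C.Ph : ℝ) * X.C.Z / 5 ≤ X.P.D / N.X (5 * o) := by nlinarith
  rw [le_div_iff₀ x0] at this
  linarith

/-- **the exits of an expensive set of classes** -/
theorem Inv.unl_exit (i : X.Inv s N) (h : X.Ok) (hq : Quiet X.P N) (hy : Dual X.P N y)
    {Y : Finset ℕ} (hY : ∀ a ∈ Y, isC X.G s.2 a ∧ (X.C.Ph : ℝ) * X.C.Z / 2 ≤ y (a + 1)) :
    (X.C.Ph : ℝ) * X.C.Z * exitF X.G s.2 N Y ≤
      X.C.Ph * X.C.Z * (∑ o ∈ cutD X.G s.2 Y, N.X (5 * o) : ℤ) +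
        15 * X.P.D * ∑ a ∈ Y, (s.2.cw.get a : ℝ) := by
  have a := card_darts h.wf i.cmb fun a ha => (hY a ha).1
  set A := (range X.G.nd).filter fun o => s.2.pr.get o = true ∧ s.2.cls.get (X.G.tl.get o) ∈ Y
  have a' : (#A : ℝ) ≤ 3 * ∑ a ∈ Y, (s.2.cw.get a : ℝ) := by exact_mod_cast a
  have D0 : (0 : ℝ) ≤ X.P.D := Nat.cast_nonneg _
  have e1 : (X.C.Ph : ℝ) * X.C.Z * exitF X.G s.2 N Y = ∑ o ∈ A,
      if ¬(s.2.st.get (X.G.hd o) = 1 ∧ s.2.cls.get (s.2.mt.get (X.G.hd o)) ∈ Y) then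
        (X.C.Ph : ℝ) * X.C.Z * N.X (5 * o) else 0 := by
    rw [← sum_filter, filter_filter, ← mul_sum, exitF]
    simp only [and_assoc, Int.cast_sum]
  have e2 : (X.C.Ph : ℝ) * X.C.Z * (∑ o ∈ cutD X.G s.2 Y, N.X (5 * o) : ℤ) = ∑ o ∈ A,
      if s.2.st.get (X.G.hd o) = 1 ∧ s.2.cls.get (s.2.mt.get (X.G.hd o)) ∉ Y then
        (X.C.Ph : ℝ) * X.C.Z * N.X (5 * o) else 0 := by
    rw [← sum_filter, filter_filter, ← mul_sum, cutD]
    simp only [and_assoc, Int.cast_sum]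
  have e3 : ∑ _o ∈ A, 5 * (X.P.D : ℝ) ≤ 15 * X.P.D * ∑ a ∈ Y, (s.2.cw.get a : ℝ) := by
    rw [sum_const, nsmul_eq_mul]; nlinarith
  rw [e1, e2]
  refine le_trans ?_ (add_le_add_right e3 _)
  rw [← sum_add_distrib]
  refine sum_le_sum fun o ho => ?_
  obtain ⟨o1, o2, o3⟩ := mem_filter.1 ho
  rw [mem_range] at o1
  have s1 := (i.cmb.pr o o1 o2).2.1
  have s2 := i.cmb.st_le _ (h.wf.hd_lt o1)
  by_cases k : s.2.st.get (X.G.hd o) = 1
  · by_cases k' : s.2.cls.get (s.2.mt.get (X.G.hd o)) ∈ Y <;> simp [k, k']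
  · have := i.unl_pend h hq hy o1 o2 (by omega) (hY _ o3).2
    simpa [k] using this

/-- **UNLABEL is paid**: `t1` = time of the search, `t2` = time of DROP -/
theorem Inv.unl_post (i : X.Inv s N) (h : X.Ok) (hq : Quiet X.P N) (hy : Dual X.P N y)
    {Y : Finset ℕ} (hY : ∀ a ∈ Y, isC X.G s.2 a ∧ (X.C.Ph : ℝ) * X.C.Z / 2 ≤ y (a + 1))
    (ne : Y.Nonempty) (cut : X.C.Ph * ∑ o ∈ cutD X.G s.2 Y, N.X (5 * o) ≤
      (X.P.D * ∑ a ∈ Y, wtC s.2 a : ℕ)) {t1 t2 : ℕ}
    (ht : t1 ≤ X.κ * X.C.Z * ∑ a ∈ Y, wtC s.2 a) {A : ℝ}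
    (hd : t2 + A + X.κ * ∑ c ∈ Y, (X.C.Z * wtC s.2 c : ℝ) *
          (Real.log (wtC s.2 c * X.P.D / N.X (5 * c + 2)) - 15) ≤
        X.Tot s N + X.κ * (5 * X.C.Ph * X.C.Z * (exitF X.G s.2 N Y : ℝ) / X.P.D + 1)) :
    ((t1 + t2 : ℕ) : ℝ) + A + X.κ ≤ X.Tot s N := by
  obtain ⟨h1, h2, h3⟩ := h.unl_PhZ
  have a := i.unl_exit h hq hy hY
  set W : ℝ := ∑ a ∈ Y, (wtC s.2 a : ℝ) with hW
  have w1 : ∑ a ∈ Y, (s.2.cw.get a : ℝ) ≤ W :=
    sum_le_sum fun a _ => by unfold wtC; push_cast; linarith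
  have w2 : 1 ≤ W := by
    obtain ⟨a, ha⟩ := ne
    refine le_trans ?_ (single_le_sum (f := fun a => (wtC s.2 a : ℝ))
      (fun _ _ => Nat.cast_nonneg _) ha)
    exact_mod_cast Nat.succ_le_succ (Nat.zero_le _)
  have c1 : (X.C.Ph : ℝ) * (∑ o ∈ cutD X.G s.2 Y, N.X (5 * o) : ℤ) ≤ X.P.D * W := by
    rw [hW]; exact_mod_cast cut
  have t1' : (t1 : ℝ) ≤ X.κ * (X.C.Z * W) := by rw [hW, ← mul_assoc]; exact_mod_cast ht
  have p : 11 * (X.C.Z * W) ≤ ∑ c ∈ Y, (X.C.Z * wtC s.2 c : ℝ) *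
      (Real.log (wtC s.2 c * X.P.D / N.X (5 * c + 2)) - 15) := by
    rw [hW, mul_sum, mul_sum]
    refine sum_le_sum fun c hc => ?_
    have := i.unl_price h hq hy (hY c hc).1 (hY c hc).2
    have : (0 : ℝ) ≤ X.C.Z * wtC s.2 c := by positivity
    nlinarith
  have q : 5 * X.C.Ph * X.C.Z * (exitF X.G s.2 N Y : ℝ) / X.P.D ≤ 5 * (X.C.Z * W) + 75 * W := by
    rw [div_le_iff₀ (by linarith)]
    have := mul_le_mul_of_nonneg_left c1 (by linarith : (0 : ℝ) ≤ X.C.Z)
    have := mul_le_mul_of_nonneg_left w1 (by linarith : (0 : ℝ) ≤ X.P.D)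
    linarith
  have r : 5 * (X.C.Z * W) + 75 * W + 1 + 1 + X.C.Z * W ≤ 11 * (X.C.Z * W) := by nlinarith
  have κ0 : (0 : ℝ) ≤ X.κ := Nat.cast_nonneg _
  have r' := mul_le_mul_of_nonneg_left (r.trans p) κ0
  have q' := mul_le_mul_of_nonneg_left q κ0
  push_cast
  linarith

end Cx

end Crest.Agent.N325.P2
end

-- ▼ part N325/Bl/Unl
section

/-!
# Row 325, part II (helper70): UNLABEL meets its specification
-/

set_option autoImplicit false
open Finset

namespace Crest.Agent.N325.Bl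

open Crest.Agent.N325.P2 Crest.Agent.N325.Ip Crest.Agent.N325.Dj

variable {T : Type} {X : Cx T}

theorem kb_le (h : X.Ok) : X.C.kb ≤ X.C.Z := by
  have a : (2 : ℝ) ^ X.C.kb ≤ X.Bd.Mu := by
    have := h.BD_le
    rw [← h.Mu]; exact_mod_cast (by rw [← h.B.1]; omega : 2 ^ X.C.kb ≤ X.C.M)
  have b := Real.log_le_log (by positivity) a
  rw [Real.log_pow] at b
  have c := h.Lg_le
  have d := mul_le_mul_of_nonneg_left Real.log_two_gt_d9.le (Nat.cast_nonneg (α := ℝ) X.C.kb)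
  have e : (0 : ℝ) ≤ X.C.kb := Nat.cast_nonneg _
  unfold Cx.Lg at c
  exact_mod_cast (by linarith : (X.C.kb : ℝ) ≤ X.C.Z)

theorem length_le_vol (adj : ℕ → List ℕ) (L : List ℕ) : L.length ≤ vol adj L := by
  have := List.card_nsmul_le_sum (L.map fun x => 1 + (adj x).length) 1 fun x hx => by
    obtain ⟨y, -, rfl⟩ := List.mem_map.1 hx
    omega
  rwa [List.length_map, smul_eq_mul, mul_one] at this

/-- **UNLABEL** -/
theorem unlabSpec (h : X.Ok) {drop : S T → List ℕ → R (S T)} (hd : X.DropSpec drop) :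
    X.UnlabSpec (unl drop X.toEnv) := by
  intro s N c i ro hq hc hp
  obtain ⟨y, hy⟩ := Du.Quiet.dual hq
  have w := h.wf
  have cm := i.cmb
  have nM := h.n_le_M; have MX := h.M_le_X; have BD := h.BD_le; have Z1 := h.Z.1
  have kZ := kb_le h; have PZ := h.PZ_pos; have cn := hc.1
  have PD : X.C.Ph * X.C.Z ≤ X.P.D :=
    le_trans (Nat.le_mul_of_pos_right _ h.lam_pos) (by have := h.lam_le; omega)
  have P10 : 10 ≤ X.C.Ph := le_trans (by norm_num) h.Ph
  have ZD : X.C.Z ≤ X.P.D := le_trans (Nat.le_mul_of_pos_left _ (by omega)) PD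
  have K1 : 1 ≤ X.C.K := Nat.pos_of_ne_zero fun e => by have := h.K; rw [e] at this; omega
  have B1 : 1 ≤ X.C.B := by rw [h.B.1]; exact Nat.two_pow_pos _
  unfold unl
  obtain ⟨q, eq⟩ : ∃ q, q = X.P.D / (X.C.Ph * X.C.Z) + 1 := ⟨_, rfl⟩
  have q1 : 1 ≤ q := eq ▸ Nat.le_add_left _ _
  have q2 : X.P.D ≤ X.C.Ph * X.C.Z * q := eq ▸ (Nat.lt_mul_div_succ _ (by omega)).le
  have q3 : X.C.Ph * X.C.Z * q ≤ 2 * X.P.D := by
    have := Nat.mul_div_le X.P.D (X.C.Ph * X.C.Z)
    rw [eq, mul_add]; omega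
  have q4 : q ≤ X.C.M := by have := Nat.div_le_self X.P.D (X.C.Ph * X.C.Z); omega
  rw [← eq]
  obtain ⟨L, eL⟩ : ∃ L, L = 10 * q * X.C.K * X.C.B := ⟨_, rfl⟩
  have L1 : 10 * (X.C.K * X.C.B) ≤ L := by
    rw [eL, mul_assoc (10 * q)]; exact Nat.mul_le_mul_right _ (by omega)
  have L2 : X.C.B ≤ X.C.K * X.C.B := Nat.le_mul_of_pos_left _ K1
  have LA : L ≤ X.C.M * X.C.M * X.C.Z * X.C.Ph := by
    calc L = q * X.C.B * X.C.K * 10 := by rw [eL]; ring
      _ ≤ _ := by gcongr <;> omega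
  have ML : X.C.M * L ≤ X.g.X := by
    refine le_trans ?_ h.gX
    rw [sq]
    refine Nat.mul_le_mul ?_ LA
    rw [mul_assoc, mul_assoc]
    exact Nat.le_mul_of_pos_right _ (Nat.mul_pos (by omega) (Nat.mul_pos (by omega) (by omega)))
  have LX : L ≤ X.g.X := le_trans (Nat.le_mul_of_pos_left _ (by omega)) ML
  rw [← eL]
  refine sp_bind.2 (sp_nat.2 ⟨LX, sp_bind.2 (sp_nat.2 ⟨by omega, sp_bind.2 (sp_nat.2 ⟨by omega,
    ?_⟩)⟩)⟩)
  have hM : 2 * X.G.n ≤ X.C.M := by omega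
  have near : ∀ o < X.G.nd, s.2.pr.get o = true → 0 < s.1.rf.get (5 * o) ∧
      N.X (5 * o) ≤ 2 * s.1.rf.get (5 * o) ∧ s.1.rf.get (5 * o) ≤ 2 * X.C.B := fun o a b => by
    have := i.rf_near h (i.arcs.plain a b).1
    omega
  have sb := sp_ballD (g := X.g) (G := trav X.toEnv s L) (cap := tcap X.toEnv s)
    (B := X.C.kb + X.C.K) (fu := X.C.fu) (T := X.C.K) (K := X.C.kb) (Z := L + 2 * X.C.B)
    (s := X.G.n + c) (U := 6 * X.G.n)
    (range X.G.n ∪ ((range X.G.n).filter (isC X.G s.2)).image (X.G.n + ·)) K1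
    (fun x d k => by
      by_cases hx : x < X.G.n
      · exact mem_union_left _ (mem_range.2 hx)
      · have := (trav_wk w cm hM hc k).2 hx
        exact mem_union_right _ (mem_image.2 ⟨_, mem_filter.2 ⟨mem_range.2 this.1, this⟩,
          Nat.add_sub_cancel' (not_lt.1 hx)⟩))
    (by
      refine (trav_vol w cm (A := range X.G.n) (C := (range X.G.n).filter (isC X.G s.2))
        (fun c k => (mem_filter.1 k).2) fun x hx => ⟨mem_range.2, fun k => ?_⟩).trans ?_
      · obtain ⟨a, b, rfl⟩ := mem_image.1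
          ((mem_union.1 hx).resolve_left fun b => k (mem_range.1 b))
        rwa [Nat.add_sub_cancel_left]
      · have a := sum_cw cm
        have b := card_filter_le (range X.G.n) (isC X.G s.2)
        simp only [wtC, sum_add_distrib, sum_const, card_range, smul_eq_mul, mul_one] at b ⊢
        omega)
    (by have := h.K; omega)
    (fun x _ e a b => by
      by_cases hx : x < X.G.n
      · obtain ⟨a1, -, a2, -⟩ := trav_out w cm hM hx a b
        have := near e a1 a2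
        have := Nat.mul_div_le L (s.1.rf.get (5 * e)).toNat
        simp only [trav, tcap, if_pos hx, mul_add]
        omega
      · simp [tcap, hx])
    (by rw [pow_add, mul_comm]; exact Nat.mul_lt_mul_of_pos_left Nat.lt_two_pow_self (by positivity))
    (by
      have := h.fu
      have : 1000 * 1 * (X.G.n + 1) ≤ 1000 * (X.C.K + 5) ^ 2 * (X.G.n + 1) := by
        gcongr; exact Nat.one_le_pow _ _ (by omega)
      omega)
    (by omega) (by rw [← h.B.1]; omega)
    (le_trans (by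
      rw [mul_comm]
      calc 6 * X.G.n * (L + 2 * X.C.B) ≤ 6 * X.G.n * (2 * L) := Nat.mul_le_mul_left _ (by omega)
        _ = 12 * X.G.n * L := by ring
        _ ≤ _ := Nat.mul_le_mul_right _ (by omega)) ML)
  rw [← h.B.1] at sb
  refine sb.bind fun p t1 ⟨r1, hB, r2, r3⟩ => (sp_filterMapP _ _).bind fun Y t2 ⟨eY, r4⟩ => ?_
  have hY : ∀ a, a ∈ Y ↔ X.G.n + a ∈ p.2.1 := fun a => by rw [eY, mem_clO]
  have v := ball_vol w cm hM hc hB
  have ct := ball_cut w cm hM hc hB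
  have v1 := hB.vol_pos (adj := (trav X.toEnv s L).adj) (.base List.mem_cons_self)
  have v2 := length_le_vol (trav X.toEnv s L).adj p.2.1
  rw [← eY] at v ct
  have ro' : X.RoomN s (90 * (X.G.n + 1)) := by
    have a : ((90 * (X.G.n + 1) : ℕ) : ℝ) ≤ X.Rm := by
      have := h.Rm; exact_mod_cast (by omega : 90 * (X.G.n + 1) ≤ X.Rm)
    have := mul_le_mul_of_nonneg_right a (by positivity : (0 : ℝ) ≤ 2 * X.k.AU)
    unfold Cx.Room at ro; unfold Cx.RoomN; linarith
  refine (hd s N Y i ro' (i.flo h hq) (eY ▸ nodup_clO hB.nd)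
    fun a k => ball_cls w cm hM hc hB ((hY a).1 k)).mono fun s' t3 ⟨N', i', _, _, _, _, _, k⟩ =>
      ⟨N', i', ?_⟩
  rw [show 0 + (0 + (0 + (t1 + (t2 + t3)))) = t1 + t2 + t3 by omega]
  generalize vol (trav X.toEnv s L).adj p.2.1 = V at *
  refine i.unl_post h hq hy (fun a ha => ?_) ⟨c, List.mem_toFinset.2 ((hY c).2 hB.centre)⟩ ?_ ?_ k
  · have ka := (hY a).1 (List.mem_toFinset.1 ha)
    refine ⟨ball_cls w cm hM hc hB ka, ?_⟩
    have L0 : (0 : ℝ) < L := by exact_mod_cast (by omega : 0 < L)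
    have D0 : (0 : ℝ) ≤ X.P.D := Nat.cast_nonneg _
    have f := ball_dual w cm hM hc hB (y := y) (a := 9 / 4 * (X.P.D / L)) (by positivity)
      (fun o a1 a2 a3 => le_trans ?_ (i.unl_fall h hq hy a1 a2 a3).2) ka
    · have a1 := i.unl_start h hy hc hp
      have a2 : (X.P.D : ℝ) / L * p.1 ≤ X.C.Ph * X.C.Z / 10 := by
        rw [div_mul_eq_mul_div, div_le_div_iff₀ L0 (by norm_num)]
        exact_mod_cast (calc X.P.D * p.1 * 10
            ≤ X.C.Ph * X.C.Z * q * (X.C.K * X.C.B) * 10 := by gcongr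
          _ = X.C.Ph * X.C.Z * L := by rw [eL]; ring)
      have : (0 : ℝ) ≤ X.C.Ph * X.C.Z := by positivity
      linarith
    · obtain ⟨ρ, e⟩ := Int.eq_ofNat_of_zero_le (near o a1 a2).1.le
      have ρ0 : 0 < ρ := by have := (near o a1 a2).1; omega
      rw [e, Int.toNat_natCast, Int.cast_natCast]
      have : (X.P.D : ℝ) / ρ ≤ X.P.D / L * (L / ρ + 1 : ℕ) := by
        rw [div_mul_eq_mul_div, div_le_div_iff₀ (by exact_mod_cast ρ0) L0, mul_assoc]
        refine mul_le_mul_of_nonneg_left ?_ D0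
        exact_mod_cast (mul_comm ρ _ ▸ (Nat.lt_mul_div_succ L ρ0).le)
      linarith
  · generalize cut _ _ _ _ p.2.1 = Q at *
    generalize ∑ a ∈ Y.toFinset, wtC s.2 a = W at *
    have a1 : ∑ o ∈ cutD X.G s.2 Y.toFinset, N.X (5 * o) ≤ (2 * Q : ℕ) := by
      refine le_trans ?_ (Int.ofNat_le.2 (Nat.mul_le_mul_left 2 ct))
      rw [mul_sum, Nat.cast_sum]
      refine sum_le_sum fun o ho => ?_
      have := near o (mem_range.1 (mem_filter.1 ho).1) (mem_filter.1 ho).2.1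
      omega
    have a2 : Q ≤ 10 * (10 * q * X.C.K + 2) * W := Nat.le_of_mul_le_mul_left
      (r2.trans (calc 2 * (L + 2 * X.C.B) * V ≤ 2 * (L + 2 * X.C.B) * (5 * W) := by gcongr
        _ = _ := by rw [eL]; ring)) B1
    have a3 : X.C.Ph * (2 * Q) ≤ X.P.D * W := Nat.le_of_mul_le_mul_left (c := X.C.Z)
      (calc X.C.Z * (X.C.Ph * (2 * Q))
          ≤ X.C.Z * (X.C.Ph * (2 * (10 * (10 * q * X.C.K + 2) * W))) := by gcongr
        _ = (200 * X.C.K * (X.C.Ph * X.C.Z * q) + 40 * (X.C.Ph * X.C.Z)) * W := by ring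
        _ ≤ (200 * X.C.K * (2 * X.P.D) + 40 * X.P.D) * W := by gcongr
        _ = (400 * X.C.K + 40) * (X.P.D * W) := by ring
        _ ≤ _ := Nat.mul_le_mul_right _ (by omega)) (by omega)
    exact (mul_le_mul_of_nonneg_left a1 (Nat.cast_nonneg _)).trans (by exact_mod_cast a3)
  · generalize ∑ a ∈ Y.toFinset, wtC s.2 a = W at *
    have a1 : 1000 * (X.C.K + 5) ≤ X.κ := le_trans (by
      calc 1000 * (X.C.K + 5) = 1000 * 1 * (X.C.K + 5) ^ 1 := by ring
        _ ≤ 1000 * (X.k.AU + X.k.AQ + X.k.cl + 1) * (X.C.K + 5) ^ 2 := by gcongr <;> omega)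
      ((Nat.le_add_left _ _).trans h.κ)
    have a2 : 3 * (X.C.K + 1) * (3 * (X.C.kb + X.C.K) + 10) ≤ 3 * (X.C.K + 1) * (7 * X.C.Z) :=
      Nat.mul_le_mul_left _ (by omega)
    calc t1 + t2 ≤ (3 * (X.C.K + 1) * (3 * (X.C.kb + X.C.K) + 10) + 7 * X.C.kb + 20) * V + 4 * V := by
          omega
      _ = (3 * (X.C.K + 1) * (3 * (X.C.kb + X.C.K) + 10) + (7 * X.C.kb + 24)) * V := by ring
      _ ≤ (3 * (X.C.K + 1) * (7 * X.C.Z) + 8 * X.C.Z) * (5 * W) := by gcongr; omega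
      _ = (105 * X.C.K + 145) * X.C.Z * W := by ring
      _ ≤ _ := by gcongr; omega

end Crest.Agent.N325.Bl
end

-- ▼ part N325/Ag/Fold
section

/-!
# Row 325, part II (helper27): AUGMENT from ROT and FINAL
-/

set_option autoImplicit false
open Finset

namespace Crest.Agent.N325.P2

open Crest.Agent.N325.Tw Crest.Agent.N325.Ip Crest.Agent.N325.Mt Crest.Agent.N325.Bf
open Crest.Agent.N325.Dm Crest.Agent.N325.On

/-- a path survives when its arcs do -/
theorem pth_tr {B B' : Bg} {u x : ℕ} {l : List (ℕ × ℕ)} (h : B.Pth u x l)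
    (k : ∀ p ∈ l, ∀ y, B.Arc p y → B'.Arc p y) : B'.Pth u x l := by
  induction h with
  | nil => exact .nil
  | cons _ a ih =>
    exact .cons (ih fun p hp => k p (List.mem_cons_of_mem _ hp)) (k _ List.mem_cons_self _ a)

theorem len_le_wsum (d : Dt) (L : List ℕ) : L.length ≤ wsum (wtC d) L := by
  induction L with
  | nil => simp
  | cons a L ih => simp only [On.wsum, wtC, List.map_cons, List.sum_cons, List.length_cons] at *; omega

theorem le_wsum (w : ℕ → ℕ) {L : List ℕ} {a : ℕ} (h : a ∈ L) : w a ≤ wsum w L :=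
  List.single_le_sum (fun _ _ => Nat.zero_le _) _ (List.mem_map_of_mem h)

/-- what the rotations keep -/
structure Kp (G : Gf) (d d' : Dt) : Prop where
  st : d'.st = d.st
  cls : d'.cls = d.cls
  cw : d'.cw = d.cw
  ok : ∀ a < G.n, d.st.get a = 1 → ∀ p ∈ G.adj.get a, (bgOf G d').ok a p = (bgOf G d).ok a p

variable {G : Gf} {d d' d'' : Dt}

theorem Kp.refl : Kp G d d := ⟨rfl, rfl, rfl, fun _ _ _ _ _ => rfl⟩
theorem Kp.trans (h : Kp G d d') (k : Kp G d' d'') : Kp G d d'' :=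
  ⟨k.st.trans h.st, k.cls.trans h.cls, k.cw.trans h.cw, fun a i j p q =>
    (k.ok a i (h.st ▸ j) p q).trans (h.ok a i j p q)⟩
theorem RotD.kp {c r : ℕ} (h : RotD G d d' c r) : Kp G d d' := ⟨h.st, h.cls, h.cw, h.ok⟩
theorem Kp.isC (h : Kp G d d') : isC G d' = isC G d := by
  funext c; unfold P2.isC; rw [h.st, h.cls]
theorem Kp.wt (h : Kp G d d') : wtC d' = wtC d := by funext c; unfold wtC; rw [h.cw]

/-- an arc through an inner vertex in the new view -/
theorem Kp.arc (h : Kp G d d') {B : Bg} (a1 : B.adj = (bgOf G d).adj) (a2 : B.ok = (bgOf G d).ok)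
    (a3 : B.hd = (bgOf G d).hd) {p : ℕ × ℕ} {y : ℕ} (m : (bgOf G d').mu p.1 = B.mu p.1)
    (i : ∀ a, B.mu p.1 = some a → a < G.n ∧ d.st.get a = 1) (k : B.Arc p y) :
    (bgOf G d').Arc p y := by
  obtain ⟨a, e1, e2, e3, e4⟩ := k
  rw [a1] at e2; rw [a2] at e3; rw [a3] at e4
  refine ⟨a, m.trans e1, e2, (h.ok a (i a e1).1 (i a e1).2 _ e2).trans e3, ?_⟩
  rw [← e4]
  change d'.cls.get _ = d.cls.get _
  rw [h.cls]

namespace Cx
variable {T : Type} {X : Cx T} {rot : S T → ℕ → R (S T)} {fin : S T → ℕ → R (S T)}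

theorem RoomN.mono {s : S T} {i j : ℕ} (h : X.RoomN s j) (k : i ≤ j) : X.RoomN s i := by
  have a : (i : ℝ) ≤ j := by exact_mod_cast k
  have := mul_le_mul_of_nonneg_right a (by positivity : (0 : ℝ) ≤ 2 * X.k.AU)
  unfold RoomN at *; linarith

/-- **the rotations along a path** make its first class a root -/
theorem sp_rots (h : X.Ok) (hr : X.RotSpec rot) {u j : ℕ} {l : List (ℕ × ℕ)} {r : ℕ} {s : S T}
    {N : Net} (i : X.Inv s N) (ro : X.RoomN s (10 * l.length + j)) (f : RF X.C X.G s.2 N)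
    (hu : isC X.G s.2 u) (p : (bgOf X.G s.2).Pth u r l) (nd : (nds r l).Nodup)
    (rt : (bgOf X.G s.2).mu r = none) :
    Sp X.g (rots rot l s) fun s' t => ∃ N', X.Inv s' N' ∧ X.RoomN s' j ∧ RF X.C X.G s'.2 N' ∧
      Kp X.G s.2 s'.2 ∧ (bgOf X.G s'.2).mu u = none ∧
      (∀ y x, Lk r l y x → (bgOf X.G s'.2).mu y = (bgOf X.G s.2).mu x) ∧
      (∀ y, isC X.G s.2 y → y ≠ u → (∀ x, ¬Lk r l y x) →
        (bgOf X.G s'.2).mu y = (bgOf X.G s.2).mu y) ∧
      t + X.Tot s' N' ≤ X.Tot s N + X.κ * (X.C.Z * wsum (wtC s.2) (nds r l)) + l.length + 1 := by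
  induction l generalizing r s N with
  | nil =>
    cases p
    refine ⟨Nat.zero_le _, N, i, ro.mono (by omega), f, .refl, rt, fun _ _ k => k.elim,
      fun _ _ _ _ => rfl, ?_⟩
    have : (0 : ℝ) ≤ X.κ * (X.C.Z * wsum (wtC s.2) (nds u [])) := by positivity
    simp only [List.length_nil]; push_cast; linarith
  | cons q l ih =>
    have cl := pth_cl (wf_bgOf h.wf i.cmb) hu p
    cases p with | @cons x _ e _ p a => ?_
    have nd' : r ∉ nds x l ∧ (nds x l).Nodup := List.nodup_cons.1 nd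
    have cx : isC X.G s.2 x := cl x (List.mem_cons_of_mem _ List.mem_cons_self)
    have cr : isC X.G s.2 r := cl r List.mem_cons_self
    have rx : r ≠ x := fun e => nd'.1 (e ▸ List.mem_cons_self)
    rw [List.length_cons] at ro
    refine ⟨Nat.zero_le _, (hr s N x e r i (ro.mono (by omega)) f cx a rt).bind ?_⟩
    rintro s1 t1 ⟨N1, i1, f1, d1, pt, tt⟩
    have k1 := d1.kp
    have off : ∀ y ∈ l.map Prod.fst, (bgOf X.G s1.2).mu y = (bgOf X.G s.2).mu y := fun y hy => by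
      rw [d1.mu y (cl y (List.mem_cons_of_mem _ (List.mem_cons_of_mem _ hy))),
        if_neg fun e : y = x => (List.nodup_cons.1 nd'.2).1 (e ▸ hy),
        if_neg fun e : y = r => nd'.1 (e ▸ List.mem_cons_of_mem _ hy)]
    have ro1 : X.RoomN s1 (10 * l.length + j) := by
      unfold RoomN at *; push_cast at *; linarith
    refine (ih i1 ro1 f1 (k1.isC ▸ hu) (pth_tr p fun q hq y => k1.arc rfl rfl rfl
      (off _ (List.mem_map_of_mem hq)) fun a e => ?_) nd'.2 (by rw [d1.mu x cx, if_pos rfl])).mono ?_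
    · have := (isBg_bgOf h.wf i.cmb).inner i.cmb
        (cl _ (List.mem_cons_of_mem _ (List.mem_cons_of_mem _ (List.mem_map_of_mem hq)))) e
      exact ⟨this.1, this.2.1⟩
    rintro s2 t2 ⟨N2, i2, ro2, f2, k2, m0, m1, m2, tt2⟩
    refine ⟨N2, i2, ro2, f2, k1.trans k2, m0, fun y z k => ?_, fun y cy ne k => ?_, ?_⟩
    · rcases k with ⟨rfl, rfl⟩ | k
      · rw [m2 y (k1.isC ▸ cr) (fun e => nd'.1 (e ▸ pth_mem p)) fun z k => nd'.1 k.mem.1,
          d1.mu y cr, if_neg rx, if_pos rfl]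
      · rw [m1 y z k, off z k.mem.2]
    · rw [m2 y (k1.isC ▸ cy) ne fun z c => k z (.inr c), d1.mu y cy, if_neg, if_neg]
      · exact fun e => k x (.inl ⟨e, rfl⟩)
      · rintro rfl
        cases p with
        | nil => exact ne rfl
        | cons => exact k _ (.inr (.inl ⟨rfl, rfl⟩))
    · rw [k1.wt] at tt2
      have : wsum (wtC s.2) (nds r ((x, e) :: l)) = wtC s.2 r + wsum (wtC s.2) (nds x l) := rfl
      rw [this, List.length_cons]; push_cast at *; linarith

/-- **AUGMENT** -/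
theorem augSpec (h : X.Ok) (hr : X.RotSpec rot) (hf : X.FinSpec fin) {Wa : ℕ} (hA : X.AugNum Wa) :
    X.AugSpec Wa (aug rot fin) := by
  intro s N o q p1 p2 ov i ro qu hQ nD s2 F r1 P2 n2 u2 r2 hW
  have lo : o < X.G.nd := i.q.lt o (hQ ▸ List.mem_cons_self)
  obtain ⟨s1, c1, c2, ne⟩ := ends_of_not_done h.wf i.cmb lo nD s2
  have l1 := len_le_wsum s.2 (nds p1.1 p1.2)
  have l2 := len_le_wsum s.2 (nds p2.1 p2.2)
  have w1 := le_wsum (wtC s.2) (pth_mem F.pth)
  have w2 := le_wsum (wtC s.2) (pth_mem P2)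
  simp only [nds, List.length_cons, List.length_map] at l1 l2
  change _ ≤ On.wsum _ (nds _ _) at l1 l2
  refine (sp_rots h hr (j := 10 * p2.2.length + 40 * (X.G.n + 1)) i (ro.mono (by omega))
    (RF.of_flo i.arcs (i.flo10 h qu) (by omega)) c1 F.pth F.nd r1).bind ?_
  rintro sa ta ⟨Na, ia, roa, fa, ka, m0, m1, m2, tta⟩
  have mu : ∀ y, isC X.G s.2 y → (bgOf X.G sa.2).mu y =
      (flip (bgOf X.G s.2) (s.2.cls.get (X.G.tl.get o)) ov).mu y := fun y cy => by
    by_cases e : y = s.2.cls.get (X.G.tl.get o)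
    · rw [e, m0, flip_u]
    by_cases c : ∃ x, Lk p1.1 p1.2 y x
    · obtain ⟨x, c⟩ := c; rw [m1 y x c, F.mu_lk c]
    · rw [m2 y cy e fun x k => c ⟨x, k⟩, F.mu_no e fun x k => c ⟨x, k⟩]
  have cl := pth_cl F.wf' c2 P2
  refine (sp_rots h hr ia roa fa (ka.isC ▸ c2) (pth_tr P2 fun p hp y => ka.arc
    (B := flip (bgOf X.G s.2) (s.2.cls.get (X.G.tl.get o)) ov) rfl rfl rfl
    (mu _ (cl _ (List.mem_cons_of_mem _ (List.mem_map_of_mem hp)))) fun a e => ?_) n2
    ((mu _ (cl _ List.mem_cons_self)).trans r2)).bind ?_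
  · obtain ⟨-, x, cx, e', -⟩ := F.src (cl _ (List.mem_cons_of_mem _ (List.mem_map_of_mem hp))) e
    have := (isBg_bgOf h.wf i.cmb).inner i.cmb cx e'
    exact ⟨this.1, this.2.1⟩
  rintro sb tb ⟨Nb, ib, rob, -, kb, n0, -, n2, ttb⟩
  have k := ka.trans kb
  refine (hf sb Nb o ib rob lo (k.st ▸ s1) (k.st ▸ s2) (k.cls ▸ ne) (k.cls ▸ ?_) (k.cls ▸ n0)).mono ?_
  · rw [n2 _ (ka.isC ▸ c1) ne fun x c => u2 c.mem.1, m0]
  rintro s' t ⟨N', i', tt⟩
  refine ⟨N', i', ?_⟩
  rw [k.wt, k.cls] at tt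
  rw [ka.wt] at ttb
  unfold AugNum at hA
  have hZ : (20000 : ℝ) ≤ X.C.Z := by exact_mod_cast h.Z_pos
  have hk : (1 : ℝ) ≤ X.κ := by have := h.κ_le; exact_mod_cast (by omega : 1 ≤ X.κ)
  have hL := h.Lg_nonneg
  have hb : (0 : ℝ) ≤ X.C.Ph * X.C.B / X.P.D := by positivity
  generalize wsum (wtC s.2) (nds p1.1 p1.2) = W1 at *
  generalize wsum (wtC s.2) (nds p2.1 p2.2) = W2 at *
  generalize wtC s.2 (s.2.cls.get (X.G.tl.get o)) = a1 at *
  generalize wtC s.2 (s.2.cls.get (X.G.hd o)) = a2 at *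
  have b1 : (p1.2.length + 1 + (p2.2.length + 1) : ℝ) ≤ Wa := by exact_mod_cast (by omega)
  have b2 : (W1 + W2 + 15 * (a1 + a2) : ℝ) ≤ 16 * Wa := by exact_mod_cast (by omega)
  have W0 : (0 : ℝ) ≤ Wa := by positivity
  have b3 : (Wa : ℝ) ≤ X.κ * (X.C.Z * Wa) :=
    (le_mul_of_one_le_left W0 (by linarith)).trans (le_mul_of_one_le_left (by positivity) hk)
  have b4 : (13 * X.C.Ph * X.C.B / X.P.D + 15 * (a1 + a2) + (W1 + W2) + Wa : ℝ) ≤
      20 * X.C.Ph * X.C.B / X.P.D + (X.Lg + 100) * (Wa + 10) := by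
    have : (0 : ℝ) ≤ X.Lg * (Wa + 10) := by positivity
    rw [mul_assoc, mul_div_assoc, mul_assoc, mul_div_assoc 20]; nlinarith
  have b5 := mul_le_mul_of_nonneg_left
    ((mul_le_mul_of_nonneg_left b4 (by positivity : (0 : ℝ) ≤ X.C.Z)).trans hA)
    (by positivity : (0 : ℝ) ≤ X.κ)
  push_cast; nlinarith

end Cx

end Crest.Agent.N325.P2
end

-- ▼ part N325/Ag/RotC
section

/-!
# Row 325, part II (helper96): ROT, the combinatorial side
-/

set_option autoImplicit false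
open Finset

namespace Crest.Agent.N325.P2

open Crest.Agent.N325.Tw Crest.Agent.N325.Ip Crest.Agent.N325.Mt Crest.Agent.N325.Bf
open Crest.Agent.N325.Dm Crest.Agent.N325.On Crest.Agent.N325.Op

/-- the situation before ROT -/
structure RH0 (G : Gf) (d : Dt) (a x b c e e' : ℕ) : Prop where
  wf : G.WF
  cm : Cmb G d
  he : e < G.nd
  he' : e' < G.nd
  tle : G.tl.get e = a
  hde : G.hd e = x
  tle' : G.tl.get e' = a
  hde' : G.hd e' = b
  mb : d.mt.get a = b
  cx : d.cls.get x = c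
  sa : d.st.get a = 1
  pr : d.pr.get (rv e) = true
  rt : d.mt.get (d.bs.get c) = d.bs.get c

/-- the situation before and after ROT -/
structure RH (G : Gf) (d d' : Dt) (a x b c e e' : ℕ) : Prop extends RH0 G d a x b c e e' where
  st' : d'.st = d.st
  cls' : d'.cls = d.cls
  mem' : d'.mem = d.mem
  cw' : d'.cw = d.cw
  Q' : d'.Q = d.Q
  bs' : ∀ y, d'.bs.get y = if y = c then x else d.bs.get y
  pr' : ∀ p, d'.pr.get p = if p = rv e' then true else if p = rv e then false else d.pr.get p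
  mb' : d'.mt.get b = b
  ma' : d'.mt.get a = x
  mx' : d'.mt.get x = a
  mS : ∀ v ∈ d.mem.get c, v ≠ x → d'.mt.get v ∈ d.mem.get c ∧ d'.mt.get v ≠ x ∧
    d'.mt.get v ≠ v ∧ d'.mt.get (d'.mt.get v) = v ∧ G.E v (d'.mt.get v)
  mo : ∀ v, v ∉ d.mem.get c → v ≠ a → v ≠ b → d'.mt.get v = d.mt.get v

variable {G : Gf} {d d' : Dt} {a x b c e e' : ℕ}

namespace RH0
variable (h : RH0 G d a x b c e e')
include h

theorem a_lt : a < G.n := h.tle ▸ h.wf.tl_lt e h.he
theorem x_lt : x < G.n := h.hde ▸ h.wf.hd_lt h.he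
theorem b_lt : b < G.n := h.hde' ▸ h.wf.hd_lt h.he'
theorem sx : d.st.get x = 2 := h.hde ▸ (h.cm.pr _ (h.wf.rv_lt h.he) h.pr).1
theorem mx : d.mt.get x ≠ a := by
  have := (h.cm.pr _ (h.wf.rv_lt h.he) h.pr).2.2
  rwa [Gf.tl_rv, Gf.hd_rv, h.hde, h.tle] at this
theorem sb : d.st.get b = 2 := h.mb ▸ (h.cm.inn a h.a_lt h.sa).1
theorem bb : d.bs.get (d.cls.get b) = b := h.mb ▸ (h.cm.inn a h.a_lt h.sa).2
theorem mtb : d.mt.get b = a := h.mb ▸ h.cm.mt_mt h.a_lt
theorem ab : a ≠ b := fun k => by have := h.sa; have := h.sb; rw [← k] at this; omega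
theorem ax : a ≠ x := fun k => by have := h.sa; have := h.sx; rw [← k] at this; omega
theorem xb : x ≠ b := fun k => h.mx (k ▸ h.mtb)
theorem isc : isC G d c := h.cx ▸ h.cm.out x h.x_lt h.sx
theorem isb : isC G d (d.cls.get b) := h.cm.out b h.b_lt h.sb
theorem mem_iff {v : ℕ} : v ∈ d.mem.get c ↔ v < G.n ∧ d.st.get v = 2 ∧ d.cls.get v = c :=
  h.cm.mem c h.isc v
theorem xm : x ∈ d.mem.get c := h.mem_iff.2 ⟨h.x_lt, h.sx, h.cx⟩
theorem rm : d.bs.get c ∈ d.mem.get c := (h.cm.bs c h.isc).1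
theorem cb : d.cls.get b ≠ c := fun k => by
  have a1 := h.bb; have a2 := h.rt
  rw [k] at a1; rw [a1, h.mtb] at a2; exact h.ab a2
theorem am : a ∉ d.mem.get c := fun k => by have := (h.mem_iff.1 k).2.1; have := h.sa; omega
theorem bm : b ∉ d.mem.get c := fun k => h.cb (h.mem_iff.1 k).2.2
theorem ee : rv e ≠ rv e' := fun k => by
  have := congrArg rv k
  rw [rv_rv, rv_rv] at this
  exact h.xb (by rw [← h.hde, ← h.hde', this])
theorem pr0 : d.pr.get (rv e') = false := by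
  by_contra k
  have := (h.cm.pr _ (h.wf.rv_lt h.he') (by simpa using k)).2.2
  rw [Gf.tl_rv, Gf.hd_rv, h.hde', h.tle'] at this
  exact this h.mtb
/-- the class is closed under the old matching -/
theorem mt_mem {v : ℕ} (k : v ∈ d.mem.get c) : d.mt.get v ∈ d.mem.get c := by
  by_cases q : v = d.bs.get c
  · rw [q, h.rt]; exact h.rm
  · exact (h.cm.inside c h.isc v k q).1
theorem mt_notMem {v : ℕ} (hv : v < G.n) (k : v ∉ d.mem.get c) : d.mt.get v ∉ d.mem.get c :=
  fun q => k (h.cm.mt_mt hv ▸ h.mt_mem q)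
theorem eq_o {p : ℕ} (hp : p < G.nd) (k1 : G.tl.get p = x) (k2 : G.hd p = a) : p = rv e :=
  h.wf.simple p hp _ (h.wf.rv_lt h.he) (by rw [k1, Gf.tl_rv, h.hde]) (by rw [k2, Gf.hd_rv, h.tle])
theorem eq_o' {p : ℕ} (hp : p < G.nd) (k1 : G.tl.get p = b) (k2 : G.hd p = a) : p = rv e' :=
  h.wf.simple p hp _ (h.wf.rv_lt h.he') (by rw [k1, Gf.tl_rv, h.hde'])
    (by rw [k2, Gf.hd_rv, h.tle'])

/-- the hypotheses of `rebase` -/
theorem isP : IsP ((d.mem.get c).toFinset.erase (d.bs.get c)) G.E d.mt.get := by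
  refine ⟨fun v hv => ?_, fun v hv => ?_⟩ <;>
    obtain ⟨k1, k2⟩ := mem_erase.1 hv <;> rw [List.mem_toFinset] at k2
  · have lt := (h.mem_iff.1 k2).1
    refine ⟨mem_erase.2 ⟨fun q => k1 ?_, List.mem_toFinset.2 (h.mt_mem k2)⟩, h.cm.mt_mt lt,
      h.cm.isM.adj (mem_range.2 lt)⟩
    rw [← h.cm.mt_mt lt, q, h.rt]
  · exact (h.cm.inside c h.isc v k2 k1).2

theorem rh {m1 : Arr ℕ} (p : IsP ((d.mem.get c).toFinset.erase x) G.E m1.get)
    (o : ∀ v, v ∉ (d.mem.get c).toFinset.erase x → m1.get v = d.mt.get v) :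
    RH G d (rotD G d m1 e e') a x b c e e' := by
  have ab := h.ab; have ax := h.ax; have xb := h.xb
  have M : ∀ v, (rotD G d m1 e e').mt.get v =
      if v = b then b else if v = a then x else if v = x then a else m1.get v := fun v => by
    simp only [rotD, h.tle, h.hde, h.mb, Arr.get_set]
  have S : ∀ v ∈ d.mem.get c, v ≠ x → (rotD G d m1 e e').mt.get v = m1.get v := fun v k q => by
    rw [M, if_neg fun z : v = b => h.bm (z ▸ k), if_neg fun z : v = a => h.am (z ▸ k), if_neg q]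
  refine { h with
    st' := rfl, cls' := rfl, mem' := rfl, cw' := rfl, Q' := rfl
    bs' := fun y => by simp only [rotD, h.hde, h.cx, Arr.get_set]
    pr' := fun p => by simp only [rotD, Arr.get_set]
    mb' := by rw [M, if_pos rfl]
    ma' := by rw [M, if_neg ab, if_pos rfl]
    mx' := by rw [M, if_neg xb, if_neg ax.symm, if_pos rfl]
    mS := fun v k q => ?_
    mo := fun v k q1 q2 => ?_ }
  · have hv : v ∈ (d.mem.get c).toFinset.erase x := mem_erase.2 ⟨q, List.mem_toFinset.2 k⟩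
    obtain ⟨k1, k2⟩ := mem_erase.1 (p.1.mem hv)
    rw [List.mem_toFinset] at k2
    rw [S v k q, S _ k2 k1]
    exact ⟨k2, k1, p.2 v hv, p.1.inv hv, p.adj hv⟩
  · rw [M, if_neg q2, if_neg q1, if_neg fun z : v = x => k (z ▸ h.xm)]
    exact o v fun z => k (List.mem_toFinset.1 (mem_of_mem_erase z))

end RH0

namespace RH
variable (h : RH G d d' a x b c e e')
include h

theorem isC_iff {y : ℕ} : isC G d' y ↔ isC G d y := by simp only [isC, h.st', h.cls']

theorem isM : IsM (range G.n) G.E d'.mt.get := by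
  have h0 := h.toRH0
  have ea : G.E a x := ⟨e, h.he, h.tle, h.hde⟩
  intro v hv
  rw [mem_range] at hv ⊢
  by_cases k1 : v = b
  · rw [k1, h.mb', h.mb']; exact ⟨h0.b_lt, rfl, fun q => absurd rfl q⟩
  by_cases k2 : v = a
  · rw [k2, h.ma', h.mx']; exact ⟨h0.x_lt, rfl, fun _ => ea⟩
  by_cases k3 : v = x
  · rw [k3, h.mx', h.ma']; exact ⟨h0.a_lt, rfl, fun _ => h.wf.symm _ _ ea⟩
  by_cases k4 : v ∈ d.mem.get c
  · obtain ⟨p1, -, -, p4, p5⟩ := h.mS v k4 k3
    exact ⟨(h0.mem_iff.1 p1).1, p4, fun _ => p5⟩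
  · have q := h.cm.mt_mt hv
    rw [h.mo v k4 k2 k1, h.mo _ (h0.mt_notMem hv k4) (fun z => k1 (by rw [← q, z, h.mb]))
      fun z => k2 (by rw [← q, z, h0.mtb])]
    exact ⟨h.cm.mt_lt hv, q, h.cm.isM.adj (mem_range.2 hv)⟩

/-- vertices that are not outer, other than `a` -/
theorem mo2 {v : ℕ} (k : d.st.get v ≠ 2) (q : v ≠ a) : d'.mt.get v = d.mt.get v :=
  h.mo v (fun z => k (h.toRH0.mem_iff.1 z).2.1) q fun z => k (z ▸ h.toRH0.sb)
/-- outer vertices of other classes, other than `b` -/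
theorem mo3 {v : ℕ} (s : d.st.get v = 2) (k : d.cls.get v ≠ c) (q : v ≠ b) :
    d'.mt.get v = d.mt.get v :=
  h.mo v (fun z => k (h.toRH0.mem_iff.1 z).2.2) (fun z => by have := h.sa; rw [← z] at this; omega) q

theorem cmb : Cmb G d' := by
  have h0 := h.toRH0
  have c0 := h.cm
  refine ⟨h.isM, ?_, ?_, fun v hv s => ?_, fun v hv s => ?_, ?_, ?_, ?_, ?_, fun y hy => ?_,
    fun y hy v hv q => ?_, ?_, fun p hp k => ?_⟩
  · rw [h.st']; exact c0.st_le
  · rw [h.st', h.cls']; exact c0.cls_ne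
  · rw [h.st'] at s ⊢
    rw [h.mo2 (by omega) fun z => by have := h.sa; rw [← z] at this; omega]
    exact c0.unl v hv s
  · rw [h.st'] at s ⊢
    rw [h.cls', h.bs']
    by_cases k : v = a
    · rw [k, h.ma', h.cx, if_pos rfl]; exact ⟨h0.sx, rfl⟩
    · obtain ⟨p1, p2⟩ := c0.inn v hv s
      rw [h.mo2 (by omega) k, if_neg fun z => ?_]
      · exact ⟨p1, p2⟩
      · have := h0.mt_mem (h0.mem_iff.2 ⟨c0.mt_lt hv, p1, z⟩)
        rw [c0.mt_mt hv] at this
        have := (h0.mem_iff.1 this).2.1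
        omega
  · simp only [h.isC_iff, h.st', h.cls']; exact c0.out
  · simp only [h.isC_iff, h.mem']; exact c0.nodup
  · simp only [h.isC_iff, h.mem', h.st', h.cls']; exact c0.mem
  · simp only [h.isC_iff, h.mem', h.cw']; exact c0.cw
  · rw [h.isC_iff] at hy
    rw [h.bs', h.mem', h.st']
    by_cases k : y = c
    · rw [if_pos k, k, h.mx']; exact ⟨h0.xm, .inr h.sa⟩
    · obtain ⟨p1, p2⟩ := c0.bs y hy
      obtain ⟨-, p3, p4⟩ := (c0.mem y hy _).1 p1
      rw [if_neg k]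
      by_cases q : d.bs.get y = b
      · exact ⟨p1, .inl (by rw [q, h.mb'])⟩
      · rw [h.mo3 p3 (p4.trans_ne k) q]; exact ⟨p1, p2⟩
  · rw [h.isC_iff] at hy
    rw [h.mem'] at hv ⊢
    rw [h.bs'] at q
    by_cases k : y = c
    · rw [if_pos k] at q
      rw [k] at hv ⊢
      exact ⟨(h.mS v hv q).1, (h.mS v hv q).2.2.1⟩
    · rw [if_neg k] at q
      obtain ⟨-, p3, p4⟩ := (c0.mem y hy _).1 hv
      rw [h.mo3 p3 (p4 ▸ k) fun z => q (by rw [← p4, z, h0.bb])]
      exact c0.inside y hy v hv q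
  · simp only [h.isC_iff, h.mem']; exact c0.fc
  · rw [h.st']
    rw [h.pr'] at k
    by_cases k1 : p = rv e'
    · rw [k1, Gf.tl_rv, Gf.hd_rv, h.hde', h.tle', h.mb']
      exact ⟨h0.sb, by have := h.sa; omega, h0.ab.symm⟩
    rw [if_neg k1] at k
    by_cases k2 : p = rv e
    · rw [if_pos k2] at k; cases k
    rw [if_neg k2] at k
    obtain ⟨p1, p2, p3⟩ := c0.pr p hp k
    refine ⟨p1, p2, fun z => ?_⟩
    by_cases q1 : G.tl.get p = b
    · rw [q1, h.mb'] at z; exact h.wf.ne p hp (q1.trans z)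
    by_cases q2 : G.tl.get p = x
    · rw [q2, h.mx'] at z; exact k2 (h0.eq_o hp q2 z.symm)
    by_cases q3 : d.cls.get (G.tl.get p) = c
    · have := (h.mS _ (h0.mem_iff.2 ⟨h.wf.tl_lt p hp, p1, q3⟩) q2).1
      rw [z] at this
      exact p2 (h0.mem_iff.1 this).2.1
    · exact p3 (h.mo3 p1 q3 q1 ▸ z)

theorem done {p : ℕ} (hp : p < G.nd) (k : Done G d p) : Done G d' p := by
  have h0 := h.toRH0
  unfold Done at k ⊢
  rw [h.st', h.cls', h.pr']
  by_cases s : d.st.get (G.tl.get p) = 2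
  swap
  · exact .inl s
  by_cases k1 : p = rv e'
  · exact .inr (.inl (if_pos k1))
  by_cases k2 : p = rv e
  · exact .inr (.inr (.inl (by rw [k2, Gf.tl_rv, Gf.hd_rv, h.hde, h.tle, h.mx'])))
  rw [if_neg k1, if_neg k2]
  rcases k with k | k | k | k
  · exact .inl k
  · exact .inr (.inl k)
  · by_cases q1 : G.tl.get p = b
    · rw [q1, h0.mtb] at k; exact absurd (h0.eq_o' hp q1 k.symm) k1
    by_cases q3 : d.cls.get (G.tl.get p) = c
    · have := h0.mt_mem (h0.mem_iff.2 ⟨h.wf.tl_lt p hp, s, q3⟩)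
      rw [k, h0.mem_iff] at this
      exact .inr (.inr (.inr ⟨this.2.1, this.2.2.trans q3.symm⟩))
    · exact .inr (.inr (.inl (h.mo3 s q3 q1 ▸ k)))
  · exact .inr (.inr (.inr k))

theorem qok (q : QOk G d) : QOk G d' := by
  refine ⟨h.Q' ▸ q.lt, fun p hp => ?_⟩
  rw [h.Q', h.st']
  exact (q.cmp p hp).imp_right fun k => k.imp_left (h.done hp)

/-- members of the old root class are matched now -/
theorem mS_ne {v : ℕ} (k : v ∈ d.mem.get c) : d'.mt.get v ≠ v := by
  by_cases q : v = x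
  · rw [q, h.mx']; exact h.toRH0.ax
  · exact (h.mS v k q).2.2.1

/-- the exposed vertices -/
theorem exp_iff {v : ℕ} :
    d'.mt.get v = v ↔ v = b ∨ (v ≠ d.bs.get c ∧ d.mt.get v = v) := by
  have h0 := h.toRH0
  by_cases k1 : v = b
  · simp [k1, h.mb']
  by_cases k2 : v = a
  · rw [k2, h.ma', h.mb]
    simp [h0.ab, h0.ab.symm, h0.ax.symm]
  by_cases k3 : v ∈ d.mem.get c
  · refine ⟨fun z => absurd z (h.mS_ne k3), fun z => ?_⟩
    obtain ⟨z1, z2⟩ := z.resolve_left k1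
    exact absurd z2 (h.cm.inside c h0.isc v k3 z1).2
  · rw [h.mo v k3 k2 k1]
    exact ⟨fun z => .inr ⟨fun y => k3 (y ▸ h0.rm), z⟩, fun z => (z.resolve_left k1).2⟩

theorem ex_eq : ex (range G.n) d'.mt.get = ex (range G.n) d.mt.get := by
  have h0 := h.toRH0
  have r : d.bs.get c ∈ exs (range G.n) d.mt.get :=
    mem_exs.2 ⟨mem_range.2 (h0.mem_iff.1 h0.rm).1, h.rt⟩
  have : exs (range G.n) d'.mt.get = insert b ((exs (range G.n) d.mt.get).erase (d.bs.get c)) := by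
    ext v
    simp only [mem_exs, mem_insert, mem_erase, mem_range]
    refine ⟨fun z => (h.exp_iff.1 z.2).imp_right fun y => ⟨y.1, z.1, y.2⟩, fun z => ?_⟩
    rcases z with z | z
    · exact ⟨z ▸ h0.b_lt, z ▸ h.mb'⟩
    · exact ⟨z.2.1, h.exp_iff.2 (.inr ⟨z.1, z.2.2⟩)⟩
  rw [ex, this, card_insert_of_notMem fun z => h0.ab ?_, card_erase_add_one r, ex]
  rw [← h0.mtb]; exact (mem_exs.1 (mem_of_mem_erase z)).2

theorem rotD : RotD G d d' (d.cls.get b) c := by
  have h0 := h.toRH0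
  refine ⟨h.st', h.cls', h.mem', h.cw', h.Q', fun y hy => ?_, fun v hv s p hp => ?_, h.ex_eq⟩
  · simp only [bgOf, h.bs']
    by_cases k1 : y = d.cls.get b
    · rw [if_pos k1, k1, if_neg h0.cb, h0.bb, h.mb', if_pos rfl]
    rw [if_neg k1]
    by_cases k2 : y = c
    · rw [if_pos k2, if_pos k2, h.mx', if_neg h0.ax, h0.bb, h0.mtb, if_neg h0.ab]
    · obtain ⟨-, p3, p4⟩ := (h.cm.mem y hy _).1 (h.cm.bs y hy).1
      rw [if_neg k2, if_neg k2, h.mo3 p3 (p4.trans_ne k2) fun z => k1 (by rw [← p4, z])]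
  · obtain ⟨p1, p2⟩ := (h.wf.mem v hv p).1 hp
    have inj : ∀ q, rv p = rv q → p = q := fun q z => by rw [← rv_rv p, z, rv_rv]
    simp only [bgOf, h.pr']
    by_cases k : v = a
    · rw [k, h.ma', h.mb]
      by_cases k1 : p = e'
      · simp [k1, h.hde']
      by_cases k2 : p = e
      · simp [k2, h.hde, h.pr]
      have n1 : G.hd p ≠ x := fun z =>
        k2 (h.wf.simple p p1 e h.he (by rw [p2, k, h.tle]) (by rw [z, h.hde]))
      have n2 : G.hd p ≠ b := fun z =>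
        k1 (h.wf.simple p p1 e' h.he' (by rw [p2, k, h.tle']) (by rw [z, h.hde']))
      rw [if_neg fun z => k1 (inj _ z), if_neg fun z => k2 (inj _ z)]
      simp [n1, n2]
    · rw [if_neg fun z => k (by rw [← p2, inj _ z, h.tle']),
        if_neg fun z => k (by rw [← p2, inj _ z, h.tle]), h.mo2 (by omega) k]

/-- the arcs that are not touched -/
theorem off {D : ℕ} {C : Cf} {i : ℕ} (k1 : i ≠ 5 * d.bs.get c + 1) (k2 : i ≠ 5 * rv e)
    (k3 : i ≠ 5 * a + 1) (k4 : i ≠ 5 * b + 1) (k5 : i ≠ 5 * rv e') :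
    (has G d' i ↔ has G d i) ∧ (has G d i → arcOf D C G d' i = arcOf D C G d i) := by
  have h0 := h.toRH0
  obtain ⟨v, rfl | rfl | rfl | rfl | rfl⟩ := id_cases i
  · rw [has0, has0, arcOf0, arcOf0, h.pr', if_neg (by omega), if_neg (by omega)]
    exact ⟨Iff.rfl, fun _ => by rw [aP, aP, h.cls']⟩
  · rw [has1, has1, arcOf1, arcOf1, h.st']
    refine ⟨and_congr_right fun hv => or_congr_right ?_, fun z => ?_⟩
    · rw [h.exp_iff]
      exact ⟨fun z => (z.resolve_left (by omega)).2, fun z => .inr ⟨by omega, z⟩⟩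
    · rw [aE, aE, h.cls', h.mo v (fun y => ?_) (by omega) (by omega)]
      rcases z.2 with z | z
      · have := (h0.mem_iff.1 y).2.1; omega
      · exact (h.cm.inside c h0.isc v y (by omega)).2 z
  · rw [has2, has2, arcOf2, arcOf2, h.cw']; exact ⟨h.isC_iff, fun _ => rfl⟩
  · rw [has3, has3, arcOf3, arcOf3, h.st']; exact ⟨Iff.rfl, fun _ => rfl⟩
  · rw [has4, has4, arcOf4, arcOf4, h.st']; exact ⟨Iff.rfl, fun _ => rfl⟩

end RH

end Crest.Agent.N325.P2
end

-- ▼ part N325/Ag/RotF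
section

/-!
# Row 325, part II (helper96): ROT, the flows, and `rotSpec`
-/

set_option autoImplicit false
open Finset

namespace Crest.Agent.N325.P2

open Crest.Agent.N325.Tw Crest.Agent.N325.Ip Crest.Agent.N325.Mt Crest.Agent.N325.Bf
open Crest.Agent.N325.Dm Crest.Agent.N325.On Crest.Agent.N325.Op

section net
variable {N : Net} {v e f : ℕ}

/-- an arc into a node with one arc out of it -/
theorem le_of_out (c : Cons N) (pos : ∀ i ∈ N.E, 0 ≤ N.X i) (hv : v ≠ 0) (he : e ∈ N.E)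
    (hb : (N.arc e).b = v) (hf : f ∈ N.E) (u : ∀ i ∈ N.E, (N.arc i).a = v → i = f) :
    N.X e ≤ N.X f := by
  have a := c v hv
  rw [dv_eq] at a
  have b : N.X e ≤ inf N v :=
    single_le_sum (f := N.X) (fun i k => pos i (mem_filter.1 k).1) (mem_filter.2 ⟨he, hb⟩)
  have d : ouf N v ≤ ∑ i ∈ {f}, N.X i := sum_le_sum_of_subset_of_nonneg
    (fun i k => mem_singleton.2 (u i (mem_filter.1 k).1 (mem_filter.1 k).2))
    fun i k _ => mem_singleton.1 k ▸ pos f hf
  rw [sum_singleton] at d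
  omega

/-- an arc out of a node with one arc into it -/
theorem le_of_in (c : Cons N) (pos : ∀ i ∈ N.E, 0 ≤ N.X i) (hv : v ≠ 0) (he : e ∈ N.E)
    (ha : (N.arc e).a = v) (hf : f ∈ N.E) (u : ∀ i ∈ N.E, (N.arc i).b = v → i = f) :
    N.X e ≤ N.X f := by
  have a := c v hv
  rw [dv_eq] at a
  have b : N.X e ≤ ouf N v :=
    single_le_sum (f := N.X) (fun i k => pos i (mem_filter.1 k).1) (mem_filter.2 ⟨he, ha⟩)
  have d : inf N v ≤ ∑ i ∈ {f}, N.X i := sum_le_sum_of_subset_of_nonneg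
    (fun i k => mem_singleton.2 (u i (mem_filter.1 k).1 (mem_filter.1 k).2))
    fun i k _ => mem_singleton.1 k ▸ pos f hf
  rw [sum_singleton] at d
  omega

variable {D : ℕ} {C : Cf} {G : Gf} {d : Dt}

/-- the only arc out of an inner vertex -/
theorem Arcs.out_inner (A : Arcs D C G d N) (hG : G.WF) (cm : Cmb G d) (s : d.st.get v = 1) :
    ∀ i ∈ N.E, (N.arc i).a = v + 1 → i = 5 * v + 1 := by
  intro i hi k
  rw [A.arc i hi] at k
  rw [A.mem] at hi
  obtain ⟨w, rfl | rfl | rfl | rfl | rfl⟩ := id_cases i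
  · rw [has0] at hi
    have := (cm.out _ (hG.tl_lt w hi.1) (cm.pr w hi.1 hi.2).1).2.1
    simp only [arcOf0, aP, capA, Nat.add_right_cancel_iff] at k
    rw [k] at this; omega
  · simp only [arcOf1, aE, capA] at k; split_ifs at k; omega
  · rw [has2] at hi
    have := hi.2.1
    simp only [arcOf2, snkA, Nat.add_right_cancel_iff] at k
    rw [k] at this; omega
  · simp only [arcOf3, aG] at k; omega
  · rw [has4] at hi
    simp only [arcOf4, aU, Nat.add_right_cancel_iff] at k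
    rw [k] at hi; omega

/-- the only arc into a root class -/
theorem Arcs.in_root (A : Arcs D C G d N) (cm : Cmb G d) (hc : isC G d v)
    (rt : d.mt.get (d.bs.get v) = d.bs.get v) :
    ∀ i ∈ N.E, (N.arc i).b = v + 1 → i = 5 * d.bs.get v + 1 := by
  intro i hi k
  have sv := hc.2.1
  rw [A.arc i hi] at k
  rw [A.mem] at hi
  obtain ⟨w, rfl | rfl | rfl | rfl | rfl⟩ := id_cases i
  · rw [has0] at hi
    simp only [arcOf0, aP, capA, Nat.add_right_cancel_iff] at k
    exact absurd (k ▸ sv) (cm.pr w hi.1 hi.2).2.1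
  · rw [has1] at hi
    simp only [arcOf1, aE, capA, Nat.add_right_cancel_iff] at k
    rcases hi.2 with q | q
    · have := (cm.inn w hi.1 q).2
      rw [k] at this
      rw [this, cm.mt_mt hi.1] at rt
      rw [this, ← rt]
    · rw [q] at k
      by_contra z
      have s : d.st.get w = 2 := by
        by_contra s
        rw [cm.cls_ne w hi.1 s] at k
        exact s (k ▸ sv)
      exact (cm.inside v hc w ((cm.mem v hc w).2 ⟨hi.1, s, k⟩) fun y => z (by rw [y])).2 q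
  · simp only [arcOf2, snkA] at k; omega
  · rw [has3] at hi
    simp only [arcOf3, aG, Nat.add_right_cancel_iff] at k
    exact absurd (k ▸ sv) hi.2
  · simp only [arcOf4, aU] at k; omega
end net

namespace Cx
variable {T : Type} {X : Cx T} {s : St T} {N : Net} {d d' : Dt} {a x b c e e' : ℕ}

theorem sp_rotF (h : X.Ok) (H : RH X.G d d' a x b c e e') (hI : X.I s N)
    (hA : Arcs X.P.D X.C X.G d N) (hR : RF X.C X.G d N)
    (hF : X.Φ s + 10 * (2 * X.k.AU) ≤ X.Bd.F) :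
    Sp X.g (rotF X.toEnv s d d' e e') fun s' t => ∃ N' n, X.I s' N' ∧
      Up X.k X.Φ s s' N N' n t (10 * (2 * X.k.AU) + 12) ∧ 12 ≤ t ∧
      Arcs X.P.D X.C X.G d' N' ∧ RF X.C X.G d' N' ∧
      pot X.P X.Bd N' ≤ pot X.P X.Bd N + (6 * X.Lg + 1) := by
  have h0 := H.toRH0
  have cm := H.cm
  have cm' := H.cmb
  obtain ⟨r, hr⟩ : ∃ r, d.bs.get c = r := ⟨_, rfl⟩
  have rm := hr ▸ h0.rm
  have rt := hr ▸ H.rt
  obtain ⟨rl, rs, rc⟩ := h0.mem_iff.1 rm
  have al := h0.a_lt; have bl := h0.b_lt; have cl := h0.isc.1; have sa := H.sa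
  have ol := H.wf.rv_lt H.he; have ol' := H.wf.rv_lt H.he'
  have ab := h0.ab; have ee := h0.ee; have cb := h0.cb
  have ra : r ≠ a := fun z => h0.am (z ▸ rm)
  have rb : r ≠ b := fun z => h0.bm (z ▸ rm)
  have ca : c ≠ a := fun z => by have := h0.isc.2.1; rw [z] at this; omega
  have ba : d.cls.get b ≠ a := fun z => by have := h0.isb.2.1; rw [z] at this; omega
  have nM := h.n_le_M; have MX := h.M_le_X; have nd := H.wf.nd_le; have BM := h.BD_le
  have lp := h.lam_pos; have lD := h.lam_le'; have BD := h.B.2; have sl := h.sm.2.2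
  -- the old arcs
  have m1 : 5 * r + 1 ∈ N.E := (hA.mem _).2 (has1.2 ⟨rl, .inr rt⟩)
  have m2 : 5 * rv e ∈ N.E := (hA.mem _).2 (has0.2 ⟨ol, H.pr⟩)
  have m3 : 5 * a + 1 ∈ N.E := (hA.mem _).2 (has1.2 ⟨al, .inl sa⟩)
  have m4 : 5 * b + 1 ∉ N.E := fun z => by
    have := (has1.1 ((hA.mem _).1 z)).2
    rw [h0.sb, h0.mtb] at this; omega
  have m5 : 5 * rv e' ∉ N.E := fun z => by
    have := (has0.1 ((hA.mem _).1 z)).2
    rw [h0.pr0] at this; cases this
  have m6 : 5 * c + 2 ∈ N.E := (hA.mem _).2 (has2.2 h0.isc)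
  have a1 : N.arc (5 * r + 1) = capA 0 (c + 1) X.C.B := by
    rw [hA.arc _ m1, arcOf1, aE, rt, if_pos rfl, rc]
  have a2 : N.arc (5 * rv e) = capA (c + 1) (a + 1) X.C.M := by
    rw [hA.arc _ m2, arcOf0, aP, Gf.tl_rv, Gf.hd_rv, H.hde, H.tle, H.cx]
  have a3 : N.arc (5 * a + 1) = capA (a + 1) (d.cls.get b + 1) X.C.B := by
    rw [hA.arc _ m3, arcOf1, aE, H.mb, if_neg ab.symm]
  have a6 : N.arc (5 * c + 2) = snkA X.C c (d.cw.get c + 1) := by rw [hA.arc _ m6, arcOf2]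
  -- the new arcs
  have n3 : has X.G d' (5 * a + 1) := has1.2 ⟨al, .inl (H.st' ▸ sa)⟩
  have n4 : has X.G d' (5 * b + 1) := has1.2 ⟨bl, .inr H.mb'⟩
  have n5 : has X.G d' (5 * rv e') := has0.2 ⟨ol', by rw [H.pr', if_pos rfl]⟩
  have n6 : has X.G d' (5 * c + 2) := has2.2 (H.isC_iff.2 h0.isc)
  have b3 : aE X.C d' a = capA (a + 1) (c + 1) X.C.B := by
    rw [aE, H.ma', if_neg h0.ax.symm, H.cls', H.cx]
  have b4 : aE X.C d' b = capA 0 (d.cls.get b + 1) X.C.B := by rw [aE, H.mb', if_pos rfl, H.cls']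
  have b5 : aP X.C X.G d' (rv e') = capA (d.cls.get b + 1) (a + 1) X.C.M := by
    rw [aP, Gf.tl_rv, Gf.hd_rv, H.hde', H.tle', H.cls']
  have b6 : arcOf X.P.D X.C X.G d' (5 * c + 2) = snkA X.C c (d.cw.get c + 1) := by
    rw [arcOf2, H.cw']
  have w3 := h.wd cm' n3; have w4 := h.wd cm' n4; have w5 := h.wd cm' n5; have w6 := h.wd cm' n6
  have v3 := h.arc cm' n3; have v4 := h.arc cm' n4; have v5 := h.arc cm' n5; have v6 := h.arc cm' n6
  rw [arcOf1] at w3 w4 v3 v4
  rw [arcOf0] at w5 v5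
  rw [b6] at w6 v6
  -- the flows
  have pos : ∀ i ∈ N.E, 0 < N.X i := fun i hi => by
    have := (Inv.pos h hI hi).1
    rw [hA.arc i hi, arcOf_o1] at this; omega
  have pos' : ∀ i ∈ N.E, 0 ≤ N.X i := fun i hi => (pos i hi).le
  have f1 := hR.rt r rl rt
  have f2 := hR.pl _ ol H.pr
  have f3 := hR.inn a al sa
  have f4 : N.X (5 * rv e) ≤ N.X (5 * a + 1) := le_of_out hA.cons pos' (Nat.succ_ne_zero a) m2
    (by rw [a2]; rfl) m3 (hA.out_inner H.wf cm sa)
  have f5 : N.X (5 * c + 2) ≤ N.X (5 * r + 1) := le_of_in hA.cons pos' (Nat.succ_ne_zero c) m6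
    (by rw [a6]; rfl) m1 (hr ▸ hA.in_root cm h0.isc H.rt)
  have f6 := pos _ m6
  have d6 := (h.ip.view hI _ m6).2.2.1
  have g3 : Big X.P (aE X.C d' a) (X.C.B - X.C.lam - N.X (5 * rv e)) :=
    h.big rfl (by omega) (by simp only [aE, capA]; omega)
  have g4 : Big X.P (aE X.C d' b) (X.C.B - X.C.lam) :=
    h.big rfl (by omega) (by simp only [aE, capA]; omega)
  have g5 : Big X.P (aP X.C X.G d' (rv e')) (X.C.B - X.C.lam - N.X (5 * a + 1)) :=
    h.big rfl (by omega) (by simp only [aP, capA]; omega)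
  have g6 : Dom X.Bd (snkA X.C c (d.cw.get c + 1))
      (N.X (5 * c + 2) + (X.C.B - X.C.lam - N.X (5 * r + 1))) := by
    have := h.sm.2.1
    rw [a6] at d6
    simp only [Dom, snkA] at d6 ⊢; omega
  simp only [rotF, sp_bind, sp_nat, H.hde, H.tle, H.cx, H.mb, hr]
  refine ⟨by omega, by omega, by omega, by omega, by omega, by omega, ?_⟩
  refine (sp_gets h.ip hI (l := [5 * r + 1, 5 * rv e, 5 * a + 1, 5 * c + 2]) (Arr.cst 0)
    (by simp only [List.length_cons, List.length_nil]; push_cast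
        have : (0 : ℝ) ≤ X.k.AU := by positivity
        linarith)
    (by simp [m1, m2, m3, m6])).foldL_ge.mono fun u t1 ⟨⟨i1, gu, n1, _, u1⟩, t1l⟩ => ?_
  rw [gu, gu, gu, gu, if_pos (by simp), if_pos (by simp), if_pos (by simp), if_pos (by simp)]
  simp only [sp_int]
  refine ⟨by omega, by omega, by omega, by omega, ?_⟩
  refine (sp_arcN w3).mono fun A3 _ ⟨e3, z3⟩ => (sp_arcN w4).mono fun A4 _ ⟨e4, z4⟩ =>
    (sp_arcN w5).mono fun A5 _ ⟨e5, z5⟩ => (sp_arcN w6).mono fun A6 _ ⟨e6, z6⟩ => ?_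
  subst e3 e4 e5 e6
  obtain ⟨l, hl⟩ : ∃ l : List Ox, l = [(5 * r + 1, true, none), (5 * rv e, true, none),
    (5 * a + 1, true, some (aE X.C d' a, X.C.B - X.C.lam - N.X (5 * rv e))),
    (5 * b + 1, false, some (aE X.C d' b, X.C.B - X.C.lam)),
    (5 * rv e', false, some (aP X.C X.G d' (rv e'), X.C.B - X.C.lam - N.X (5 * a + 1))),
    (5 * c + 2, true, some (snkA X.C c (d.cw.get c + 1),
      N.X (5 * c + 2) + (X.C.B - X.C.lam - N.X (5 * r + 1))))] := ⟨_, rfl⟩
  rw [← hl]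
  have ll : l.length = 6 := by rw [hl]; rfl
  have lm : ∀ i, i ∈ l.map Prod.fst ↔ i = 5 * r + 1 ∨ i = 5 * rv e ∨ i = 5 * a + 1 ∨
      i = 5 * b + 1 ∨ i = 5 * rv e' ∨ i = 5 * c + 2 := fun i => by simp [hl]
  have nd' : (l.map Prod.fst).Nodup := by
    simp only [hl, List.map_cons, List.map_nil, List.nodup_cons, List.mem_cons, List.not_mem_nil,
      List.nodup_nil, not_false_eq_true, and_true, or_false]
    omega
  simp only [List.length_cons, List.length_nil] at t1l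
  have ph : X.Φ u.1 ≤ X.Φ s + 4 * (2 * X.k.AU) := by
    have := u1.time
    have k : (5 : ℝ) ≤ t1 := by exact_mod_cast (by omega : 5 ≤ t1)
    have : (0 : ℝ) ≤ X.k.cl * n1.length := by positivity
    simp only [List.length_cons, List.length_nil] at *
    push_cast at *; linarith
  refine (sp_ops h.ip i1 (l := l) (by rw [ll]; push_cast; linarith) (oks_of_nodup nd' ?_)).foldL_ge.mono
    fun s' t2 ⟨⟨i2, n2, u2⟩, t2l⟩ => ⟨apps N l, n2 ++ n1, i2, (u1.trans u2).mono ?_, by omega,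
      hA.apps nd' (fun i k => ?_) ?_ fun v hv => ?_, ⟨fun p hp k => ?_, fun v hv k => ?_,
        fun v hv k => ?_⟩, ?_⟩
  · simp only [hl, List.forall_mem_cons, Op.Ok, List.not_mem_nil, false_imp_iff, implies_true,
      and_true, m1, m2, m3, m4, m5, m6, Option.some.injEq, forall_eq', reduceCtorEq, true_and]
    exact ⟨⟨v3, h.dom g3⟩, ⟨v4, h.dom g4⟩, ⟨v5, h.dom g5⟩, v6, g6⟩
  · have : _ ≤ 0 := Nat.add_le_add (Nat.add_le_add z3 z4) (Nat.add_le_add z5 z6)
    simp only [ll, List.length_cons, List.length_nil]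
    push_cast
    have k : ∀ y : ℕ, y ≤ 0 → (y : ℝ) = 0 := fun y q => by exact_mod_cast Nat.le_zero.1 q
    rw [k _ z3, k _ z4, k _ z5, k _ z6]; linarith
  · rw [lm] at k
    exact H.off (by omega) (by omega) (by omega) (by omega) (by omega)
  · have q1 : ¬has X.G d' (5 * r + 1) := fun z => by
      have := (has1.1 z).2
      rw [H.st', rs] at this
      exact H.mS_ne rm (this.resolve_left (by omega))
    have q2 : ¬has X.G d' (5 * rv e) := fun z => by
      have := (has0.1 z).2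
      rw [H.pr', if_neg ee, if_pos rfl] at this; cases this
    simp [hl, q1, q2, n3, n4, n5, n6, arcOf0, arcOf1, b6]
  · simp only [hl, List.map_cons, List.map_nil, List.sum_cons, List.sum_nil, nw_none, nw_some,
      old_mem _ m1, old_mem _ m2, old_mem _ m3, old_notMem _ m4, old_notMem _ m5, old_mem _ m6,
      a1, a2, a3, a6, b3, b4, b5, ct, capA, snkA]
    split_ifs <;> omega
  · rw [H.pr'] at k
    by_cases q : p = rv e'
    · rw [q, ((apps_mem nd' (o := (5 * rv e', false, some (aP X.C X.G d' (rv e'),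
        X.C.B - X.C.lam - N.X (5 * a + 1)))) (by simp [hl])).2 _ rfl).2]
      omega
    · have q' : p ≠ rv e := fun z => by rw [if_neg q, if_pos z] at k; cases k
      rw [if_neg q, if_neg q'] at k
      rw [(apps_ne (by rw [lm]; omega)).2.2]
      exact hR.pl p hp k
  · rw [H.st'] at k
    by_cases q : v = a
    · rw [q, ((apps_mem nd' (o := (5 * a + 1, true, some (aE X.C d' a,
        X.C.B - X.C.lam - N.X (5 * rv e)))) (by simp [hl])).2 _ rfl).2]
      omega
    · have q1 : v ≠ r := fun z => by rw [z] at k; omega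
      have q2 : v ≠ b := fun z => by have := h0.sb; rw [z] at k; omega
      rw [(apps_ne (by rw [lm]; omega)).2.2]
      exact hR.inn v hv k
  · by_cases q : v = b
    · rw [q, ((apps_mem nd' (o := (5 * b + 1, false, some (aE X.C d' b,
        X.C.B - X.C.lam))) (by simp [hl])).2 _ rfl).2]
      omega
    · obtain ⟨q1, q2⟩ := (H.exp_iff.1 k).resolve_left q
      have q3 : v ≠ a := fun z => ab (by rw [← H.mb, ← z, q2])
      rw [(apps_ne (by rw [lm]; omega)).2.2]
      exact hR.rt v hv q2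
  · have p1 := Inv.bar_nonneg h hI m1; have p2 := Inv.bar_nonneg h hI m2
    have p3 := Inv.bar_nonneg h hI m3
    have p4 := h.bar_new v3 g3 rfl; have p5 := h.bar_new v4 g4 rfl; have p6 := h.bar_new v5 g5 rfl
    have p7 := Lb.bar_raise h.D_pos h.s0_pos v6 rfl (x := N.X (5 * c + 2))
      (c := X.C.B - X.C.lam - N.X (5 * r + 1)) (by simp only [snkA]; omega) (by omega)
      (by simp only [snkA]; omega) (u := 1) (by
        have : X.C.B - X.C.lam - N.X (5 * r + 1) ≤ (X.C.M : ℤ) -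
          (N.X (5 * c + 2) + (X.C.B - X.C.lam - N.X (5 * r + 1))) := by omega
        rw [one_mul]; simp only [snkA]; exact_mod_cast this)
    simp only [aE, aP, capA, snkA, Nat.cast_one, Nat.cast_zero] at p4 p5 p6 p7
    rw [pot_apps nd']
    simp only [hl, List.map_cons, List.map_nil, List.sum_cons, List.sum_nil, nw_none, nw_some,
      old_mem _ m1, old_mem _ m2, old_mem _ m3, old_notMem _ m4, old_notMem _ m5, old_mem _ m6, a6,
      aE, aP, capA, snkA]
    linarith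

theorem sCost_le (h : X.Ok) {S : Finset ℕ} (hS : S ⊆ range X.G.n) :
    sCost S X.G.av ≤ (2 * X.C.K + 45) * (#S + 1) := by
  have a : ∑ v ∈ S, (X.G.av.get v).length ≤ #S * 3 := by
    simpa using sum_le_card_nsmul S _ 3 fun v _ => h.wf.av_deg v
  have b : #S ≤ X.G.n := by simpa using card_le_card hS
  have k : Nat.log 2 #S ≤ X.C.K := by
    rcases Nat.eq_zero_or_pos #S with z | z
    · rw [z]; simp
    · exact (Nat.log_lt_of_lt_pow z.ne' (by have := h.K; omega)).le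
  have := Nat.mul_le_mul_left #S (by omega : 2 * Nat.log 2 #S + 15 ≤ 2 * X.C.K + 15)
  unfold sCost
  nlinarith

/-- **ROT** -/
theorem rotSpec (h : X.Ok) : X.RotSpec (rot X.toEnv) := by
  rintro ⟨s, d⟩ N c e r hI hF hR hc ⟨a, k1, k2, k3, k4⟩ hr
  have cm : Cmb X.G d := hI.cmb
  have wf := h.wf
  simp only [bgOf] at k1 k2 k3 k4 hr
  obtain ⟨bm, bo⟩ := cm.bs c hc
  obtain ⟨bl, -, bc⟩ := (cm.mem c hc _).1 bm
  split_ifs at k1 hr with q1 q2
  obtain rfl : d.mt.get (d.bs.get c) = a := Option.some.inj k1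
  have sa := bo.resolve_left q1
  have al := cm.mt_lt bl
  have mb := cm.mt_mt bl
  obtain ⟨el, tle⟩ := (wf.mem _ al e).1 k2
  have pr : d.pr.get (rv e) = true := by
    rcases Bool.or_eq_true_iff.1 k3 with z | z
    · exact z
    · rw [decide_eq_true_eq, mb] at z
      rw [z, bc] at k4
      exact absurd (k4 ▸ q2) q1
  obtain ⟨p, pl, p1, p2⟩ := cm.isM.adj (mem_range.2 al) (by rw [mb]; exact fun z => q1 z.symm)
  have sub : ∀ {y}, isC X.G d y → (d.mem.get y).toFinset ⊆ range X.G.n := fun hy v k =>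
    mem_range.2 ((cm.mem _ hy v).1 (List.mem_toFinset.1 k)).1
  simp only [rot, sp_bind, sp_pure]
  refine (sp_foldL' (fun l u => (∀ y ∈ l, y ∈ X.G.adj.get (X.G.tl.get e)) ∧ (p ∈ l ∨ u = p))
    (fun _ => 0) (fun y l u k => sp_pure.2 ⟨⟨fun z j => k.1 z (List.mem_cons_of_mem _ j), ?_⟩, le_rfl⟩)
    ⟨fun _ k => k, .inl (by rw [tle]; exact (wf.mem _ al p).2 ⟨pl, p1⟩)⟩).mono
    fun e' t1 ⟨⟨_, k⟩, t1l⟩ => ?_
  · have := k.1 y List.mem_cons_self
    rw [tle] at this ⊢
    obtain ⟨y1, y2⟩ := (wf.mem _ al y).1 this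
    split_ifs with z
    · exact .inr (wf.simple y y1 p pl (y2.trans p1.symm) (z.trans p2.symm))
    · exact k.2.imp_left fun j => (List.mem_cons.1 j).resolve_left fun i => z (by rw [← i]; exact p2)
  obtain rfl : e' = p := k.resolve_left List.not_mem_nil
  have H0 : RH0 X.G d _ (X.G.hd e) (d.bs.get c) r e e' :=
    ⟨wf, cm, el, pl, tle, rfl, p1, p2.trans mb, mb, k4, sa, pr, q2⟩
  have sc := sCost_le h (sub H0.isc)
  have cd : #(d.mem.get r).toFinset = d.cw.get r := by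
    rw [List.toFinset_card_of_nodup (cm.nodup r H0.isc), cm.cw r H0.isc]
  have cw := cm.cw_le H0.isc
  have K5 : 2 * X.C.K + 45 ≤ 10 * (X.C.K + 5) ^ 2 := by nlinarith
  rw [cd] at sc
  rw [k4]
  refine (sp_rebase wf.symm wf.av (sub H0.isc) (cm.nodup r H0.isc)
    (fun v => List.mem_toFinset.symm) (cm.fc r H0.isc _ (List.mem_toFinset.2 H0.xm)) H0.isP
    (by rw [q2]; exact notMem_erase _ _) (by have := h.n_le_M; have := h.M_le_X; omega)
    (sc.trans (le_trans (Nat.mul_le_mul (K5.trans (Nat.mul_le_mul_right _ (by norm_num)))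
      (Nat.succ_le_succ cw.2)) h.fu))).mono fun m1 t2 ⟨j1, j2, t2l⟩ => ?_
  have H := H0.rh j1 j2
  have ph := phi_le_Pt (X := X) (s := s)
  refine (sp_rotF h H hI.il.1 hI.arcs hR (by unfold RoomN at hF; push_cast at hF; linarith)).mono
    fun s' t3 ⟨N', n, i, u, t3l, A, R', pt⟩ =>
      ⟨N', ⟨hI.il.up i u, A, H.cmb, H.qok hI.q⟩, R', bc ▸ H.rotD, ?_, ?_⟩
  · have := Pt_up u
    have : (12 : ℝ) ≤ t3 := by exact_mod_cast t3l
    linarith
  · have e1 : X.Ψ (rotD X.G d m1 e e') = X.Ψ d := by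
      have a : X.offs (rotD X.G d m1 e e') = X.offs d := rfl
      have b : ∀ i, X.nS (rotD X.G d m1 e e') i = X.nS d i := fun _ => rfl
      have c : X.Th (rotD X.G d m1 e e') = X.Th d := rfl
      have q : (rotD X.G d m1 e e').Q = d.Q := rfl
      simp only [Ψ, a, b, c, q, H.ex_eq]
    have e2 := Pt_up u
    have e3 : t1 ≤ 4 := by
      have := wf.deg (X.G.tl.get e)
      simp only [zero_add, List.map_const', List.sum_replicate, smul_eq_mul, mul_one] at t1l
      omega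
    have e4 : t2 ≤ X.κ * (d.cw.get r + 1) := by
      have := h.κ
      have z : (X.C.K + 5) ^ 2 ≤ (X.k.AU + X.k.AQ + X.k.cl + 1) * (X.C.K + 5) ^ 2 :=
        Nat.le_mul_of_pos_left _ (by omega)
      rw [mul_assoc] at this
      exact t2l.trans ((Nat.mul_le_mul_left 3 sc).trans (by
        rw [← mul_assoc]; exact Nat.mul_le_mul_right _ (by omega)))
    have e5 := h.AU_le; have e6 := h.Lg_le; have e7 := h.Lg_nonneg
    have e8 : (20000 : ℝ) ≤ X.C.Z := by exact_mod_cast h.Z_pos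
    have e9 : (1 : ℝ) ≤ d.cw.get r := by exact_mod_cast cw.1
    have f3 : (t1 : ℝ) ≤ 4 := by exact_mod_cast e3
    have f4 : (t2 : ℝ) ≤ X.κ * (d.cw.get r + 1) := by exact_mod_cast e4
    have f5 : (0 : ℝ) ≤ X.k.AU := by positivity
    have f6 : (1 : ℝ) + (d.cw.get r + 1) + (6 * X.Lg + 1) ≤ X.C.Z * (d.cw.get r + 1) := by nlinarith
    have f7 := mul_le_mul_of_nonneg_left f6 (Nat.cast_nonneg (α := ℝ) X.κ)
    have f8 := mul_le_mul_of_nonneg_left pt (Nat.cast_nonneg (α := ℝ) X.κ)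
    simp only [Tot, wtC, e1]
    push_cast
    linarith

end Cx

end Crest.Agent.N325.P2
end

-- ▼ part N325/Mt/Deg3a
section

/-!
# Row 325, M6 (helper4): reduction to maximum degree three, the mathematics

Positions `p < D` are the oriented edges, `own p` the tail, `rev p` the reversed edge; the
positions of one vertex are consecutive.  New vertices `2 p` and `2 p + 1`.
-/

set_option autoImplicit false
open Finset

namespace Crest.Agent.N325.Mt

/-- the oriented edges of the graph -/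
structure Gd (V : Finset ℕ) (E : ℕ → ℕ → Prop) (D : ℕ) (own rev : ℕ → ℕ) : Prop where
  rv : ∀ p < D, rev p < D ∧ rev (rev p) = p
  ed : ∀ p < D, own p ∈ V ∧ E (own p) (own (rev p)) ∧ own p ≠ own (rev p)
  sur : ∀ v ∈ V, ∀ w ∈ V, E v w → ∃ p < D, own p = v ∧ own (rev p) = w
  cvx : ∀ p q r, p ≤ q → q ≤ r → r < D → own p = own r → own q = own p

/-- `p` and `p + 1` belong to the same vertex -/
def Lnk (D : ℕ) (own : ℕ → ℕ) (p : ℕ) : Prop := p + 1 < D ∧ own (p + 1) = own p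

instance (D : ℕ) (own : ℕ → ℕ) : DecidablePred (Lnk D own) :=
  fun _ => inferInstanceAs (Decidable (_ ∧ _))

/-- the new graph -/
def E3 (D : ℕ) (own rev : ℕ → ℕ) (a b : ℕ) : Prop :=
  ∃ p < D, (a = 2 * p ∧ b = 2 * rev p) ∨ (Lnk D own p ∧
    ((a = 2 * p + 1 ∧ (b = 2 * p ∨ b = 2 * p + 2)) ∨ (b = 2 * p + 1 ∧ (a = 2 * p ∨ a = 2 * p + 2))))

variable {V : Finset ℕ} {E : ℕ → ℕ → Prop} {D : ℕ} {own rev m : ℕ → ℕ}

theorem Gd.symm3 (h : Gd V E D own rev) (a b : ℕ) (e : E3 D own rev a b) : E3 D own rev b a := by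
  obtain ⟨p, hp, ⟨x, y⟩ | ⟨x, y⟩⟩ := e
  · exact ⟨rev p, (h.rv p hp).1, .inl ⟨y, by rw [(h.rv p hp).2, x]⟩⟩
  · exact ⟨p, hp, .inr ⟨x, y.symm⟩⟩

theorem Gd.irr3 (h : Gd V E D own rev) (a : ℕ) : ¬E3 D own rev a a := by
  rintro ⟨p, hp, ⟨x, y⟩ | ⟨-, y⟩⟩
  · exact (h.ed p hp).2.2 (by rw [show rev p = p by omega])
  · omega

theorem Gd.lt3 (h : Gd V E D own rev) {a b : ℕ} (e : E3 D own rev a b) : a < 2 * D ∧ b < 2 * D := by
  obtain ⟨p, hp, ⟨x, y⟩ | ⟨⟨x, -⟩, y⟩⟩ := e
  · have := (h.rv p hp).1; omega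
  · omega

theorem Gd.lnk (h : Gd V E D own rev) {p r : ℕ} (k : p < r) (hr : r < D) (e : own p = own r) :
    Lnk D own p := ⟨by omega, h.cvx p (p + 1) r (by omega) k hr e⟩

/-- the matching of the new graph given by cut positions `i` -/
def fw (D : ℕ) (own rev m i : ℕ → ℕ) (a : ℕ) : ℕ :=
  if a % 2 = 0 then
    if a / 2 < i (own (a / 2)) then a + 1 else if i (own (a / 2)) < a / 2 then a - 1
    else if m (own (a / 2)) = own (a / 2) then a else 2 * rev (a / 2)
  else if Lnk D own (a / 2) then (if a / 2 < i (own (a / 2)) then a - 1 else a + 1) else a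

theorem fw_even (i : ℕ → ℕ) (p : ℕ) : fw D own rev m i (2 * p) =
    if p < i (own p) then 2 * p + 1 else if i (own p) < p then 2 * p - 1
    else if m (own p) = own p then 2 * p else 2 * rev p := by
  rw [fw, if_pos (by omega), show 2 * p / 2 = p by omega]

theorem fw_odd (i : ℕ → ℕ) (p : ℕ) : fw D own rev m i (2 * p + 1) =
    if Lnk D own p then (if p < i (own p) then 2 * p else 2 * p + 2) else 2 * p + 1 := by
  rw [fw, if_neg (by omega), show (2 * p + 1) / 2 = p by omega]; rfl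

theorem Gd.exists_cut (h : Gd V E D own rev) (hm : IsM V E m) : ∃ i : ℕ → ℕ, ∀ p < D,
    i (own p) < D ∧ own (i (own p)) = own p ∧ (m (own p) ≠ own p →
      own (rev (i (own p))) = m (own p) ∧ i (m (own p)) = rev (i (own p))) := by
  have a : ∀ v, ∃ q, v ∈ V → m v ≠ v → q < D ∧ own q = v ∧ own (rev q) = m v := fun v => by
    by_cases c : v ∈ V ∧ m v ≠ v
    · obtain ⟨q, x⟩ := h.sur v c.1 _ (hm.mem c.1) (hm.adj c.1 c.2)
      exact ⟨q, fun _ _ => x⟩
    · exact ⟨0, fun x y => absurd ⟨x, y⟩ c⟩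
  have b : ∀ v, ∃ q, ∀ p < D, own p = v → q < D ∧ own q = v := fun v => by
    by_cases c : ∃ p < D, own p = v
    · obtain ⟨q, x⟩ := c
      exact ⟨q, fun _ _ _ => x⟩
    · exact ⟨0, fun p x y => absurd ⟨p, x, y⟩ c⟩
  choose f hf using a
  choose f' hf' using b
  refine ⟨fun v => if v < m v then f v else if m v < v then rev (f (m v)) else f' v,
    fun p hp => ?_⟩
  have hv := (h.ed p hp).1
  have iv := hm.inv hv
  simp only [iv]
  rcases lt_trichotomy (own p) (m (own p)) with c | c | c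
  · obtain ⟨x, y, z⟩ := hf _ hv c.ne'
    rw [if_pos c, if_neg c.le.not_gt, if_pos c]
    exact ⟨x, y, fun _ => ⟨z, rfl⟩⟩
  · rw [if_neg (by omega), if_neg (by omega)]
    exact ⟨(hf' _ p hp rfl).1, (hf' _ p hp rfl).2, fun k => absurd c.symm k⟩
  · obtain ⟨x, y, z⟩ := hf _ (hm.mem hv) (by omega)
    rw [if_neg c.le.not_gt, if_pos c, if_pos c, (h.rv _ x).2]
    exact ⟨(h.rv _ x).1, z.trans iv, fun _ => ⟨y, rfl⟩⟩

/-- from the graph to the new graph -/
theorem Gd.fwd (h : Gd V E D own rev) (hm : IsM V E m) : ∃ m', IsM (range (2 * D))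
    (E3 D own rev) m' ∧ ex (range (2 * D)) m' ≤ (exs V m ∩ (range D).image own).card +
      ((range D).filter fun p => ¬Lnk D own p).card := by
  obtain ⟨i, hi⟩ := h.exists_cut hm
  refine ⟨fw D own rev m i, fun a ha => ?_, ?_⟩
  · rw [mem_range] at ha ⊢
    obtain ⟨p, rfl | rfl⟩ := Nat.even_or_odd' a
    · have hp : p < D := by omega
      obtain ⟨i1, i2, i3⟩ := hi p hp
      rw [fw_even]
      split_ifs with c1 c2 c3
      · have l := h.lnk c1 i1 i2.symm
        rw [fw_odd, if_pos l, if_pos c1]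
        exact ⟨by omega, rfl, fun _ => ⟨p, hp, .inr ⟨l, .inr ⟨rfl, .inl rfl⟩⟩⟩⟩
      · obtain ⟨q, rfl⟩ : ∃ q, p = q + 1 := ⟨p - 1, by omega⟩
        have o : own q = own (q + 1) := (h.cvx _ q _ (by omega) (by omega) hp i2).trans i2
        have l : Lnk D own q := ⟨hp, o.symm⟩
        rw [show 2 * (q + 1) - 1 = 2 * q + 1 by omega, fw_odd, if_pos l, o, if_neg (by omega)]
        exact ⟨by omega, rfl, fun _ => ⟨q, by omega, .inr ⟨l, .inr ⟨rfl, .inr rfl⟩⟩⟩⟩
      · rw [fw_even, if_neg c1, if_neg c2, if_pos c3]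
        exact ⟨ha, rfl, fun k => absurd rfl k⟩
      · obtain ⟨x, y⟩ := i3 c3
        rw [show i (own p) = p by omega] at x y
        rw [fw_even, x, y, if_neg (lt_irrefl _), if_neg (lt_irrefl _), hm.inv (h.ed p hp).1,
          if_neg (Ne.symm c3), (h.rv p hp).2]
        exact ⟨by have := (h.rv p hp).1; omega, rfl, fun _ => ⟨p, hp, .inl ⟨rfl, rfl⟩⟩⟩
    · have hp : p < D := by omega
      rw [fw_odd]
      split_ifs with l c
      · rw [fw_even, if_pos c]
        exact ⟨by omega, rfl, fun _ => ⟨p, hp, .inr ⟨l, .inl ⟨rfl, .inl rfl⟩⟩⟩⟩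
      · rw [show 2 * p + 2 = 2 * (p + 1) by omega, fw_even, l.2, if_neg (by omega),
          if_pos (by omega)]
        exact ⟨by have := l.1; omega, rfl, fun _ => ⟨p, hp, .inr ⟨l, .inl ⟨rfl, .inr rfl⟩⟩⟩⟩
      · rw [fw_odd, if_neg l]
        exact ⟨ha, rfl, fun k => absurd rfl k⟩
  · refine (card_le_card (t := (exs V m ∩ (range D).image own).image (fun v => 2 * i v) ∪
      ((range D).filter fun p => ¬Lnk D own p).image fun p => 2 * p + 1) fun a ha => ?_).trans
      ((card_union_le _ _).trans (add_le_add card_image_le card_image_le))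
    obtain ⟨ha, e⟩ := mem_exs.1 ha
    rw [mem_range] at ha
    obtain ⟨p, rfl | rfl⟩ := Nat.even_or_odd' a
    · have hp : p < D := by omega
      rw [fw_even] at e
      split_ifs at e with c1 c2 c3
      · omega
      · omega
      · exact mem_union_left _ (mem_image.2 ⟨own p, mem_inter.2 ⟨mem_exs.2 ⟨(h.ed p hp).1, c3⟩,
          mem_image_of_mem _ (mem_range.2 hp)⟩, by omega⟩)
      · exact absurd (by rw [show rev p = p by omega]) (h.ed p hp).2.2
    · rw [fw_odd] at e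
      split_ifs at e with l c
      · omega
      · omega
      · exact mem_union_right _ (mem_image_of_mem _ (mem_filter.2 ⟨mem_range.2 (by omega), l⟩))

section back
variable {m' : ℕ → ℕ}

theorem e3_even {p b : ℕ} (e : E3 D own rev (2 * p) b) : b = 2 * rev p ∨
    (b = 2 * (b / 2) + 1 ∧ Lnk D own (b / 2) ∧ own (b / 2) = own p) := by
  obtain ⟨q, hq, ⟨x, y⟩ | ⟨l, ⟨x, -⟩ | ⟨x, y | y⟩⟩⟩ := e
  · exact .inl (by rw [y, show q = p by omega])
  · omega
  · rw [show b / 2 = q by omega, show p = q by omega]; exact .inr ⟨x, l, rfl⟩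
  · rw [show b / 2 = q by omega, show p = q + 1 by omega]; exact .inr ⟨x, l, l.2.symm⟩

theorem e3_odd {p b : ℕ} (e : E3 D own rev (2 * p + 1) b) : Lnk D own p ∧
    b = 2 * (b / 2) ∧ b / 2 < D ∧ own (b / 2) = own p := by
  obtain ⟨q, hq, ⟨x, y⟩ | ⟨l, ⟨x, y | y⟩ | ⟨x, y⟩⟩⟩ := e
  · omega
  · rw [show b / 2 = q by omega, show p = q by omega]; exact ⟨l, y, hq, rfl⟩
  · rw [show b / 2 = q + 1 by omega, show p = q by omega]; exact ⟨l, y, l.1, l.2⟩
  · omega

/-- a vertex without external edge has an exposed copy -/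
theorem Gd.p1 (hm : IsM (range (2 * D)) (E3 D own rev) m') {p : ℕ}
    (hp : p < D) (k : ∀ q < D, own q = own p → m' (2 * q) ≠ 2 * rev q) :
    ∃ q < D, own q = own p ∧ m' (2 * q) = 2 * q := by
  by_contra c
  push Not at c
  set F := (range D).filter fun q => own q = own p
  have ne : F.Nonempty := ⟨p, by simp [F, hp]⟩
  have key : ∀ q ∈ F, m' (2 * q) = 2 * (m' (2 * q) / 2) + 1 ∧ Lnk D own (m' (2 * q) / 2) ∧
      own (m' (2 * q) / 2) = own q := fun q hq => by
    simp only [F, mem_filter, mem_range] at hq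
    exact (e3_even (hm.adj (mem_range.2 (by omega)) (c q hq.1 hq.2))).resolve_left (k q hq.1 hq.2)
  have := card_le_card_of_injOn (s := F) (t := F.erase (F.max' ne)) (fun q => m' (2 * q) / 2)
    (fun q hq => ?_) fun q hq r hr e => ?_
  · rw [card_erase_of_mem (F.max'_mem ne)] at this
    have := ne.card_pos
    omega
  · obtain ⟨-, x, y⟩ := key q hq
    have z := (mem_filter.1 hq).2
    have := F.le_max' _ (mem_filter.2 ⟨mem_range.2 x.1, x.2.trans (y.trans z)⟩)
    exact mem_erase.2 ⟨by simp only; omega,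
      mem_filter.2 ⟨mem_range.2 (Nat.lt_of_succ_lt x.1), y.trans z⟩⟩
  · have a := hm.inv (v := 2 * q) (by have := mem_range.1 (mem_filter.1 hq).1; simp; omega)
    have b := hm.inv (v := 2 * r) (by have := mem_range.1 (mem_filter.1 hr).1; simp; omega)
    simp only at e
    rw [(key q hq).1, e, ← (key r hr).1, b] at a
    omega

/-- many external edges leave exposed linking vertices -/
theorem Gd.p2 (h : Gd V E D own rev) (hm : IsM (range (2 * D)) (E3 D own rev) m') (v : ℕ) :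
    ((range D).filter fun q => own q = v ∧ m' (2 * q) = 2 * rev q).card ≤
      ((range D).filter fun q => own q = v ∧ Lnk D own q ∧ m' (2 * q + 1) = 2 * q + 1).card + 1 := by
  have a1 : ((range D).filter fun q => own q = v ∧ ¬Lnk D own q).card ≤ 1 := by
    refine card_le_one.2 fun q hq r hr => ?_
    simp only [mem_filter, mem_range] at hq hr
    rcases lt_trichotomy q r with c | c | c
    · exact absurd (h.lnk c hr.1 (hq.2.1.trans hr.2.1.symm)) hq.2.2
    · exact c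
    · exact absurd (h.lnk c hq.1 (hr.2.1.trans hq.2.1.symm)) hr.2.2
  have a2 : ((range D).filter fun q => own q = v ∧ m' (2 * q + 1) ≠ 2 * q + 1).card ≤
      ((range D).filter fun q => own q = v ∧ m' (2 * q) ≠ 2 * rev q).card := by
    refine card_le_card_of_injOn (fun q => m' (2 * q + 1) / 2) (fun q hq => ?_) fun q hq r hr e => ?_
    all_goals simp only [coe_filter, mem_range, Set.mem_ofPred_eq] at *
    · have i : 2 * q + 1 ∈ range (2 * D) := mem_range.2 (by omega)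
      obtain ⟨-, x, y, z⟩ := e3_odd (hm.adj i hq.2.2)
      refine ⟨y, z.trans hq.2.1, ?_⟩
      rw [← x, hm.inv i]; omega
    · have i : 2 * q + 1 ∈ range (2 * D) := mem_range.2 (by omega)
      have j : 2 * r + 1 ∈ range (2 * D) := mem_range.2 (by omega)
      have a := hm.inv i
      rw [(e3_odd (hm.adj i hq.2.2)).2.1, e, ← (e3_odd (hm.adj j hr.2.2)).2.1, hm.inv j] at a
      omega
  have a3 := card_filter_add_card_filter_not (s := (range D).filter fun q => own q = v)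
    fun q => m' (2 * q) = 2 * rev q
  have a4 : ((range D).filter fun q => own q = v).card ≤
      ((range D).filter fun q => own q = v ∧ Lnk D own q ∧ m' (2 * q + 1) = 2 * q + 1).card +
      ((range D).filter fun q => own q = v ∧ ¬Lnk D own q).card +
      ((range D).filter fun q => own q = v ∧ m' (2 * q + 1) ≠ 2 * q + 1).card := by
    refine (card_le_card fun q hq => ?_).trans
      ((card_union_le _ _).trans (add_le_add_left (card_union_le _ _) _))
    simp only [mem_union, mem_filter] at hq ⊢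
    tauto
  simp only [filter_filter] at a3
  simp only [ne_eq] at a2 a4
  omega

/-- a maximal matching among the external edges -/
structure Bk (V : Finset ℕ) (E : ℕ → ℕ → Prop) (D : ℕ) (own rev m' m : ℕ → ℕ) (l : List ℕ) :
    Prop where
  isM : IsM V E m
  ext : ∀ v ∈ V, m v ≠ v → ∃ p < D, m' (2 * p) = 2 * rev p ∧ own p = v ∧ own (rev p) = m v
  mx : ∀ p < D, p ∉ l → m' (2 * p) = 2 * rev p →
    m (own p) ≠ own p ∨ m (own (rev p)) ≠ own (rev p)

theorem Gd.bwd (h : Gd V E D own rev) (hm : IsM (range (2 * D)) (E3 D own rev) m')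
    (b : Bk V E D own rev m' m []) : (exs V m ∩ (range D).image own).card +
      ((range D).filter fun p => ¬Lnk D own p).card ≤ ex (range (2 * D)) m' := by
  set XA := (range D).filter fun q => m' (2 * q) = 2 * q
  set XU := (range D).filter fun q => Lnk D own q ∧ m' (2 * q + 1) = 2 * q + 1
  set B := (range D).filter fun q => m' (2 * q) = 2 * rev q ∧ m (own q) ≠ own q ∧
    own (rev q) ≠ m (own q)
  have s1 : exs V m ∩ (range D).image own ⊆ XA.image own ∪ B.image fun q => own (rev q) := by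
    intro v hv
    obtain ⟨hv, k⟩ := mem_inter.1 hv
    obtain ⟨p, hp, rfl⟩ := mem_image.1 k
    obtain ⟨-, e⟩ := mem_exs.1 hv
    by_cases c : ∃ q < D, own q = own p ∧ m' (2 * q) = 2 * rev q
    · obtain ⟨q, hq, x, y⟩ := c
      obtain ⟨r1, r2⟩ := h.rv q hq
      have z := (b.mx q hq List.not_mem_nil y).resolve_left (by rw [x]; exact fun k => k e)
      refine mem_union_right _ (mem_image.2 ⟨rev q, mem_filter.2 ⟨mem_range.2 r1, ?_, z, ?_⟩,
        by rw [r2, x]⟩)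
      · rw [← y, hm.inv (mem_range.2 (by omega)), r2]
      · rw [r2, x]
        intro k
        have := b.isM.inv (h.ed _ r1).1
        rw [← k, e] at this
        exact z (k.symm.trans this)
    · push Not at c
      obtain ⟨q, hq, x, y⟩ := Gd.p1 hm (mem_range.1 hp) c
      exact mem_union_left _ (mem_image.2 ⟨q, mem_filter.2 ⟨mem_range.2 hq, y⟩, x⟩)
  have s2 : B.card ≤ XU.card := by
    rw [card_eq_sum_card_fiberwise (f := own) (s := B) (t := V)
        fun q hq => (h.ed q (mem_range.1 (mem_filter.1 hq).1)).1,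
      card_eq_sum_card_fiberwise (f := own) (s := XU) (t := V)
        fun q hq => (h.ed q (mem_range.1 (mem_filter.1 hq).1)).1]
    refine sum_le_sum fun w hw => ?_
    by_cases c : m w = w
    · refine (card_eq_zero.2 (filter_eq_empty_iff.2 fun q hq k => ?_)).trans_le (Nat.zero_le _)
      exact (mem_filter.1 hq).2.2.1 (k ▸ c)
    · obtain ⟨p, hp, x, y, z⟩ := b.ext w hw c
      have := h.p2 hm w
      have a : (B.filter fun q => own q = w) ⊆
          ((range D).filter fun q => own q = w ∧ m' (2 * q) = 2 * rev q).erase p := by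
        intro q hq
        simp only [B, mem_filter, mem_erase] at hq ⊢
        exact ⟨fun k => hq.1.2.2.2 (by rw [k, y, z]), hq.1.1, hq.2, hq.1.2.1⟩
      have a := card_le_card a
      rw [card_erase_of_mem (mem_filter.2 ⟨mem_range.2 hp, y, x⟩)] at a
      have e : (XU.filter fun q => own q = w) =
          (range D).filter fun q => own q = w ∧ Lnk D own q ∧ m' (2 * q + 1) = 2 * q + 1 := by
        ext q; simp only [XU, mem_filter]; tauto
      rw [e]; omega
  have s3 : XA.card + (XU ∪ (range D).filter fun p => ¬Lnk D own p).card ≤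
      ex (range (2 * D)) m' := by
    rw [← card_image_of_injective XA (f := fun q => 2 * q) fun _ _ e => by simpa using e,
      ← card_image_of_injective (XU ∪ _) (f := fun q => 2 * q + 1) fun _ _ e => by simpa using e,
      ← card_union_of_disjoint]
    · refine card_le_card fun a ha => mem_exs.2 ?_
      simp only [XA, XU, mem_union, mem_image, mem_filter, mem_range] at ha ⊢
      rcases ha with ⟨q, x, rfl⟩ | ⟨q, x | x, rfl⟩
      · exact ⟨by omega, x.2⟩
      · exact ⟨by omega, x.2.2⟩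
      · exact ⟨by omega, by_contra fun c =>
          x.2 (e3_odd (hm.adj (mem_range.2 (by omega)) c)).1⟩
    · refine disjoint_left.2 fun a x y => ?_
      obtain ⟨_, -, x⟩ := mem_image.1 x
      obtain ⟨_, -, y⟩ := mem_image.1 y
      omega
  rw [card_union_of_disjoint (s := XU) (disjoint_filter.2 fun q _ x y => y x.1)] at s3
  have := (card_le_card s1).trans ((card_union_le _ _).trans
    (add_le_add card_image_le card_image_le))
  omega

theorem Gd.ex_eq (h : Gd V E D own rev) (hm : IsM V E m) :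
    ex V m = (exs V m ∩ (range D).image own).card + (V \ (range D).image own).card := by
  rw [ex, ← card_inter_add_card_sdiff _ ((range D).image own)]
  congr 2
  ext v
  simp only [mem_sdiff, mem_exs]
  refine ⟨fun k => ⟨k.1.1, k.2⟩, fun k => ⟨⟨k.1, by_contra fun c => k.2 ?_⟩, k.2⟩⟩
  obtain ⟨p, hp, x, -⟩ := h.sur v k.1 _ (hm.mem k.1) (hm.adj k.1 c)
  exact mem_image.2 ⟨p, mem_range.2 hp, x⟩

/-- **the reduction keeps the gap** -/
theorem Gd.gap (h : Gd V E D own rev) (hm : IsM (range (2 * D)) (E3 D own rev) m')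
    (b : Bk V E D own rev m' m []) {j : ℕ} (hj : ∀ m'', IsM (range (2 * D)) (E3 D own rev) m'' →
      ex (range (2 * D)) m' ≤ ex (range (2 * D)) m'' + j) (m₀ : ℕ → ℕ) (h₀ : IsM V E m₀) :
    ex V m ≤ ex V m₀ + j := by
  obtain ⟨m'', x, y⟩ := h.fwd h₀
  have := hj m'' x
  have := h.bwd hm b
  rw [h.ex_eq b.isM, h.ex_eq h₀]
  omega

end back

end Crest.Agent.N325.Mt
end

-- ▼ part N325/Mt/Deg3
section

/-!
# Row 325, M6 (helper4): reduction to maximum degree three, the programs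
-/

set_option autoImplicit false
open Finset

namespace Crest.Agent.N325.Mt

variable {g : Gl} {E : ℕ → ℕ → Prop}

def posStep (ar : Arr (ℕ × ℕ)) (p : ℕ) (s : Arr (Arr ℕ)) : Arr (Arr ℕ) :=
  s.set (ar.get p).1 ((s.get (ar.get p).1).set (ar.get p).2 p)

def lnkB (D : ℕ) (own : Arr ℕ) (p : ℕ) : Bool :=
  if p + 1 < D then (if own.get (p + 1) = own.get p then true else false) else false

theorem lnkB_iff {D p : ℕ} {own : Arr ℕ} : lnkB D own p = true ↔ Lnk D own.get p := by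
  unfold lnkB Lnk; split_ifs <;> simp [*]

/-- the neighbours in the new graph -/
def adj3 (D D2 : ℕ) (own rev : Arr ℕ) (a : ℕ) : List ℕ :=
  if a % 2 = 0 then
    min (2 * rev.get (a / 2)) D2 ::
      (if lnkB D own (a / 2) then
        (if 0 < a ∧ lnkB D own (a / 2 - 1) then [a + 1, a - 1] else [a + 1])
      else if 0 < a ∧ lnkB D own (a / 2 - 1) then [a - 1] else [])
  else if lnkB D own (a / 2) then [a - 1, a + 1] else []

/-- number of oriented edges, tails, reversed edges, adjacency lists of the new graph -/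
def deg3 (n : ℕ) (A : Arr (List ℕ)) : R (ℕ × Arr ℕ × Arr ℕ × Arr (List ℕ)) :=
  rangeL n 0 >>= fun Vl => flatMapL (fun v => mapP (fun w => (v, w)) (A.get v)) Vl >>= fun El =>
    lenL El >>= fun D => arrOfL El 0 (.cst (0, 0)) >>= fun ar =>
      forP (posStep ar) D 0 (.cst (.cst 0)) >>= fun pos =>
        tabP (fun p => (ar.get p).1) D (.cst 0) >>= fun own =>
          tabP (fun p => (pos.get (ar.get p).2).get (ar.get p).1) D (.cst 0) >>= fun rev =>
            nat (2 * D) >>= fun D2 => tabP (adj3 D D2 own rev) D2 (.cst []) >>= fun adj =>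
              pure (D, own, rev, adj)

theorem foldl_pos (ar : Arr (ℕ × ℕ)) (l : List ℕ) (s : Arr (Arr ℕ)) (v w : ℕ) :
    let r := ((l.foldl (fun s p => posStep ar p s) s).get v).get w
    (r = (s.get v).get w ∧ ∀ p ∈ l, ar.get p ≠ (v, w)) ∨ (r ∈ l ∧ ar.get r = (v, w)) := by
  induction l generalizing s with
  | nil => exact .inl ⟨rfl, by simp⟩
  | cons p l ih =>
    rcases ih (posStep ar p s) with ⟨a, b⟩ | ⟨a, b⟩
    · rw [List.foldl_cons]
      by_cases c : ar.get p = (v, w)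
      · have : ((posStep ar p s).get v).get w = p := by simp [posStep, c]
        rw [this] at a
        exact .inr (by rw [a]; exact ⟨List.mem_cons_self, c⟩)
      · refine .inl ⟨a.trans ?_, List.forall_mem_cons.2 ⟨c, b⟩⟩
        rw [posStep, Arr.get_set]
        split_ifs with x
        · rw [Arr.get_set, if_neg fun y => c (Prod.ext x.symm y.symm), x]
        · rfl
    · exact .inr ⟨List.mem_cons_of_mem _ a, b⟩

theorem adj3_spec {V : Finset ℕ} {D : ℕ} {own rev : Arr ℕ} (h : Gd V E D own.get rev.get) {a : ℕ}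
    (ha : a < 2 * D) : (adj3 D (2 * D) own rev a).Nodup ∧ (adj3 D (2 * D) own rev a).length ≤ 3 ∧
      ∀ b, b ∈ adj3 D (2 * D) own rev a ↔ E3 D own.get rev.get a b := by
  obtain ⟨p, rfl | rfl⟩ := Nat.even_or_odd' a
  · have hp : p < D := by omega
    have r := (h.rv p hp).1
    rw [adj3, if_pos (by omega), show 2 * p / 2 = p by omega, min_eq_left (by omega)]
    simp only [lnkB_iff]
    refine ⟨by split_ifs <;> simp <;> omega, by split_ifs <;> simp, fun b => ⟨fun k => ?_, ?_⟩⟩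
    · have : b = 2 * rev.get p ∨ (Lnk D own.get p ∧ b = 2 * p + 1) ∨
          ((0 < 2 * p ∧ Lnk D own.get (p - 1)) ∧ b = 2 * p - 1) := by
        split_ifs at k <;> simp only [List.mem_cons, List.not_mem_nil, or_false] at k <;> tauto
      rcases this with x | ⟨x, y⟩ | ⟨⟨x, y⟩, z⟩
      · exact ⟨p, hp, .inl ⟨rfl, x⟩⟩
      · exact ⟨p, hp, .inr ⟨x, .inr ⟨y, .inl rfl⟩⟩⟩
      · exact ⟨p - 1, by omega, .inr ⟨y, .inr ⟨by omega, .inr (by omega)⟩⟩⟩
    · rintro ⟨q, hq, ⟨x, y⟩ | ⟨l, ⟨x, -⟩ | ⟨x, y | y⟩⟩⟩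
      · rw [y, show q = p by omega]; exact List.mem_cons_self
      · omega
      · obtain rfl : p = q := by omega
        rw [if_pos l, x]; split_ifs <;> simp
      · obtain rfl : p = q + 1 := by omega
        have : 0 < 2 * (q + 1) ∧ Lnk D own.get (q + 1 - 1) := ⟨by omega, l⟩
        rw [if_pos this, if_pos this, x]; split_ifs <;> simp <;> omega
  · have hp : p < D := by omega
    rw [adj3, if_neg (by omega), show (2 * p + 1) / 2 = p by omega]
    simp only [lnkB_iff]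
    refine ⟨by split_ifs <;> simp; omega, by split_ifs <;> simp, fun b => ⟨fun k => ?_, ?_⟩⟩
    · split_ifs at k with l
      · simp only [List.mem_cons, List.not_mem_nil, or_false] at k
        exact ⟨p, hp, .inr ⟨l, .inl ⟨rfl, by omega⟩⟩⟩
      · cases k
    · rintro ⟨q, hq, ⟨x, y⟩ | ⟨l, ⟨x, y⟩ | ⟨x, y⟩⟩⟩
      · omega
      · obtain rfl : p = q := by omega
        rw [if_pos l]; simp; omega
      · omega

theorem sp_deg3 {n : ℕ} {A : Arr (List ℕ)} (hE : ∀ a b, E a b → E b a) (hi : ∀ a, ¬E a a)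
    (hA : Adj (range n) E A) (nd : ∀ v, (A.get v).Nodup)
    (hX : 2 * ∑ v ∈ range n, (A.get v).length ≤ g.X) :
    Sp g (deg3 n A) fun r t => r.1 = ∑ v ∈ range n, (A.get v).length ∧
      Gd (range n) E r.1 r.2.1.get r.2.2.1.get ∧
      Adj (range (2 * r.1)) (E3 r.1 r.2.1.get r.2.2.1.get) r.2.2.2 ∧
      (∀ a, (r.2.2.2.get a).Nodup ∧ (r.2.2.2.get a).length ≤ 3) ∧ t ≤ 11 * r.1 + 6 * n + 10 := by
  refine (sp_rangeL_zero n).bind ?_
  rintro _ t0 ⟨rfl, e0⟩
  refine (sp_flatMapL (fun v => (A.get v).map fun w => (v, w)) (fun v => 2 * (A.get v).length + 2)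
    fun v _ => (sp_mapP _ _).mono fun r t k => ⟨k.1, k.2.le⟩).bind fun El t1 ⟨a1, e1⟩ => ?_
  rw [← a1] at e1
  have len : El.length = ∑ v ∈ range n, (A.get v).length := by
    rw [a1, List.length_flatMap, ← List.sum_toFinset _ List.nodup_range, List.toFinset_range]
    simp
  have c1 : ((List.range n).map fun v => 2 * (A.get v).length + 2).sum = 2 * El.length + 2 * n := by
    rw [← List.sum_toFinset _ List.nodup_range, List.toFinset_range, sum_add_distrib, ← mul_sum,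
      len]
    simp [mul_comm]
  have mem : ∀ v w, (v, w) ∈ El ↔ v < n ∧ w < n ∧ E v w := fun v w => by
    simp only [a1, List.mem_flatMap, List.mem_range, List.mem_map, Prod.mk.injEq]
    constructor
    · rintro ⟨_, x, _, y, rfl, rfl⟩
      exact ⟨x, by simpa using (hA _ (mem_range.2 x) _).1 y⟩
    · exact fun ⟨x, y⟩ => ⟨v, x, w, (hA _ (mem_range.2 x) _).2 (by simpa using y), rfl, rfl⟩
  have ndE : El.Nodup := by
    rw [a1, List.nodup_flatMap]
    refine ⟨fun v _ => (nd v).map fun _ _ e => (Prod.ext_iff.1 e).2,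
      List.nodup_range.imp fun {a b} ne e x y => ?_⟩
    obtain ⟨_, -, rfl⟩ := List.mem_map.1 x
    obtain ⟨_, -, y⟩ := List.mem_map.1 y
    exact ne (Prod.ext_iff.1 y).1.symm
  have srt : El.Pairwise fun e f => e.1 ≤ f.1 := by
    rw [a1, List.pairwise_flatMap]
    refine ⟨fun v _ => List.pairwise_map.2 (List.pairwise_of_forall fun _ _ => le_rfl),
      List.pairwise_le_range.imp fun {a b} le e x f y => ?_⟩
    obtain ⟨_, -, rfl⟩ := List.mem_map.1 x
    obtain ⟨_, -, rfl⟩ := List.mem_map.1 y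
    exact le
  refine (sp_lenL El).bind ?_
  rintro _ t2 ⟨rfl, e2⟩
  refine (sp_arrOfL_cst _ _).bind fun ar t3 ⟨a3, e3⟩ => (sp_forP _ _ _ _).bind
    fun pos t4 ⟨a4, e4⟩ => (sp_tabP _ _ _).bind fun own t5 ⟨a5, e5⟩ => (sp_tabP _ _ _).bind
    fun rev t6 ⟨a6, e6⟩ => sp_bind.2 (sp_nat.2 ⟨len ▸ hX, (sp_tabP _ _ _).bind
    fun adj t7 ⟨a7, e7⟩ => sp_pure.2 ?_⟩)
  have ea : ∀ p (hp : p < El.length), ar.get p = El[p] := fun p hp => by
    rw [a3]; exact List.getD_eq_getElem _ _ hp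
  have eo : ∀ p < El.length, own.get p = (ar.get p).1 := fun p hp => by rw [a5, if_pos hp]
  have me : ∀ p < El.length, (ar.get p).1 < n ∧ (ar.get p).2 < n ∧ E (ar.get p).1 (ar.get p).2 :=
    fun p hp => (mem _ _).1 (by rw [ea p hp]; exact List.getElem_mem hp)
  have ix : ∀ v w, v < n → w < n → E v w → ∃ p < El.length, ar.get p = (v, w) := fun v w x y z => by
    obtain ⟨p, hp, k⟩ := List.getElem_of_mem ((mem v w).2 ⟨x, y, z⟩)
    exact ⟨p, hp, (ea p hp).trans k⟩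
  have er : ∀ p < El.length, rev.get p < El.length ∧
      ar.get (rev.get p) = ((ar.get p).2, (ar.get p).1) := fun p hp => by
    obtain ⟨x, y, z⟩ := me p hp
    obtain ⟨q, hq, k⟩ := ix _ _ y x (hE _ _ z)
    have := (foldl_pos ar (List.range' 0 El.length) (.cst (.cst 0)) _ _).resolve_left
      fun c => c.2 q (by simpa using hq) k
    rw [← a4] at this
    rw [a6, if_pos hp]
    exact ⟨by simpa using this.1, this.2⟩
  have G : Gd (range n) E El.length own.get rev.get := by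
    refine ⟨fun p hp => ⟨(er p hp).1, ?_⟩, fun p hp => ?_, fun v hv w hw e => ?_,
      fun p q r x y z e => ?_⟩
    · obtain ⟨x, y⟩ := er _ (er p hp).1
      have y : ar.get (rev.get (rev.get p)) = ar.get p := by rw [y, (er p hp).2]
      rw [ea _ x, ea p hp] at y
      exact (ndE.getElem_inj_iff).1 y
    · rw [eo p hp, eo _ (er p hp).1, (er p hp).2]
      exact ⟨mem_range.2 (me p hp).1, (me p hp).2.2, fun c => hi _ (c ▸ (me p hp).2.2)⟩
    · obtain ⟨p, hp, k⟩ := ix v w (mem_range.1 hv) (mem_range.1 hw) e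
      exact ⟨p, hp, by rw [eo p hp, k], by rw [eo _ (er p hp).1, (er p hp).2, k]⟩
    · have mo : ∀ a b, a ≤ b → b < El.length → own.get a ≤ own.get b := fun a b k hb => by
        rw [eo b hb, eo a (by omega), ea b hb, ea a (by omega)]
        exact k.eq_or_lt.elim (fun c => by subst c; rfl) (List.pairwise_iff_getElem.1 srt _ _ _ _)
      have := mo p q x (by omega)
      have := mo q r y z
      omega
  refine ⟨len, G, fun a ha b => ?_, fun a => ?_, ?_⟩
  · simp only [a7, if_pos (mem_range.1 ha), (adj3_spec G (mem_range.1 ha)).2.2]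
    exact ⟨fun k => ⟨mem_range.2 (G.lt3 k).2, k⟩, fun k => k.2⟩
  · simp only [a7]
    split_ifs with c
    · exact ⟨(adj3_spec G c).1, (adj3_spec G c).2.1⟩
    · simp
  · simp only [List.length_range] at e1 ⊢; omega

def bkStep (own rev m' : Arr ℕ) (p : ℕ) (m : Arr ℕ) : Arr ℕ :=
  if m'.get (2 * p) = 2 * rev.get p ∧ m.get (own.get p) = own.get p ∧
      m.get (own.get (rev.get p)) = own.get (rev.get p) then
    (m.set (own.get p) (own.get (rev.get p))).set (own.get (rev.get p)) (own.get p)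
  else m

/-- the matching of the graph given by a matching of the new graph -/
def back (n D : ℕ) (own rev m' : Arr ℕ) : R (Arr ℕ) :=
  tabP (fun v => v) n (.cst 0) >>= fun m => forP (bkStep own rev m') D 0 m

theorem Bk.step {V : Finset ℕ} {D p : ℕ} {own rev m' m : Arr ℕ} {l : List ℕ}
    (hE : ∀ a b, E a b → E b a) (h : Gd V E D own.get rev.get)
    (hm : IsM (range (2 * D)) (E3 D own.get rev.get) m'.get) (hp : p < D)
    (b : Bk V E D own.get rev.get m'.get m.get (p :: l)) :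
    Bk V E D own.get rev.get m'.get (bkStep own rev m' p m).get l := by
  rw [bkStep]
  split_ifs with c
  · obtain ⟨c1, c2, c3⟩ := c
    obtain ⟨r1, r2⟩ := h.rv p hp
    obtain ⟨d1, d2, d3⟩ := h.ed p hp
    have ev := Arr.get_set (m.set (own.get p) (own.get (rev.get p))) (own.get (rev.get p))
    simp only [Arr.get_set m] at ev
    refine ⟨?_, fun v hv k => ?_, fun q hq k e => ?_⟩
    · rw [Arr.set_get, Arr.set_get]
      exact Patch.isM (P := [(own.get p, own.get (rev.get p))]) hE b.isM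
        ⟨by simp [d3], by simp [d1, (h.ed _ r1).1], by simp [c2, c3], by simp [d2]⟩
    · rw [ev] at k ⊢
      split_ifs at k ⊢ with x y
      · exact ⟨rev.get p, r1, by rw [← c1, hm.inv (mem_range.2 (by omega)), r2], x.symm,
          by rw [r2]⟩
      · exact ⟨p, hp, c1, y.symm, rfl⟩
      · exact b.ext v hv k
    · have key : ∀ v, m.get v ≠ v ∨ v = own.get p → ((m.set (own.get p)
          (own.get (rev.get p))).set (own.get (rev.get p)) (own.get p)).get v ≠ v := fun v k => by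
        rw [ev]
        split_ifs with x y
        · exact x ▸ d3
        · exact y ▸ d3.symm
        · exact k.resolve_right y
      by_cases x : q = p
      · exact .inl (key _ (.inr (by rw [x])))
      · exact (b.mx q hq (by simp [x, k]) e).imp (fun y => key _ (.inl y)) fun y => key _ (.inl y)
  · refine ⟨b.isM, b.ext, fun q hq k e => ?_⟩
    by_cases x : q = p
    · subst x; tauto
    · exact b.mx q hq (by simp [x, k]) e

/-- **the way back keeps the gap** -/
theorem sp_back {n D j : ℕ} {own rev m' : Arr ℕ} (hE : ∀ a b, E a b → E b a)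
    (h : Gd (range n) E D own.get rev.get) (hm : IsM (range (2 * D)) (E3 D own.get rev.get) m'.get)
    (hj : ∀ m'', IsM (range (2 * D)) (E3 D own.get rev.get) m'' →
      ex (range (2 * D)) m'.get ≤ ex (range (2 * D)) m'' + j) :
    Sp g (back n D own rev m') fun m t => IsM (range n) E m.get ∧
      (∀ m₀, IsM (range n) E m₀ → ex (range n) m.get ≤ ex (range n) m₀ + j) ∧ t = n + D + 2 := by
  refine (sp_tabP _ _ _).bind fun m t0 ⟨a, e0⟩ => (sp_forP _ _ _ _).mono ?_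
  rintro _ t1 ⟨rfl, e1⟩
  have key : ∀ (l : List ℕ) (m : Arr ℕ), (∀ p ∈ l, p < D) →
      Bk (range n) E D own.get rev.get m'.get m.get l → Bk (range n) E D own.get rev.get m'.get
        (l.foldl (fun s p => bkStep own rev m' p s) m).get [] := by
    intro l
    induction l with
    | nil => exact fun _ _ b => b
    | cons p l ih =>
      exact fun m k b => ih _ (fun q c => k q (List.mem_cons_of_mem _ c))
        (b.step hE h hm (k p List.mem_cons_self))
  have i : ∀ v ∈ range n, m.get v = v := fun v hv => (a v).trans (if_pos (mem_range.1 hv))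
  have b := key (List.range' 0 D) m (by simp) ⟨isM_id.congr i, fun v hv k => absurd (i v hv) k,
    fun p hp k => absurd (by simpa using hp) k⟩
  exact ⟨b.isM, h.gap hm b hj, by omega⟩

@[fun_prop] theorem impl_deg3 : Impl fun p : ℕ × Arr (List ℕ) => deg3 p.1 p.2 := by impl

@[fun_prop] theorem impl_back : Impl fun p : ℕ × ℕ × Arr ℕ × Arr ℕ × Arr ℕ =>
    back p.1 p.2.1 p.2.2.1 p.2.2.2.1 p.2.2.2.2 := by impl

end Crest.Agent.N325.Mt
end

-- ▼ part N325/Mt/Slow
section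

/-!
# Row 325, M6 (helper4): finishing by repeated searches, the slow exact algorithm
-/

set_option autoImplicit false
open Finset Crest.GraphRAM

namespace Crest.Agent.N325.Mt

variable {g : Gl}

/-- at most `k` searches from the matching `m`, then the output -/
def endR (n : ℕ) (adj : Arr (List ℕ)) (N k : ℕ) (m : Arr ℕ) : R (List ℕ) :=
  rangeL n 0 >>= fun Vl => nat (2 * ((N + 9) * (N + 9))) >>= fun fu =>
    finish (search adj Vl fu) k m >>= fun m' => outM n m'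

/-- the cost of one search and one augmentation -/
def cE (N : ℕ) : ℕ := N * (2 * Nat.log 2 N + 36) + 23

theorem adj_adjN {n : ℕ} {G : SimpleGraph (Fin n)} {adj : Fin n → List (Fin n)}
    (h : ∀ v, (adj v).Nodup ∧ ∀ u, u ∈ adj v ↔ G.Adj v u) {A : Arr (List ℕ)}
    (hA : A.get = adjN n adj) : Adj (range n) (relN G) A := fun v _ u => by
  rw [hA, mem_adjN h]
  exact ⟨fun k => ⟨mem_range.2 k.2.1, k⟩, fun k => k.2⟩

theorem sp_endR {n : ℕ} {G : SimpleGraph (Fin n)} {adj : Fin n → List (Fin n)}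
    (h : ∀ v, (adj v).Nodup ∧ ∀ u, u ∈ adj v ↔ G.Adj v u) {A : Arr (List ℕ)}
    (hA : A.get = adjN n adj) {m : Arr ℕ} (hm : IsM (range n) (relN G) m.get) {j k : ℕ}
    (hj : ∀ m', IsM (range n) (relN G) m' → ex (range n) m.get ≤ ex (range n) m' + 2 * j)
    (hk : j + 1 ≤ k) (hX : 2 * ((sizeN n adj + 9) * (sizeN n adj + 9)) ≤ g.X) :
    Sp g (endR n A (sizeN n adj) k m) fun out t => IsMaxMatchingOutput G out ∧
      t ≤ (j + 1) * cE (sizeN n adj) + 3 * sizeN n adj + 5 := by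
  have hn := le_sizeN n adj
  have hD : ∑ v ∈ range n, (A.get v).length ≤ 2 * sizeN n adj + 1 := by
    rw [hA, sum_adjN, sizeN]; omega
  set N := sizeN n adj
  have c1 : sCost (range n) A + n + 2 ≤ cE N := by
    have : n * (2 * Nat.log 2 n + 15) ≤ N * (2 * Nat.log 2 N + 15) :=
      Nat.mul_le_mul hn (by have := Nat.log_mono_right (b := 2) hn; omega)
    rw [sCost, card_range, cE]
    nlinarith
  have c2 : cE N ≤ 2 * ((N + 9) * (N + 9)) := by
    have : N * Nat.log 2 N ≤ N * N := Nat.mul_le_mul_left _ (Nat.log_le_self 2 N)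
    rw [cE]; nlinarith
  refine (sp_rangeL_zero n).bind ?_
  rintro _ t0 ⟨rfl, e0⟩
  refine sp_bind.2 (sp_nat.2 ⟨hX, ?_⟩)
  refine (sp_finish (relN_symm G) (c := sCost (range n) A) (fun m hm =>
    sp_search (relN_symm G) hm (adj_adjN h hA) List.nodup_range (by simp)
      (by rw [card_range]; nlinarith) (by omega)) hm hj hk).bind fun m' t1 ⟨a, b, c⟩ => ?_
  refine (sp_outM n m').mono ?_
  rintro _ t2 ⟨rfl, e2⟩
  rw [card_range] at c
  have := Nat.mul_le_mul_left (j + 1) c1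
  exact ⟨isMax_out G a b, by omega⟩

/-- the slow exact algorithm -/
def slow (inp : List ℕ) : R (List ℕ) :=
  parseAdj inp >>= fun r => sizeR inp >>= fun N => tabP (fun v => v) r.1 (.cst 0) >>= fun m =>
    endR r.1 r.2 N (r.1 + 1) m

/-- cost and number bound of the slow algorithm -/
def slowS (N : ℕ) : ℕ := (N + 1) * cE N + 2 * ((N + 9) * (N + 9)) + 16 * N + 19

theorem sp_slow (n : ℕ) (G : SimpleGraph (Fin n)) (adj : Fin n → List (Fin n)) (_ : 1 ≤ n)
    (h : ∀ v, (adj v).Nodup ∧ ∀ u, u ∈ adj v ↔ G.Adj v u) :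
    Sp ⟨slowS (sizeN n adj), -1⟩ (slow (adjInput n adj))
      fun out t => IsMaxMatchingOutput G out ∧ t ≤ slowS (sizeN n adj) := by
  have hn := le_sizeN n adj
  have hD : ∑ v, (adj v).length ≤ 2 * sizeN n adj + 1 := by rw [sizeN]; omega
  have hD' : n + ∑ v, (adj v).length ≤ 2 * sizeN n adj + 1 := by rw [sizeN]; omega
  refine (sp_parseAdj n adj).bind ?_
  rintro ⟨n', A⟩ t0 ⟨en, hA, e0⟩
  obtain rfl : n = n' := en.symm
  refine (sp_sizeR n adj).bind ?_
  rintro _ t1 ⟨rfl, e1⟩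
  refine (sp_tabP _ _ _).bind fun m t2 ⟨a, e2⟩ => ?_
  have hm : IsM (range n) (relN G) m.get :=
    isM_id.congr fun v hv => (a v).trans (if_pos (mem_range.1 hv))
  refine (sp_endR h hA hm (j := n) (fun m' _ => ?_) le_rfl (by rw [slowS]; simp only; omega)).mono
    fun out t k => ⟨k.1, ?_⟩
  · have := ex_le (V := range n) (m := m.get)
    rw [card_range] at this; omega
  · have := Nat.mul_le_mul_right (cE (sizeN n adj)) (Nat.succ_le_succ hn)
    have := k.2
    simp only [slowS, Nat.succ_eq_add_one] at *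
    omega

end Crest.Agent.N325.Mt
end

-- ▼ part N325/Mt/SlowImpl
section

/-!
# Row 325, M6: the slow exact algorithm is implementable (helper90)
-/

set_option autoImplicit false

namespace Crest.Agent.N325.Mt

variable {α : Type} [Rp α]

@[fun_prop] theorem impl_endR {n N k : α → ℕ} {adj : α → Arr (List ℕ)} {m : α → Arr ℕ}
    (h1 : Pu true n) (h2 : Pu true adj) (h3 : Pu true N) (h4 : Pu true k) (h5 : Pu true m) :
    Impl fun a => endR (n a) (adj a) (N a) (k a) (m a) := by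
  unfold endR; impl

theorem impl_slow : Impl slow := by
  unfold slow; impl

end Crest.Agent.N325.Mt
end

-- ▼ part N325/Fin/Top

/-!
# Row 325 (helper57): the final assembly from the two seams
-/

set_option autoImplicit false

namespace Crest.Agent.N325.Fin

open Filter Tw Mt Crest.GraphRAM

/-- the whole algorithm -/
def algF {T : Type} (mk : ℕ → R (ℕ × T)) (alg : ℕ × ℕ × ℕ × T × ℕ × Arr (List ℕ) → R (Arr ℕ))
    (inp : List ℕ) : R (List ℕ) :=
  parseAdj inp >>= fun r => sizeR inp >>= fun N => qqR N >>= fun Q => call mk N >>= fun t =>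
    deg3 r.1 r.2 >>= fun d => nat (2 * d.1) >>= fun n =>
      call alg (N, Q, t.1, t.2, n, d.2.2.2) >>= fun m => back r.1 d.1 d.2.1 d.2.2.1 m >>= fun m' =>
        nat (Q + 1) >>= fun k => endR r.1 r.2 N k m'

theorem impl_algF {T : Type} [Rp T] {mk : ℕ → R (ℕ × T)}
    {alg : ℕ × ℕ × ℕ × T × ℕ × Arr (List ℕ) → R (Arr ℕ)} (h1 : Impl mk) (h2 : Impl alg) :
    Impl (algF mk alg) := by
  unfold algF; impl

theorem cub_E3 {V : Finset ℕ} {E : ℕ → ℕ → Prop} {D : ℕ} {own rev : ℕ → ℕ}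
    (h : Gd V E D own rev) {A : Arr (List ℕ)} (hA : Adj (Finset.range (2 * D)) (E3 D own rev) A)
    (hd : ∀ a, (A.get a).Nodup ∧ (A.get a).length ≤ 3) : Cub (2 * D) (E3 D own rev) A := by
  refine ⟨h.symm3, h.irr3, ?_, hA, fun v => (hd v).1, fun v => (hd v).2⟩
  rintro a b ⟨p, hp, ⟨x, y⟩ | ⟨x, y⟩⟩
  · have := (h.rv p hp).1; omega
  · have := x.1; omega

/-- **the row from the two seams** -/
theorem goal_of_seams (hO : OracleStmt) (hM : MatchStmt) : Goal := by
  obtain ⟨c0, hM⟩ := hM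
  obtain ⟨T, _, mk, run, c1, G, i1, i2, hG, hO⟩ := hO c0
  obtain ⟨alg, θ, κ, c2, e, i3, hM⟩ := hM c1 T run i2
  refine goal_pq slow (algF mk alg) slowS
    (fun N => qq N ^ e + qq N + (qq N + 1) * (2 * Nat.log 2 N + 60) + 200) (c1 + c2 + 3) impl_slow
    (impl_algF i1 i3) (by fun_prop) sp_slow ?_
  have a1 : SubQ fun N => (Nat.log 2 N + 2) ^ e := (SubQ.log.add (SubQ.const 2)).pow e
  have a2 : PwQ fun N => qq N ^ e := by fun_prop
  have a3 : PwQ fun N => qq N + 1 := by fun_prop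
  filter_upwards [hO, hM, hG.le_qq, a1.le_qq, a2.le_self, a3.le_self, eventually_ge_atTop 100]
    with N hO hM b1 b2 b3 b4 b5 n Γ adj hn hadj hN
  obtain ⟨k1, k2, k3, k4, hM⟩ := hM (qq N) b2 b3
  have x1 : (N + 2) ^ c2 ≤ (N + 2) ^ (c1 + c2 + 3) := Nat.pow_le_pow_right (by omega) (by omega)
  have x2 : (N + 2) ^ 3 ≤ (N + 2) ^ (c1 + c2 + 3) := Nat.pow_le_pow_right (by omega) (by omega)
  have x3 : κ N (qq N) * (N + 2) ^ c1 ≤ (N + 2) ^ (c1 + c2 + 3) :=
    (Nat.mul_le_mul_right _ k4).trans (by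
      rw [← pow_add]; exact Nat.pow_le_pow_right (by omega) (by omega))
  have x4 : 2 * ((N + 9) * (N + 9)) ≤ (N + 2) ^ 3 := by nlinarith
  obtain ⟨h, Sh, I, Ψ, s1, s2⟩ := hO ⟨(N + 2) ^ (c1 + c2 + 3), 1 / ((N : ℝ) + 2) ^ 3⟩ (qq N) _ _
    b1 k1 k2 k3 x3
  have hn' := le_sizeN n adj
  have hD : ∑ v, (adj v).length ≤ 2 * sizeN n adj + 1 := by rw [sizeN]; omega
  rw [hN] at hn' hD
  refine (sp_parseAdj n adj).bind ?_
  rintro ⟨n', A⟩ t0 ⟨en, hA, e0⟩
  obtain rfl : n = n' := en.symm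
  refine (sp_sizeR n adj).bind ?_
  rintro _ t1 ⟨rfl, e1⟩
  refine (sp_qqR (by dsimp only; nlinarith)).bind ?_
  rintro _ t2 ⟨rfl, e2⟩
  rw [hN] at e1 e2 ⊢
  refine sp_bind.2 (sp_call.2 (s1.mono ?_))
  rintro ⟨h', t⟩ t3 ⟨rfl, hs, e3⟩
  have hA' : A.get = adjN n adj := hA
  have hS : ∑ v ∈ Finset.range n, (A.get v).length = ∑ v, (adj v).length := by
    rw [hA', sum_adjN]
  refine (sp_deg3 (relN_symm Γ) (relN_irrefl Γ) (adj_adjN hadj hA')
    (fun v => by rw [hA']; exact nodup_adjN hadj v) (by dsimp only; nlinarith)).bind ?_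
  rintro ⟨D, own, rev, A2⟩ t4 ⟨eD, gd, ad, dg, e4⟩
  dsimp only at *
  refine sp_bind.2 (sp_nat.2 ⟨by dsimp only; nlinarith, ?_⟩)
  have d1 : 1 / ((N : ℝ) + 2) ^ 3 < 1 := by
    rw [div_lt_one (by positivity)]
    exact one_lt_pow₀ (by linarith [Nat.cast_nonneg (α := ℝ) N]) (by norm_num)
  refine sp_bind.2 (sp_call.2 ((hM _ _ Sh I Ψ t _ _ A2 x1 le_rfl d1 s2 hs (by omega)
    (cub_E3 gd ad dg)).mono ?_))
  rintro m t5 ⟨m1, m2, e5⟩
  refine (sp_back (relN_symm Γ) gd m1 m2).bind ?_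
  rintro m' t6 ⟨m3, m4, e6⟩
  refine sp_bind.2 (sp_nat.2 ⟨by dsimp only; nlinarith, ?_⟩)
  have s7 := sp_endR (g := ⟨(N + 2) ^ (c1 + c2 + 3), 1 / ((N : ℝ) + 2) ^ 3⟩) hadj hA' m3 m4 le_rfl
    (by rw [hN]; exact x4.trans x2)
  rw [hN] at s7
  refine s7.mono fun out t7 k => ⟨k.1, ?_⟩
  have e7 := k.2
  have y1 : cE N ≤ N * (2 * Nat.log 2 N + 60) := by rw [cE]; nlinarith
  have y2 := Nat.mul_le_mul_left (qq N + 1) y1
  have y3 : (qq N + 1) * (N * (2 * Nat.log 2 N + 60)) =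
      N * ((qq N + 1) * (2 * Nat.log 2 N + 60)) := by ring
  simp only [mul_add N]
  omega

end Crest.Agent.N325.Fin
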