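import Crest.Agent.N325.Sg.Pk
import Crest.Agent.N325.Ag.FinI_Mg
import Crest.Agent.N325.Lt.Lift
import Crest.Agent.N325.Sg.PkOk
import Crest.Agent.N325.Sg.PkR
import Crest.Agent.N325.Ip.Weak
import Crest.Agent.N325.Fin.Or

-- ▼ part N325/Sg/PkS
section

/-! # Row 325 (helper64): the constants `Pk` are large enough for the stage -/

set_option autoImplicit false

namespace Crest.Agent.N325.Sg.Pk

open Tw Lt

section general
variable (P : Pm) (k : Ds.Cs) (K L B : ℕ)

theorem mU_eq : mU P = fM P := by unfold mU fM; ring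

theorem aU_le : 2 * aU P k L ≤ fRU P k L := by
  unfold aU fRU
  rw [mU_eq, fM]
  generalize k.RU L _ = x
  ring_nf; omega

theorem cH_le : 80 * k.cH ≤ fRU P k L := by
  unfold fRU Ds.Cs.RU
  generalize fM P = y
  ring_nf; omega

theorem tU_le : tU P K k L ≤ fTU P K k L := by
  unfold tU fTU aU fRU
  rw [mU_eq]
  generalize k.RU L _ = x
  generalize k.TU L _ = y
  unfold fM
  ring_nf; omega

theorem liftT_le {m : ℕ} (h : 1 ≤ m) : liftT P m P.s B ≤ 2 * fTL P B * m := by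
  refine (Nat.mul_le_mul_right _ (by omega : 4 * m + 1 ≤ m * 5)).trans ?_
  rw [mul_assoc, mul_comm _ m]
  refine Nat.mul_le_mul_left _ ?_
  unfold fTL
  ring_nf; omega

theorem tB_le {m : ℕ} (h : 1 ≤ m) : tB P K k m (liftT P m P.s B) L ≤ fTb P K k L B * m := by
  have h1 := liftT_le P B h
  have h2 : (k.Cb + 2 * k.LM + 20 + (k.cH + 1) + L + 30) * 1 ≤ _ := Nat.mul_le_mul_left _ h
  have h3 : 1 + 4 * (P.D + 1) * P.S * ((P.D + 3) * (5 * K + 15) + 4) +
      4 * (P.D + 1) * P.S * (P.S + 2) + (k.Cb + 2 * k.LM + 20) * (P.S ^ 2 + 1) +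
      (k.cH + 1) * ((P.D + 3) * (4 * (P.D + 1) * P.S) + 1) + P.S ^ 2 * (cT K + 3) + 30 ≤
      2000 * (P.D + 3) ^ 2 * (P.S + 1) ^ 2 * (K + 1) * (k.Cb + k.LM + k.cH + P.S + 20) := by
    unfold cT; ring_nf; omega
  have h4 := Nat.mul_le_mul_right m h3
  unfold tB fTb nN
  rw [add_mul, add_mul]
  linarith

theorem tU_le' : 147 * K + 290 ≤ fTU P K k L := by
  refine le_trans ?_ (Nat.le_add_left _ _)
  rw [mul_assoc]
  exact le_trans (by omega) (Nat.le_mul_of_pos_right _ (by positivity))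

theorem le_fRU : 38 ≤ fRU P k L := le_trans (by omega) (Nat.le_add_left 40 _)

end general

end Crest.Agent.N325.Sg.Pk
end

-- ▼ part N325/Sg/PkStg
section

/-!
# N325 / Sg (helper51): the stages of all levels meet their specification
-/

set_option autoImplicit false

namespace Crest.Agent.N325.Sg.Pk

open Tw Lt

variable {c N i : ℕ} {g : Gl}

theorem uh0 (hc : 2 ≤ c) (E : Ev c N) (hX : XB c N ≤ g.X) (hi : i < lev N) :
    UH g (ps c N i) (K c N) ((tp c N).sc i).c ((tp c N).sc i).c' (cs c N) := by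
  have h := xOk hX
  refine ⟨bdOk hc E hi, rfl, Nat.lt_succ_self _, nV_ok hc E hi, (nb_lt E).le.trans h.M,
    le_trans ?_ (h.gb (i := i + 1) E)⟩
  refine le_trans ?_ (Nat.le_mul_of_pos_left _ (Nat.succ_pos _))
  rw [← mul_assoc]
  exact Nat.mul_le_mul_right _ (Nat.le_add_right _ _)

theorem bh0 (E : Ev c N) (hX : XB c N ≤ g.X) (hi : i < lev N) :
    BH g (ps c N i) (K c N) ((tp c N).sc i).c (cs c N) (Bf.boxNx (T N))
      (Bf.boxGam (cs c N) (T N)) := by
  have h := xOk hX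
  refine ⟨K0_pos, le_rfl, le_rfl, nx_lmF0 _, d1_csF (rounds_ok E), chain_csF (rounds_ok E), le_csF,
    le_trans ?_ (h.gb (i := i + 1) E), le_trans ?_ h.Hb, le_trans ?_
      (h.nN (i := i + 1) E hi (y := 1) Nat.one_le_two_pow)⟩
  · exact le_trans (Nat.mul_le_mul_right _ (Nat.le_succ _))
      (Nat.le_mul_of_pos_left _ (Nat.succ_pos _))
  · exact Nat.add_le_add_right ((lb_le (i := i + 1) E).trans LB_lt.le) _
  · exact (mul_one _).ge

theorem sh0 (E : Ev c N) (hX : XB c N ≤ g.X) (hi : i < lev N) :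
    SH g (ps c N i) (K c N) (liftT (P c N) ((tp c N).m (i + 1)) (lg c N) (La c N)) (cs c N)
      ((tp c N).sc i) := by
  have e : (ps c N i).pr.length = T N := length_prF _ _ _ _
  refine ⟨le_trans ?_ ((xOk hX).gb (i := i + 1) E), th1_ok, th_ok, ?_, le_rfl, le_rfl, RB_ok,
    ?_, le_trans (by omega) RU_ge, ?_, ?_, tU_le' _ _ _ _⟩
  · exact Nat.mul_le_mul (Nat.le_succ _) (Nat.mul_le_mul_right _ (Nat.le_succ _))
  · rw [e]; exact lim_lt E hi.le
  · rw [e]; exact aU_le _ _ _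
  · rw [e]; exact tB_le _ _ _ _ _ m_pos
  · rw [e]; exact tU_le _ _ _ _

/-- **the stages** -/
theorem stg (hc : 2 ≤ c) (E : Ev c N) (hX : XB c N ≤ g.X) (hi : i < lev N) :
    ∃ I Φ rc, StageSpec g (stage lf bx) (ps c N i) ((tp c N).sc i) I Φ rc :=
  ⟨_, _, _, stageSpec (uh0 hc E hX hi) (bh0 E hX hi) (sh0 E hX hi)
    (fun _ _ h => box_ok (i := i + 1) E (xOk hX) h.cls_rv h.cls_lt) fun _ _ hG hl =>
      sp_liftR (c := bdL c N (i + 1)) (lnum0 hc E (xOk hX) hi)
        (hG.weak le_rfl le_rfl (lb_le (i := i + 1) E) le_rfl) hl⟩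

end Crest.Agent.N325.Sg.Pk
end

-- ▼ part N325/Fin/Or1

/-! # Row 325 (helper51): seam (O) -/

set_option autoImplicit false

namespace Crest.Agent.N325.Fin

theorem stgStmt : StgStmt := fun c hc =>
  (Sg.Pk.ev c).mono fun _ E _ hX _ hi => Sg.Pk.stg hc E hX hi

/-- **the oracle** -/
theorem oracleStmt : OracleStmt := oracle_of_stg stgStmt

end Crest.Agent.N325.Fin
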